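import Vale.Agent.P110.Defs

/-!
# P110, module B: arithmetic (moduli and Gauss sums)
-/

namespace Vale.Agent.P110

open scoped BigOperators
open Finset

theorem crt_int {n : ℕ} (G : Fin n → ℤ) (hG : ∀ i j, i ≠ j → IsCoprime (G i) (G j))
    (a : Fin n → ℤ) : ∃ x : ℤ, ∀ i, G i ∣ x - a i := by
  classical
  have h : ∀ i, IsCoprime (G i) (∏ j ∈ univ.erase i, G j) := fun i =>
    IsCoprime.prod_right fun j hj => hG i j (ne_of_mem_erase hj).symm
  choose u v huv using h
  refine ⟨∑ i, a i * (v i * ∏ j ∈ univ.erase i, G j), fun i => ?_⟩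
  rw [← add_sum_erase univ _ (mem_univ i)]
  have e : a i * (v i * ∏ j ∈ univ.erase i, G j) - a i = G i * (-(a i * u i)) := by
    linear_combination (a i) * huv i
  have hd : G i ∣ ∑ k ∈ univ.erase i, a k * (v k * ∏ j ∈ univ.erase k, G j) := by
    refine dvd_sum fun k hk => ((dvd_prod_of_mem _ ?_).mul_left _).mul_left _
    exact mem_erase.2 ⟨(ne_of_mem_erase hk).symm, mem_univ i⟩
  have h2 := dvd_add (Dvd.intro _ e.symm) hd
  rwa [show ∀ x y z : ℤ, x - z + y = x + y - z from fun x y z => by ring] at h2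

theorem dotZ_smul_sub {d : ℕ} (h : Fin d → ℤ) (a b : ℤ) (p q : Fin d → ℤ) :
    dotZ h (fun l => a * p l - b * q l) = a * dotZ h p - b * dotZ h q := by
  simp only [dotZ, mul_sum, ← sum_sub_distrib]
  exact sum_congr rfl fun l _ => by ring

theorem dotZ_comm {d : ℕ} (h p : Fin d → ℤ) : dotZ h p = dotZ p h :=
  sum_congr rfl fun l _ => mul_comm _ _

theorem dotZ_self_ne_zero {d : ℕ} {h : Fin d → ℤ} (hh : h ≠ 0) : dotZ h h ≠ 0 := by
  intro e
  refine hh (funext fun l => ?_)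
  exact mul_self_eq_zero.1 ((sum_eq_zero_iff_of_nonneg fun k _ => mul_self_nonneg (h k)).1 e l
    (mem_univ l))

/-- An integer vector orthogonal to `h i` and to no other member of the family. -/
theorem exists_separating {d n : ℕ} {h : Fin n → Fin d → ℤ} (hp : PairIndep h)
    (hn : ∀ i, h i ≠ 0) (i : Fin n) :
    ∃ V : Fin d → ℤ, dotZ (h i) V = 0 ∧ ∀ j, j ≠ i → dotZ (h j) V ≠ 0 := by
  classical
  let w : Fin n → Fin d → ℤ := fun j l => dotZ (h i) (h i) * h j l - dotZ (h i) (h j) * h i l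
  let p : Fin n → Polynomial ℤ := fun j => ∑ l : Fin d, Polynomial.monomial (l : ℕ) (w j l)
  have hpne : ∀ j, j ≠ i → p j ≠ 0 := by
    intro j hj e
    have hw : ∀ l, w j l = 0 := fun l => by
      have := congrArg (fun q : Polynomial ℤ => q.coeff (l : ℕ)) e
      simpa [p, Polynomial.coeff_monomial, Fin.val_inj] using this
    have := hp i j hj.symm (-dotZ (h i) (h j)) (dotZ (h i) (h i))
      (fun l => by have := hw l; simp only [w] at this; linarith)
    exact dotZ_self_ne_zero (hn i) this.2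
  obtain ⟨s, hs⟩ : ∃ s : ℤ, (∏ j ∈ univ.erase i, p j).eval s ≠ 0 := by
    by_contra hc
    push Not at hc
    exact prod_ne_zero_iff.2 (fun j hj => hpne j (ne_of_mem_erase hj))
      (Polynomial.eq_zero_of_infinite_isRoot _ (Set.infinite_univ.mono fun x _ => hc x))
  rw [Polynomial.eval_prod] at hs
  let P : Fin d → ℤ := fun l => s ^ (l : ℕ)
  refine ⟨fun l => dotZ (h i) (h i) * P l - dotZ (h i) P * h i l, ?_, fun j hj => ?_⟩
  · rw [dotZ_smul_sub]; ring
  · have e : dotZ (h j) (fun l => dotZ (h i) (h i) * P l - dotZ (h i) P * h i l) =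
        (p j).eval s := by
      rw [dotZ_smul_sub, dotZ_comm (h j) (h i)]
      simp only [p, Polynomial.eval_finsetSum, Polynomial.eval_monomial, w, sub_mul,
        sum_sub_distrib, mul_assoc, ← mul_sum]
      simp only [dotZ, P]
      ring
    rw [e]
    exact prod_ne_zero_iff.1 hs j (mem_erase.2 ⟨hj, mem_univ j⟩)

theorem arith : ArithStatement := by
  classical
  intro d n h hp hn ρ hρ ξ hξ
  choose Vs hVs0 hVs using fun i => exists_separating hp hn i
  choose li hli using fun i => Function.ne_iff.1 (hn i)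
  -- the scale
  set K : ℝ := 1 + ∑ i, 4 / (ξ * ρ i) with hK
  have hterm : ∀ i, 0 ≤ 4 / (ξ * ρ i) := fun i =>
    (div_pos (by norm_num) (mul_pos hξ (hρ i))).le
  have hK0 : 0 < K := add_pos_of_pos_of_nonneg one_pos (sum_nonneg fun i _ => hterm i)
  have hKi : ∀ i, 4 ≤ K * (ξ * ρ i) := fun i => by
    rw [← div_le_iff₀ (mul_pos hξ (hρ i)), hK]
    have := single_le_sum (fun j _ => hterm j) (mem_univ i)
    linarith
  set L : ℝ := ((n : ℝ) + 1) * K
  have hL : 0 < L := mul_pos (by positivity) hK0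
  let m : Fin n → ℕ := fun i => (n + 1) * ⌈K * ρ i⌉₊ + (i : ℕ) + 1
  have hm1 : ∀ i, L * ρ i ≤ (m i : ℝ) := fun i => by
    have h1 := mul_le_mul_of_nonneg_left (Nat.le_ceil (K * ρ i)) (show (0 : ℝ) ≤ n + 1 by positivity)
    have h2 : (0 : ℝ) ≤ ((i : ℕ) : ℝ) := Nat.cast_nonneg _
    simp only [m, L]
    push_cast
    linarith
  have hm2 : ∀ i, (m i : ℝ) ≤ L * ρ i + 2 * ((n : ℝ) + 1) := fun i => by
    have h1 := mul_le_mul_of_nonneg_left (Nat.ceil_lt_add_one (mul_pos hK0 (hρ i)).le).le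
      (show (0 : ℝ) ≤ n + 1 by positivity)
    have h2 : ((i : ℕ) : ℝ) + 1 ≤ (n : ℝ) + 1 := by
      have : ((i : ℕ) : ℝ) ≤ (n : ℝ) := by exact_mod_cast i.2.le
      linarith
    simp only [m, L]
    push_cast
    linarith
  have hminj : ∀ i j, i ≠ j → (m i : ℤ) ≠ (m j : ℤ) := fun i j hij e => by
    refine hij (Fin.ext ?_)
    have e' : (n + 1) * ⌈K * ρ i⌉₊ + (i : ℕ) = (n + 1) * ⌈K * ρ j⌉₊ + (j : ℕ) := by
      have : m i = m j := by exact_mod_cast e
      simp only [m] at this; omega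
    have := congrArg (fun x => x % (n + 1)) e'
    simpa [Nat.mul_add_mod, Nat.mod_eq_of_lt (Nat.lt_succ_of_lt i.2),
      Nat.mod_eq_of_lt (Nat.lt_succ_of_lt j.2)] using this
  -- the modulus
  let D : Fin n × Fin n → ℤ := fun q =>
    if q.1 = q.2 then h q.1 (li q.1) else dotZ (h q.2) (Vs q.1) * ((m q.2 : ℤ) - (m q.1 : ℤ))
  have hD : ∀ q, D q ≠ 0 := fun q => by
    by_cases e : q.1 = q.2
    · simp only [D, e, if_true]; exact hli _
    · simp only [D, e, if_false]
      exact mul_ne_zero (hVs _ _ (Ne.symm e)) (sub_ne_zero.2 (hminj _ _ (Ne.symm e)))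
  let B : ℕ := 2 * ∏ q, (D q).natAbs
  have hB : 0 < B :=
    Nat.mul_pos two_pos (prod_pos fun q _ => Int.natAbs_pos.2 (hD q))
  have hBdvd : ∀ q, D q ∣ (B : ℤ) := fun q => by
    rw [← Int.natAbs_dvd, Int.natCast_dvd_natCast]
    exact (dvd_prod_of_mem _ (mem_univ q)).mul_left 2
  refine ⟨1 + ∑ i, 2 * (1 + (B : ℝ) * (m i : ℝ)) / (ξ * ρ i), fun C hC => ?_⟩
  have hterm2 : ∀ i, 0 ≤ 2 * (1 + (B : ℝ) * (m i : ℝ)) / (ξ * ρ i) := fun i =>
    (div_pos (by positivity) (mul_pos hξ (hρ i))).le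
  have hC0 : 0 < C := lt_of_lt_of_le
    (add_pos_of_pos_of_nonneg one_pos (sum_nonneg fun i _ => hterm2 i)) hC
  set t : ℕ := ⌈C / ((B : ℝ) * L)⌉₊
  have hBL : (0 : ℝ) < (B : ℝ) * L := mul_pos (by exact_mod_cast hB) hL
  let g : Fin n → ℕ := fun i => 1 + t * B * m i
  have hcop : ∀ i (z : ℤ), z ∣ (B : ℤ) → IsCoprime (g i : ℤ) z := fun i z hz =>
    IsCoprime.of_isCoprime_of_dvd_right
      ⟨1, -((t : ℤ) * (m i : ℤ)), by simp only [g]; push_cast; ring⟩ hz
  have hdiag : ∀ i, IsCoprime (g i : ℤ) (h i (li i)) := fun i =>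
    hcop i _ (by simpa [D] using hBdvd (i, i))
  have hoff : ∀ i j, i ≠ j → dotZ (h j) (Vs i) ∣ (B : ℤ) ∧
      ((m j : ℤ) - (m i : ℤ)) ∣ (B : ℤ) := fun i j hij => by
    have := hBdvd (i, j)
    simp only [D, hij, if_false] at this
    exact ⟨(dvd_mul_right _ _).trans this, (dvd_mul_left _ _).trans this⟩
  have hgg : ∀ i j, i ≠ j → IsCoprime (g i : ℤ) (g j : ℤ) := fun i j hij => by
    obtain ⟨u, v, huv⟩ := hcop i _ (hoff i j hij).2
    refine ⟨u + v * (m j : ℤ), -(v * (m i : ℤ)), ?_⟩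
    have e : (m j : ℤ) * (g i : ℤ) - (m i : ℤ) * (g j : ℤ) = (m j : ℤ) - (m i : ℤ) := by
      simp only [g]; push_cast; ring
    linear_combination huv + v * e
  choose V hV using fun l => crt_int (fun i => (g i : ℤ)) hgg (fun i => Vs i l)
  have hmod : ∀ i k, (g i : ℤ) ∣ dotZ (h k) V - dotZ (h k) (Vs i) := fun i k => by
    simp only [dotZ, ← sum_sub_distrib, ← mul_sub]
    exact dvd_sum fun l _ => (hV l i).mul_left _
  refine ⟨g, V, fun i => ?_, fun i => ⟨?_, ?_⟩, fun i => ?_, fun τ => ?_⟩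
  · refine ⟨t * (∏ q, (D q).natAbs) * m i, ?_⟩
    simp only [g, B]; ring
  · have h1 := Nat.le_ceil (C / ((B : ℝ) * L))
    rw [div_le_iff₀ hBL] at h1
    calc C * ρ i ≤ (t : ℝ) * ((B : ℝ) * L) * ρ i := mul_le_mul_of_nonneg_right h1 (hρ i).le
      _ = (t : ℝ) * (B : ℝ) * (L * ρ i) := by ring
      _ ≤ (t : ℝ) * (B : ℝ) * (m i : ℝ) := mul_le_mul_of_nonneg_left (hm1 i) (by positivity)
      _ ≤ (g i : ℝ) := by simp only [g]; push_cast; linarith
  · have hCi : 2 * (1 + (B : ℝ) * (m i : ℝ)) ≤ C * (ξ * ρ i) := by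
      rw [← div_le_iff₀ (mul_pos hξ (hρ i))]
      have := single_le_sum (fun j _ => hterm2 j) (mem_univ i)
      linarith
    have htle : (t : ℝ) * (B : ℝ) ≤ C / L + B := by
      have := mul_le_mul_of_nonneg_right (Nat.ceil_lt_add_one (div_pos hC0 hBL).le).le
        (Nat.cast_nonneg (α := ℝ) B)
      refine this.trans_eq ?_
      have : (B : ℝ) ≠ 0 := by exact_mod_cast hB.ne'
      field_simp
    have hmul := mul_le_mul htle le_rfl (Nat.cast_nonneg (α := ℝ) (m i))
      (add_nonneg (div_pos hC0 hL).le (Nat.cast_nonneg B))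
    have h3 : C / L * (m i : ℝ) ≤ C * ρ i + 2 * C / K := by
      calc C / L * (m i : ℝ) ≤ C / L * (L * ρ i + 2 * ((n : ℝ) + 1)) :=
            mul_le_mul_of_nonneg_left (hm2 i) (div_pos hC0 hL).le
        _ = C * ρ i + 2 * C / K := by simp only [L]; field_simp
    have h4 : 2 * C / K ≤ C * (ξ * ρ i) / 2 := by
      rw [div_le_iff₀ hK0]
      nlinarith [mul_le_mul_of_nonneg_left (hKi i) hC0.le]
    simp only [g]
    push_cast
    linarith
  · obtain ⟨A, hA⟩ := hmod i i
    rw [hVs0, sub_zero] at hA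
    refine ⟨A, hA.trans (mul_comm _ _), ?_⟩
    push_cast
    refine IsCoprime.prod_right fun j hj => ?_
    have hji := ne_of_mem_erase hj
    have h1 : IsCoprime (g j : ℤ) (dotZ (h i) (Vs j)) := hcop j _ (hoff j i hji).1
    obtain ⟨k, hk⟩ := hmod j i
    have h2 : IsCoprime (g j : ℤ) (dotZ (h i) V) := by
      rw [sub_eq_iff_eq_add] at hk
      rw [hk, add_comm]
      exact h1.add_mul_left_right k
    rw [hA] at h2
    exact h2.of_mul_right_right.symm
  · choose u v huv using hdiag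
    choose J hJ using fun l =>
      crt_int (fun i => (g i : ℤ)) hgg (fun i => if l = li i then τ i * v i else 0)
    refine ⟨J, fun i => ?_⟩
    have h1 : (g i : ℤ) ∣ dotZ (h i) J - h i (li i) * (τ i * v i) := by
      have e : h i (li i) * (τ i * v i) =
          dotZ (h i) (fun l => if l = li i then τ i * v i else 0) := by simp [dotZ]
      rw [e]
      simp only [dotZ, ← sum_sub_distrib, ← mul_sub]
      exact dvd_sum fun l _ => (hJ l i).mul_left _
    have h2 : (g i : ℤ) ∣ h i (li i) * (τ i * v i) - τ i :=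
      ⟨-(τ i * u i), by linear_combination (τ i) * huv i⟩
    have h3 := dvd_add h1 h2
    rwa [sub_add_sub_cancel] at h3

theorem cis_eq_stdAddChar (Q : ℕ) [NeZero Q] (j : ℤ) :
    cis ((j : ℝ) / (Q : ℝ)) = ZMod.stdAddChar (j : ZMod Q) := by
  rw [ZMod.stdAddChar_coe, cis]
  congr 1
  push_cast
  ring

theorem gauss : GaussStatement := by
  classical
  intro Q A hQ hA
  haveI : NeZero Q := ⟨fun h => by simp [h] at hQ⟩
  set e := ZMod.stdAddChar (N := Q)
  have hprim : e.IsPrimitive := ZMod.isPrimitive_stdAddChar Q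
  let S : ZMod Q → ℂ := fun l => ∑ k : ZMod Q, e ((A : ZMod Q) * k ^ 2 + k * l)
  have hunit : IsUnit (2 * (A : ZMod Q)) := by
    refine IsUnit.mul ?_ ?_
    · exact (ZMod.isUnit_iff_coprime 2 Q).2 (Nat.coprime_two_left.2 hQ)
    · obtain ⟨u, v, huv⟩ := hA
      refine IsUnit.of_mul_eq_one ((u : ℤ) : ZMod Q) ?_
      have := congrArg (fun z : ℤ => (z : ZMod Q)) huv
      simpa [mul_comm] using this
  have hS : ∀ l, (starRingEnd ℂ) (S l) * S l = (Q : ℂ) := by
    intro l
    simp only [S, map_sum, sum_mul_sum]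
    have hterm : ∀ k : ZMod Q, ∑ k' : ZMod Q,
        (starRingEnd ℂ) (e ((A : ZMod Q) * k ^ 2 + k * l)) *
          e ((A : ZMod Q) * k' ^ 2 + k' * l) =
        ∑ m : ZMod Q, e ((A : ZMod Q) * m ^ 2 + m * l) * e (k * (2 * A * m)) := by
      intro k
      refine (Fintype.sum_equiv (Equiv.addLeft k) _ _ fun m => ?_).symm
      simp only [Equiv.coe_addLeft]
      rw [← AddChar.map_neg_eq_conj, ← AddChar.map_add_eq_mul, ← AddChar.map_add_eq_mul]
      congr 1
      ring
    rw [sum_congr rfl fun k _ => hterm k, sum_comm]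
    simp only [← mul_sum, AddChar.sum_mulShift _ hprim, hunit.mul_right_eq_zero, ZMod.card]
    simp
  have hnorm : ∀ l, ‖S l‖ = Real.sqrt (Q : ℝ) := fun l => by
    rw [← Real.sqrt_sq (norm_nonneg (S l))]
    congr 1
    have := hS l
    rw [Complex.conj_mul'] at this
    exact_mod_cast this
  have hsq : (0 : ℝ) < Real.sqrt (Q : ℝ) :=
    Real.sqrt_pos.2 (by exact_mod_cast Nat.pos_of_ne_zero (NeZero.ne Q))
  refine ⟨fun l => S ((l : ℕ) : ZMod Q) / (Real.sqrt (Q : ℝ) : ℂ), fun l => ?_, fun k => ?_⟩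
  · rw [norm_div, hnorm, Complex.norm_real, Real.norm_eq_abs, abs_of_pos hsq, div_self hsq.ne']
  · have hbij : Function.Bijective (fun l : Fin Q => ((l : ℕ) : ZMod Q)) := by
      refine (Fintype.bijective_iff_injective_and_card _).2 ⟨fun a b hab => ?_, by simp⟩
      have := congrArg ZMod.val hab
      simp only [ZMod.val_natCast, Nat.mod_eq_of_lt a.2, Nat.mod_eq_of_lt b.2] at this
      exact Fin.ext this
    have hc : ∀ l : Fin Q, cis (-((k : ℝ) * ((l : ℕ) : ℝ)) / (Q : ℝ)) =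
        e (-((k : ZMod Q) * ((l : ℕ) : ZMod Q))) := fun l => by
      have := cis_eq_stdAddChar Q (-(k * ((l : ℕ) : ℤ)))
      push_cast at this
      simpa using this
    have hr : cis ((A : ℝ) * (k : ℝ) ^ 2 / (Q : ℝ)) = e ((A : ZMod Q) * (k : ZMod Q) ^ 2) := by
      have := cis_eq_stdAddChar Q (A * k ^ 2)
      push_cast at this
      simpa using this
    simp only [hc, hr]
    have hsum : ∑ l : Fin Q, S ((l : ℕ) : ZMod Q) * e (-((k : ZMod Q) * ((l : ℕ) : ZMod Q))) =
        (Q : ℂ) * e ((A : ZMod Q) * (k : ZMod Q) ^ 2) := by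
      rw [Fintype.sum_bijective _ hbij _ (fun l : ZMod Q => S l * e (-((k : ZMod Q) * l)))
        (fun l => rfl)]
      simp only [S, sum_mul]
      rw [sum_comm]
      have hterm : ∀ x l : ZMod Q, e ((A : ZMod Q) * x ^ 2 + x * l) * e (-((k : ZMod Q) * l)) =
          e ((A : ZMod Q) * x ^ 2) * e (l * (x - k)) := fun x l => by
        rw [← AddChar.map_add_eq_mul, ← AddChar.map_add_eq_mul]
        congr 1
        ring
      simp only [hterm, ← mul_sum, AddChar.sum_mulShift _ hprim, sub_eq_zero, ZMod.card]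
      simp [mul_comm]
    simp only [div_mul_eq_mul_div, ← sum_div, hsum]
    have hcast : (Real.sqrt (Q : ℝ) : ℂ) * (Real.sqrt (Q : ℝ) : ℂ) = (Q : ℂ) := by
      rw [← Complex.ofReal_mul, Real.mul_self_sqrt (Nat.cast_nonneg Q)]; simp
    rw [div_eq_iff (by exact_mod_cast hsq.ne')]
    linear_combination -(e ((A : ZMod Q) * (k : ZMod Q) ^ 2)) * hcast

end Vale.Agent.P110
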