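import Vale.Agent.P110.Defs

/-!
# P110: elementary facts about `cis`, the dot products and orthogonality.
-/

namespace Vale.Agent.P110

open scoped BigOperators Real
open Complex

lemma cis_add (x y : ℝ) : cis (x + y) = cis x * cis y := by
  simp only [cis, ← Complex.exp_add]; push_cast; ring_nf

lemma cis_zero : cis 0 = 1 := by simp [cis]

lemma norm_cis (x : ℝ) : ‖cis x‖ = 1 := by
  unfold cis; exact Complex.norm_exp_ofReal_mul_I _

lemma conj_cis (x : ℝ) : (starRingEnd ℂ) (cis x) = cis (-x) := by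
  simp only [cis, ← Complex.exp_conj]; congr 1
  rw [map_mul, Complex.conj_ofReal, Complex.conj_I]; push_cast; ring

lemma re_cis_neg (x : ℝ) : (cis (-x)).re = (cis x).re := by
  rw [← conj_cis]; simp

lemma cis_intCast (m : ℤ) : cis (m : ℝ) = 1 := by
  unfold cis; rw [show ((2 * Real.pi * (m : ℝ) : ℝ) : ℂ) * I = (m : ℂ) * (2 * Real.pi * I) by
    push_cast; ring]
  exact Complex.exp_int_mul_two_pi_mul_I m

lemma cis_add_int (x : ℝ) (m : ℤ) : cis (x + m) = cis x := by
  rw [cis_add, cis_intCast, mul_one]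

lemma cis_sub_int (x : ℝ) (m : ℤ) : cis (x - m) = cis x := by
  have h := cis_add_int (x - m) m
  rw [sub_add_cancel] at h; exact h.symm

lemma cis_natCast (m : ℕ) : cis (m : ℝ) = 1 := by exact_mod_cast cis_intCast (m : ℤ)

lemma cis_sub (x y : ℝ) : cis (x - y) = cis x * (starRingEnd ℂ) (cis y) := by
  rw [conj_cis, ← cis_add, sub_eq_add_neg]

@[fun_prop] lemma continuous_cis : Continuous cis := by
  unfold cis; fun_prop

lemma hasDerivAt_cis (x : ℝ) : HasDerivAt cis (2 * Real.pi * I * cis x) x := by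
  have h1 : HasDerivAt (fun y : ℝ => ((2 * Real.pi * y : ℝ) : ℂ) * I)
      (((2 * Real.pi : ℝ) : ℂ) * I) x := by
    have h0 : HasDerivAt (fun y : ℝ => 2 * Real.pi * y) (2 * Real.pi) x := by
      simpa using (hasDerivAt_id x).const_mul (2 * Real.pi)
    exact h0.ofReal_comp.mul_const I
  have h2 := h1.cexp
  show HasDerivAt (fun y : ℝ => Complex.exp (((2 * Real.pi * y : ℝ) : ℂ) * I)) _ x
  convert h2 using 1
  simp [cis]; ring

lemma exists_cis_eq {z : ℂ} (hz : ‖z‖ = 1) : ∃ x : ℝ, cis x = z := by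
  refine ⟨Complex.arg z / (2 * Real.pi), ?_⟩
  have h := Complex.norm_mul_exp_arg_mul_I z
  rw [hz] at h
  simp only [Complex.ofReal_one, one_mul] at h
  unfold cis
  rw [mul_div_cancel₀ _ (by positivity : (2 * Real.pi) ≠ 0)]
  exact h

lemma norm_cis_sub_cis_le (x y : ℝ) : ‖cis x - cis y‖ ≤ 2 * Real.pi * |x - y| := by
  have h : cis x - cis y = cis y * (cis (x - y) - 1) := by
    rw [mul_sub, mul_one, ← cis_add]; ring_nf
  rw [h, norm_mul, norm_cis, one_mul]
  have := Real.norm_exp_I_mul_ofReal_sub_one_le (x := 2 * Real.pi * (x - y))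
  unfold cis
  rw [mul_comm] at this
  refine this.trans (le_of_eq ?_)
  rw [Real.norm_eq_abs, abs_mul, abs_of_pos Real.two_pi_pos]

lemma integral_cis_int (m : ℤ) :
    ∫ θ in (0 : ℝ)..1, cis ((m : ℝ) * θ) = if m = 0 then 1 else 0 := by
  rcases eq_or_ne m 0 with rfl | hm
  · simp [cis_zero]
  · rw [if_neg hm]
    have hd : ∀ θ ∈ Set.uIcc (0 : ℝ) 1,
        HasDerivAt (fun t : ℝ => cis ((m : ℝ) * t) / (2 * Real.pi * I * m))
          (cis ((m : ℝ) * θ)) θ := by
      intro θ _
      have h1 := ((hasDerivAt_cis ((m : ℝ) * θ)).scomp θ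
        ((hasDerivAt_id θ).const_mul (m : ℝ))).div_const (2 * Real.pi * I * m : ℂ)
      have hne : (2 * Real.pi * I * m : ℂ) ≠ 0 := by
        simp [Real.pi_ne_zero, hm]
      refine h1.congr_deriv ?_
      rw [mul_one, Complex.real_smul, div_eq_iff hne]
      push_cast; ring
    rw [intervalIntegral.integral_eq_sub_of_hasDerivAt hd
      ((continuous_cis.comp (by fun_prop)).intervalIntegrable _ _)]
    simp [cis_intCast, cis_zero]

lemma dotR_add {d : ℕ} (h : Fin d → ℤ) (x y : Fin d → ℝ) :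
    dotR h (fun l => x l + y l) = dotR h x + dotR h y := by
  simp [dotR, mul_add, Finset.sum_add_distrib]

lemma dotR_smul {d : ℕ} (h : Fin d → ℤ) (a : ℝ) (x : Fin d → ℝ) :
    dotR h (fun l => a * x l) = a * dotR h x := by
  simp only [dotR, Finset.mul_sum]; congr 1; ext l; ring

lemma dotR_intCast {d : ℕ} (h A : Fin d → ℤ) : dotR h (fun l => (A l : ℝ)) = (dotZ h A : ℝ) := by
  simp [dotR, dotZ]

end Vale.Agent.P110
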