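import Mathlib

/-!
# P110: shared definitions and module interfaces for the construction of ultraflat
real Littlewood polynomials.

Each `...Statement` below is a `Prop` proved in its own file; `Main.lean` assembles them.
See `BLUEPRINT.md` in this folder for the proofs on paper.
-/

namespace Vale.Agent.P110

open scoped BigOperators Real

/-- `cis x = exp (2 π i x)`. -/
noncomputable def cis (x : ℝ) : ℂ := Complex.exp ((2 * Real.pi * x : ℝ) * Complex.I)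

/-- Integer dot product. -/
def dotZ {d : ℕ} (h A : Fin d → ℤ) : ℤ := ∑ l, h l * A l

/-- Real dot product of an integer vector with a real vector. -/
def dotR {d : ℕ} (h : Fin d → ℤ) (x : Fin d → ℝ) : ℝ := ∑ l, (h l : ℝ) * x l

/-- No two members of the family are linearly dependent (in particular none is `± ` another). -/
def PairIndep {n d : ℕ} (h : Fin n → Fin d → ℤ) : Prop :=
  ∀ i j, i ≠ j → ∀ a b : ℤ, (∀ l, a * h i l + b * h j l = 0) → a = 0 ∧ b = 0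

/-! ### F. Rounding (discrepancy) -/

/-- A vector in `[-1,1]^N` which is mostly near `±1` can be rounded to signs with a uniform
trigonometric error `δ √N`. -/
def RoundingStatement : Prop :=
  ∀ δ : ℝ, 0 < δ → ∃ η : ℝ, 0 < η ∧ ∃ N₀ : ℕ, ∀ N : ℕ, N₀ ≤ N → ∀ a : Fin N → ℝ,
    (∀ k, |a k| ≤ 1) → ∑ k, (1 - a k ^ 2) ≤ η * N →
    ∃ x : Fin N → ℝ, (∀ k, x k = 1 ∨ x k = -1) ∧
      ∀ t : ℝ, ‖∑ k : Fin N, ((x k - a k : ℝ) : ℂ) * cis (((k : ℕ) : ℝ) * t)‖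
        ≤ δ * Real.sqrt N

/-! ### A. An almost binary trigonometric polynomial on a torus -/

/-- A real trigonometric polynomial on some torus, of L² norm 1 and sup norm at most `1+δ`,
whose spectrum (given up to sign by `h`) is pairwise independent. -/
def TorusPolyStatement : Prop :=
  ∀ δ : ℝ, 0 < δ → ∃ (d n : ℕ) (h : Fin n → Fin d → ℤ) (c : Fin n → ℂ),
    2 ≤ d ∧ 0 < n ∧ PairIndep h ∧ (∀ i, h i ≠ 0) ∧ (∀ i, c i ≠ 0) ∧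
    2 * ∑ i, ‖c i‖ ^ 2 = 1 ∧
    ∀ x : Fin d → ℝ, |2 * (∑ i, c i * cis (dotR (h i) x)).re| ≤ 1 + δ

/-! ### B. Arithmetic -/

/-- Nearly proportional moduli `g`, and `V` such that `h i • V` has gcd exactly `g i`
with the product of all `g`. -/
def ArithStatement : Prop :=
  ∀ (d n : ℕ) (h : Fin n → Fin d → ℤ), PairIndep h → (∀ i, h i ≠ 0) →
    ∀ ρ : Fin n → ℝ, (∀ i, 0 < ρ i) → ∀ ξ : ℝ, 0 < ξ → ∃ C₀ : ℝ, ∀ C : ℝ, C₀ ≤ C →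
      ∃ (g : Fin n → ℕ) (V : Fin d → ℤ),
        (∀ i, Odd (g i)) ∧
        (∀ i, C * ρ i ≤ (g i : ℝ) ∧ (g i : ℝ) ≤ (1 + ξ) * (C * ρ i)) ∧
        (∀ i, ∃ A : ℤ, dotZ (h i) V = A * (g i : ℤ) ∧
          IsCoprime A (((∏ j ∈ Finset.univ.erase i, g j) : ℕ) : ℤ)) ∧
        (∀ t : Fin n → ℤ, ∃ J : Fin d → ℤ, ∀ i, (g i : ℤ) ∣ dotZ (h i) J - t i)

/-- The DFT of a quadratic phase modulo an odd `Q` is flat. -/
def GaussStatement : Prop :=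
  ∀ (Q : ℕ) (A : ℤ), Odd Q → IsCoprime A (Q : ℤ) → ∃ γ : Fin Q → ℂ, (∀ l, ‖γ l‖ = 1) ∧
    ∀ k : ℤ, ∑ l : Fin Q, γ l * cis (-((k : ℝ) * ((l : ℕ) : ℝ)) / (Q : ℝ))
      = (Real.sqrt (Q : ℝ) : ℂ) * cis ((A : ℝ) * (k : ℝ) ^ 2 / (Q : ℝ))

/-! ### C. Packing by a random colouring -/

/-- The position, inside a period of length `P * M`, of the interval (of length `r`)
attached to the window `w = (A, t)` and the harmonic `h`. -/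
def wpos {d : ℕ} (P M : ℕ) (h : Fin d → ℤ) (r : ℕ) (w : (Fin d → Fin P) × Fin M) : ℤ :=
  ((M : ℤ) * dotZ h (fun l => ((w.1 l : ℕ) : ℤ)) + (r : ℤ) * ((w.2 : ℕ) : ℤ))
    % ((P : ℤ) * (M : ℤ))

/-- Windows can be chosen so that the intervals of different harmonics, and of mirror images,
are disjoint, with multiplicity at most `g i`, and almost as many windows as expected. -/
def PackingStatement : Prop :=
  ∀ (d n : ℕ) (h : Fin n → Fin d → ℤ), 2 ≤ d → PairIndep h → (∀ i, h i ≠ 0) →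
    ∀ (v : Fin d → ℤ) (r : Fin n → ℕ), (∀ i, 0 < r i) → (∀ i, dotZ (h i) v = (r i : ℤ)) →
    ∀ M : ℕ, 0 < M → (∀ i, r i ∣ M) →
    ∀ p : Fin n → ℝ, (∀ i, 0 < p i) → 2 * ∑ i, p i = 1 →
    ∀ ξ : ℝ, 0 < ξ → ∃ P₀ : ℕ, ∀ P : ℕ, P.Prime → P₀ ≤ P →
      ∀ g : Fin n → ℕ,
        (∀ i, (r i : ℝ) * (P : ℝ) ^ (d - 1) * (∏ j, p j) / p i ≤ (g i : ℝ)) →
        ∃ W : Finset ((Fin d → Fin P) × Fin M),
          (1 - ξ) * (∏ j, p j) * (P : ℝ) ^ d * (M : ℝ) ≤ (W.card : ℝ) ∧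
          (∀ i j, ∀ w ∈ W, ∀ w' ∈ W, ∀ s < r i, ∀ s' < r j,
            wpos P M (h i) (r i) w + (s : ℤ) = wpos P M (h j) (r j) w' + (s' : ℤ) →
              i = j ∧ wpos P M (h i) (r i) w = wpos P M (h j) (r j) w' ∧ s = s') ∧
          (∀ i j, ∀ w ∈ W, ∀ w' ∈ W, ∀ s < r i, ∀ s' < r j,
            wpos P M (h i) (r i) w + (s : ℤ) + (wpos P M (h j) (r j) w' + (s' : ℤ)) + 1
              ≠ (P : ℤ) * (M : ℤ)) ∧
          (∀ i, ∀ z : ℤ, (W.filter (fun w => wpos P M (h i) (r i) w = z)).card ≤ g i)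

/-! ### D. Oscillatory integrals -/

/-- `oscJ Γ Λ τ = √Λ ∫₀¹ cis (Λ (Γ σ - τ σ)) dσ`. -/
noncomputable def oscJ (G : ℝ → ℝ) (Λ τ : ℝ) : ℂ :=
  (Real.sqrt Λ : ℂ) * ∫ σ in (0 : ℝ)..1, cis (Λ * (G σ - τ * σ))

/-- A profile `G` (derivative `T`, second derivative `T2`) with steep ends: stationary phase
holds with amplitude at most `1+η` inside, and the integral is at most `η` elsewhere. -/
def OscStatement : Prop :=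
  ∀ η : ℝ, 0 < η → η < 1 / 2 → ∃ (G T T2 : ℝ → ℝ) (ζ : ℂ) (Λ₀ : ℝ) (a ψ : ℝ → ℝ),
    (∀ σ, HasDerivAt G (T σ) σ) ∧ (∀ σ, HasDerivAt T (T2 σ) σ) ∧ Continuous T2 ∧
    T 0 = 0 ∧ T 1 = 1 ∧ (∀ σ ∈ Set.Icc (0 : ℝ) 1, T σ ∈ Set.Icc (0 : ℝ) 1) ∧
    ‖ζ‖ = 1 ∧ 0 < Λ₀ ∧ (∀ τ, |a τ| ≤ 1 + η) ∧
    (∀ Λ, Λ₀ ≤ Λ → ∀ τ ∈ Set.Ico (0 : ℝ) 1,
      ‖oscJ G Λ τ - (a τ : ℂ) * ζ * cis (Λ * ψ τ)‖ ≤ η) ∧
    (∀ Λ, Λ₀ ≤ Λ → ∀ τ : ℝ, τ ∉ Set.Ico (0 : ℝ) 1 → ‖oscJ G Λ τ‖ ≤ η) ∧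
    (∀ Λ, 0 < Λ → ∀ τ : ℝ, τ < 0 → ‖oscJ G Λ τ‖ ≤ 1 / (Real.sqrt Λ * (-τ))) ∧
    (∀ Λ, 0 < Λ → ∀ τ : ℝ, 1 < τ → ‖oscJ G Λ τ‖ ≤ 1 / (Real.sqrt Λ * (τ - 1)))

/-! ### E. Smoothing -/

/-- Fourier coefficient of the real (conjugate-symmetric) unimodular function which equals
`cis (ψ n)` on the `n`-th of the `H` equal cells of `[0,1/2]`. -/
noncomputable def halfCoeff (H : ℕ) (ψ : Fin H → ℝ → ℝ) (k : ℤ) : ℝ :=
  2 * (∑ n : Fin H,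
    ∫ θ in (((n : ℕ) : ℝ) / (2 * (H : ℝ)))..((((n : ℕ) : ℝ) + 1) / (2 * (H : ℝ))),
      cis (ψ n θ - (k : ℝ) * θ)).re

/-- Such a function, with phase derivative in `[0,N]`, is close to a flat polynomial of degree
`(1+ε) N` whose coefficients are no larger, up to `ε/√N`. -/
def SmoothingStatement : Prop :=
  ∀ H : ℕ, 0 < H → ∀ C : ℝ, ∀ ε : ℝ, 0 < ε → ∃ N₁ : ℕ, ∀ N : ℕ, N₁ ≤ N →
    ∀ ψ ψ1 ψ2 : Fin H → ℝ → ℝ,
      (∀ n θ, HasDerivAt (ψ n) (ψ1 n θ) θ) → (∀ n θ, HasDerivAt (ψ1 n) (ψ2 n θ) θ) →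
      (∀ n : Fin H, ∀ θ ∈ Set.Icc (((n : ℕ) : ℝ) / (2 * (H : ℝ)))
          ((((n : ℕ) : ℝ) + 1) / (2 * (H : ℝ))),
        0 ≤ ψ1 n θ ∧ ψ1 n θ ≤ (N : ℝ) ∧ |ψ2 n θ| ≤ C * (N : ℝ)) →
      ∃ (D : ℕ) (s : ℤ) (b : Fin D → ℝ),
        N ≤ D ∧ (D : ℝ) ≤ (1 + ε) * (N : ℝ) ∧
        (∀ k : Fin D, |b k| ≤ |halfCoeff H ψ (((k : ℕ) : ℤ) + s)| + ε / Real.sqrt N) ∧
        ∀ θ : ℝ, |‖∑ k : Fin D, (b k : ℂ) * cis (((k : ℕ) : ℝ) * θ)‖ - 1| ≤ ε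

end Vale.Agent.P110
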