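import Vale.Agent.P110.Basic

/-!
# P110, assembly: cells, segments and folding onto the half circle.
-/

namespace Vale.Agent.P110

open scoped BigOperators Real
open Complex

/-- The contribution of the cell `[x/G₀, (x+1)/G₀]` to the `k`-th Fourier coefficient. -/
noncomputable def cellI (G₀ : ℕ) (f : ℝ → ℝ) (k : ℤ) (x : ℤ) : ℂ :=
  ∫ θ in ((x : ℝ) / (G₀ : ℝ))..(((x : ℝ) + 1) / (G₀ : ℝ)), cis (f θ - (k : ℝ) * θ)

/-- The phase on a segment: starts at `θ₀`, has length `len`, corresponds to the time interval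
starting at `T₀` of duration `D`. -/
noncomputable def segPhase (G : ℝ → ℝ) (θ₀ len T₀ D c : ℝ) (θ : ℝ) : ℝ :=
  c + T₀ * (θ - θ₀) + D * len * G ((θ - θ₀) / len)

lemma hasDerivAt_segPhase {G T : ℝ → ℝ} (hG : ∀ σ, HasDerivAt G (T σ) σ)
    {θ₀ len T₀ D c : ℝ} (hlen : len ≠ 0) (θ : ℝ) :
    HasDerivAt (segPhase G θ₀ len T₀ D c) (T₀ + D * T ((θ - θ₀) / len)) θ := by
  have h0 : HasDerivAt (fun t : ℝ => (t - θ₀) / len) (1 / len) θ :=
    ((hasDerivAt_id θ).sub_const θ₀).div_const len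
  have h1 : HasDerivAt (fun t : ℝ => G ((t - θ₀) / len)) (T ((θ - θ₀) / len) * (1 / len)) θ :=
    (hG _).comp θ h0
  have h2 : HasDerivAt (fun t : ℝ => c + T₀ * (t - θ₀)) T₀ θ := by
    simpa using (((hasDerivAt_id θ).sub_const θ₀).const_mul T₀).const_add c
  have h3 := h2.add (h1.const_mul (D * len))
  refine HasDerivAt.congr_deriv h3 ?_
  field_simp

lemma hasDerivAt_segPhase1 {T T2 : ℝ → ℝ} (hT : ∀ σ, HasDerivAt T (T2 σ) σ)
    {θ₀ len T₀ D : ℝ} (θ : ℝ) :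
    HasDerivAt (fun t => T₀ + D * T ((t - θ₀) / len))
      (D / len * T2 ((θ - θ₀) / len)) θ := by
  have h0 : HasDerivAt (fun t : ℝ => (t - θ₀) / len) (1 / len) θ :=
    ((hasDerivAt_id θ).sub_const θ₀).div_const len
  have h1 : HasDerivAt (fun t : ℝ => T ((t - θ₀) / len)) (T2 ((θ - θ₀) / len) * (1 / len)) θ :=
    (hT _).comp θ h0
  refine HasDerivAt.congr_deriv ((h1.const_mul D).const_add T₀) ?_
  ring

lemma segPhase_integral (G : ℝ → ℝ) {θ₀ len T₀ D c : ℝ} (hlen : 0 < len) (hD : 0 < D) (k : ℝ) :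
    ∫ θ in θ₀..(θ₀ + len), cis (segPhase G θ₀ len T₀ D c θ - k * θ)
      = cis (c - k * θ₀) * (Real.sqrt (len / D) : ℂ) * oscJ G (D * len) ((k - T₀) / D) := by
  have h1 : ∫ θ in θ₀..(θ₀ + len), cis (segPhase G θ₀ len T₀ D c θ - k * θ)
      = (len : ℂ) * ∫ σ in (0 : ℝ)..1,
          cis (segPhase G θ₀ len T₀ D c (len * σ + θ₀) - k * (len * σ + θ₀)) := by
    have := intervalIntegral.smul_integral_comp_mul_add
      (fun θ => cis (segPhase G θ₀ len T₀ D c θ - k * θ)) len θ₀ (a := (0 : ℝ)) (b := 1)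
    rw [Complex.real_smul] at this
    rw [this]; simp [add_comm]
  have h2 : ∀ σ : ℝ, cis (segPhase G θ₀ len T₀ D c (len * σ + θ₀) - k * (len * σ + θ₀))
      = cis (c - k * θ₀) * cis (D * len * (G σ - (k - T₀) / D * σ)) := by
    intro σ
    rw [← cis_add]
    congr 1
    simp only [segPhase, add_sub_cancel_right]
    rw [mul_div_cancel_left₀ _ hlen.ne']
    field_simp
    ring
  rw [h1, intervalIntegral.integral_congr (fun σ _ => h2 σ), intervalIntegral.integral_const_mul]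
  unfold oscJ
  have h3 : Real.sqrt (len / D) * Real.sqrt (D * len) = len := by
    rw [← Real.sqrt_mul (by positivity), show len / D * (D * len) = len * len by field_simp,
      Real.sqrt_mul_self hlen.le]
  have h4 : (Real.sqrt (len / D) : ℂ) * (Real.sqrt (D * len) : ℂ) = (len : ℂ) := by
    rw [← Complex.ofReal_mul, h3]
  rw [← h4]; ring

lemma sum_cellI {G₀ : ℕ} {f : ℝ → ℝ} (hf : Continuous f) (k : ℤ) (Z : ℤ) (r : ℕ) :
    ∑ s ∈ Finset.range r, cellI G₀ f k (Z + (s : ℤ))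
      = ∫ θ in ((Z : ℝ) / (G₀ : ℝ))..(((Z : ℝ) + r) / (G₀ : ℝ)), cis (f θ - (k : ℝ) * θ) := by
  have hc : Continuous fun θ : ℝ => cis (f θ - (k : ℝ) * θ) := by fun_prop
  have := intervalIntegral.sum_integral_adjacent_intervals
    (a := fun s : ℕ => ((Z : ℝ) + s) / (G₀ : ℝ)) (n := r) (μ := MeasureTheory.volume)
    (fun s _ => hc.intervalIntegrable _ _)
  simp only [Nat.cast_zero, add_zero] at this
  rw [← this]
  refine Finset.sum_congr rfl fun s _ => ?_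
  simp only [cellI]
  push_cast
  rw [add_assoc]

/-- The index of the cell of the half circle onto which the cell `x` folds. -/
def foldIdx (H : ℕ) (x : ℤ) : ℤ :=
  if x % (2 * (H : ℤ)) < (H : ℤ) then x % (2 * (H : ℤ))
  else 2 * (H : ℤ) - 1 - x % (2 * (H : ℤ))

lemma foldIdx_nonneg {H : ℕ} (hH : 0 < H) (x : ℤ) : 0 ≤ foldIdx H x ∧ foldIdx H x < (H : ℤ) := by
  have h1 := Int.emod_nonneg x (show (2 * (H : ℤ)) ≠ 0 by positivity)
  have h2 := Int.emod_lt_of_pos x (show (0 : ℤ) < 2 * (H : ℤ) by positivity)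
  unfold foldIdx; split_ifs <;> omega

lemma foldIdx_eq_imp {H : ℕ} {x y : ℤ} (h : foldIdx H x = foldIdx H y) :
    (2 * (H : ℤ)) ∣ x - y ∨ (2 * (H : ℤ)) ∣ x + y + 1 := by
  have hx := Int.emod_add_mul_ediv x (2 * (H : ℤ))
  have hy := Int.emod_add_mul_ediv y (2 * (H : ℤ))
  unfold foldIdx at h
  split_ifs at h
  · exact Or.inl ⟨x / (2 * (H : ℤ)) - y / (2 * (H : ℤ)), by linarith⟩
  · exact Or.inr ⟨x / (2 * (H : ℤ)) + y / (2 * (H : ℤ)) + 1, by linarith⟩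
  · exact Or.inr ⟨x / (2 * (H : ℤ)) + y / (2 * (H : ℤ)) + 1, by linarith⟩
  · exact Or.inl ⟨x / (2 * (H : ℤ)) - y / (2 * (H : ℤ)), by linarith⟩

lemma foldIdx_of_lt {H : ℕ} {x : ℤ} (h0 : 0 ≤ x) (h1 : x < (H : ℤ)) : foldIdx H x = x := by
  unfold foldIdx
  rw [Int.emod_eq_of_lt h0 (by omega), if_pos h1]

/-- Moving a phase from the cell `x` to the cell `foldIdx H x`. -/
lemma fold_phase {H : ℕ} (hH : 0 < H) (x : ℤ) {f f1 f2 : ℝ → ℝ}
    (hf : ∀ θ, HasDerivAt f (f1 θ) θ) (hf1 : ∀ θ, HasDerivAt f1 (f2 θ) θ) {lo hi B : ℝ}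
    (hb : ∀ θ ∈ Set.Icc ((x : ℝ) / (2 * (H : ℝ))) (((x : ℝ) + 1) / (2 * (H : ℝ))),
      lo ≤ f1 θ ∧ f1 θ ≤ hi ∧ |f2 θ| ≤ B) :
    ∃ g g1 g2 : ℝ → ℝ, (∀ θ, HasDerivAt g (g1 θ) θ) ∧ (∀ θ, HasDerivAt g1 (g2 θ) θ) ∧
      (∀ θ ∈ Set.Icc ((foldIdx H x : ℝ) / (2 * (H : ℝ)))
          (((foldIdx H x : ℝ) + 1) / (2 * (H : ℝ))),
        lo ≤ g1 θ ∧ g1 θ ≤ hi ∧ |g2 θ| ≤ B) ∧
      ∀ k : ℤ, (cellI (2 * H) g k (foldIdx H x)).re = (cellI (2 * H) f k x).re := by
  have hHR : (0 : ℝ) < 2 * (H : ℝ) := by positivity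
  have hx := Int.emod_add_mul_ediv x (2 * (H : ℤ))
  generalize hm : x % (2 * (H : ℤ)) = m at hx
  generalize hj : x / (2 * (H : ℤ)) = j at hx
  have hxR : (x : ℝ) / (2 * (H : ℝ)) = (m : ℝ) / (2 * (H : ℝ)) + j := by
    rw [← hx]; push_cast; field_simp
  have hxR1 : ((x : ℝ) + 1) / (2 * (H : ℝ)) = ((m : ℝ) + 1) / (2 * (H : ℝ)) + j := by
    rw [← hx]; push_cast; field_simp; ring
  rcases lt_or_ge m (H : ℤ) with hlt | hge
  · have hF : foldIdx H x = m := by unfold foldIdx; rw [hm, if_pos hlt]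
    refine ⟨fun θ => f (θ + j), fun θ => f1 (θ + j), fun θ => f2 (θ + j),
      fun θ => (hf _).comp_add_const θ j, fun θ => (hf1 _).comp_add_const θ j, ?_, ?_⟩
    · intro θ hθ
      rw [hF] at hθ
      refine hb _ ⟨?_, ?_⟩
      · rw [hxR]; linarith [hθ.1]
      · rw [hxR1]; linarith [hθ.2]
    · intro k
      rw [hF]
      congr 1
      unfold cellI
      push_cast
      rw [hxR, hxR1]
      rw [← intervalIntegral.integral_comp_add_right
        (fun θ => cis (f θ - (k : ℝ) * θ)) (j : ℝ)]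
      refine intervalIntegral.integral_congr fun θ _ => ?_
      show cis (f (θ + j) - (k : ℝ) * θ) = cis (f (θ + j) - (k : ℝ) * (θ + j))
      rw [show f (θ + j) - (k : ℝ) * (θ + j) = f (θ + j) - (k : ℝ) * θ - ((k * j : ℤ) : ℝ) by
        push_cast; ring, cis_sub_int]
  · have hF : foldIdx H x = 2 * (H : ℤ) - 1 - m := by
      unfold foldIdx; rw [hm, if_neg (not_lt.mpr hge)]
    have e1 : ((foldIdx H x : ℝ)) / (2 * (H : ℝ)) = 1 - ((m : ℝ) + 1) / (2 * (H : ℝ)) := by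
      rw [hF]; push_cast; field_simp; ring
    have e2 : ((foldIdx H x : ℝ) + 1) / (2 * (H : ℝ)) = 1 - (m : ℝ) / (2 * (H : ℝ)) := by
      rw [hF]; push_cast; field_simp; ring
    refine ⟨fun θ => -f ((j : ℝ) + 1 - θ), fun θ => f1 ((j : ℝ) + 1 - θ),
      fun θ => -f2 ((j : ℝ) + 1 - θ), fun θ => ?_, fun θ => ?_, ?_, ?_⟩
    · refine HasDerivAt.congr_deriv
        (((hf _).comp θ ((hasDerivAt_id θ).const_sub ((j : ℝ) + 1))).neg) ?_
      simp
    · refine HasDerivAt.congr_deriv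
        ((hf1 _).comp θ ((hasDerivAt_id θ).const_sub ((j : ℝ) + 1))) ?_
      simp
    · intro θ hθ
      rw [e1, e2] at hθ
      have := hb ((j : ℝ) + 1 - θ)
        ⟨by rw [hxR]; linarith [hθ.2], by rw [hxR1]; linarith [hθ.1]⟩
      simpa using this
    · intro k
      unfold cellI
      push_cast
      rw [e1, e2]
      have h1 := intervalIntegral.integral_comp_sub_left
        (fun u => cis (-(f u - (k : ℝ) * u))) ((j : ℝ) + 1)
        (a := 1 - ((m : ℝ) + 1) / (2 * (H : ℝ))) (b := 1 - (m : ℝ) / (2 * (H : ℝ)))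
      have h2 : ∀ θ : ℝ, cis (-f ((j : ℝ) + 1 - θ) - (k : ℝ) * θ)
          = cis (-(f ((j : ℝ) + 1 - θ) - (k : ℝ) * ((j : ℝ) + 1 - θ))) := by
        intro θ
        rw [show -(f ((j : ℝ) + 1 - θ) - (k : ℝ) * ((j : ℝ) + 1 - θ))
          = -f ((j : ℝ) + 1 - θ) - (k : ℝ) * θ + ((k * (j + 1) : ℤ) : ℝ) by push_cast; ring,
          cis_add_int]
      rw [intervalIntegral.integral_congr (fun θ _ => h2 θ), h1]
      have e3 : (j : ℝ) + 1 - (1 - (m : ℝ) / (2 * (H : ℝ))) = (x : ℝ) / (2 * (H : ℝ)) := by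
        rw [hxR]; ring
      have e4 : (j : ℝ) + 1 - (1 - ((m : ℝ) + 1) / (2 * (H : ℝ)))
          = ((x : ℝ) + 1) / (2 * (H : ℝ)) := by rw [hxR1]; ring
      rw [e3, e4]
      simp_rw [← conj_cis]
      rw [intervalIntegral.intervalIntegral_conj]
      simp

/-- A family of cells meeting each pair of mirrored cells exactly once gives phases on the half
circle with the same coefficients. -/
lemma exists_half_phases {H : ℕ} (hH : 0 < H) {ι : Type} [Fintype ι] (hcard : Fintype.card ι = H)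
    (x : ι → ℤ)
    (hinj : ∀ a b, (2 * (H : ℤ)) ∣ x a - x b ∨ (2 * (H : ℤ)) ∣ x a + x b + 1 → a = b)
    (f f1 f2 : ι → ℝ → ℝ) (hf : ∀ a θ, HasDerivAt (f a) (f1 a θ) θ)
    (hf1 : ∀ a θ, HasDerivAt (f1 a) (f2 a θ) θ) {lo hi B : ℝ}
    (hb : ∀ a, ∀ θ ∈ Set.Icc ((x a : ℝ) / (2 * (H : ℝ))) (((x a : ℝ) + 1) / (2 * (H : ℝ))),
      lo ≤ f1 a θ ∧ f1 a θ ≤ hi ∧ |f2 a θ| ≤ B) :
    ∃ ψ ψ1 ψ2 : Fin H → ℝ → ℝ, (∀ n θ, HasDerivAt (ψ n) (ψ1 n θ) θ) ∧
      (∀ n θ, HasDerivAt (ψ1 n) (ψ2 n θ) θ) ∧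
      (∀ n : Fin H, ∀ θ ∈ Set.Icc (((n : ℕ) : ℝ) / (2 * (H : ℝ)))
          ((((n : ℕ) : ℝ) + 1) / (2 * (H : ℝ))),
        lo ≤ ψ1 n θ ∧ ψ1 n θ ≤ hi ∧ |ψ2 n θ| ≤ B) ∧
      ∀ k : ℤ, halfCoeff H ψ k = 2 * (∑ a, cellI (2 * H) (f a) k (x a)).re := by
  classical
  have hlt : ∀ a, (foldIdx H (x a)).toNat < H := fun a => by
    have := foldIdx_nonneg hH (x a); omega
  let F : ι → Fin H := fun a => ⟨(foldIdx H (x a)).toNat, hlt a⟩
  have hFi : Function.Injective F := by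
    intro a b hab
    refine hinj a b (foldIdx_eq_imp ?_)
    have h := congrArg Fin.val hab
    simp only [F] at h
    have h1 := foldIdx_nonneg hH (x a)
    have h2 := foldIdx_nonneg hH (x b)
    omega
  have hFb : Function.Bijective F :=
    (Fintype.bijective_iff_injective_and_card F).mpr ⟨hFi, by simp [hcard]⟩
  let e := Equiv.ofBijective F hFb
  choose g g1 g2 hg hg1 hgb hgc using fun a => fold_phase hH (x a) (hf a) (hf1 a) (hb a)
  have hv : ∀ a, (((F a : Fin H) : ℕ) : ℤ) = foldIdx H (x a) := fun a => by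
    have := foldIdx_nonneg hH (x a); simp only [F]; omega
  refine ⟨fun n => g (e.symm n), fun n => g1 (e.symm n), fun n => g2 (e.symm n),
    fun n => hg _, fun n => hg1 _, ?_, ?_⟩
  · intro n θ hθ
    obtain ⟨a, rfl⟩ := e.surjective n
    simp only [Equiv.symm_apply_apply]
    refine hgb a θ ?_
    have hva : ((((e a : Fin H)) : ℕ) : ℝ) = ((foldIdx H (x a) : ℤ) : ℝ) := by
      rw [← hv a]; push_cast; rfl
    rw [← hva]; exact hθ
  · intro k
    unfold halfCoeff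
    congr 1
    rw [Complex.re_sum, Complex.re_sum, ← Equiv.sum_comp e]
    refine Finset.sum_congr rfl fun a _ => ?_
    simp only [Equiv.symm_apply_apply]
    rw [← hgc a k]
    have hva : ((((e a : Fin H)) : ℕ) : ℝ) = ((foldIdx H (x a) : ℤ) : ℝ) := by
      rw [← hv a]; push_cast; rfl
    simp only [cellI, hva]
    push_cast
    ring_nf

end Vale.Agent.P110
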