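import Vale.Agent.P110.MainTarget

/-!
# P110, assembly: the coefficient bound for the target of a frame.
-/

namespace Vale.Agent.P110

open scoped BigOperators Real
open Complex

variable {d n : ℕ} {h : Fin n → Fin d → ℤ} {c : Fin n → ℂ} {r : Fin n → ℕ} {v : Fin d → ℤ}
  {ζ : ℂ}

/-- The cells of a frame. -/
abbrev Frame.Cell (F : Frame d n h c r v ζ) : Type :=
  (i : Fin n) × (Fin F.mW × Fin (F.Q i) × Fin (r i))

/-- The phase carried by each cell. -/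
noncomputable def Frame.phaseFun (F : Frame d n h c r v ζ) (G : ℝ → ℝ) (L N : ℝ) :
    F.Cell ⊕ Fin F.γc → ℝ → ℝ :=
  Sum.elim
    (fun z => segPhase G ((F.Z z.1 z.2.1 z.2.2.1 : ℝ) / ((2 * F.H : ℕ) : ℝ))
      ((r z.1 : ℝ) / ((2 * F.H : ℕ) : ℝ)) (((z.2.1 : ℕ) : ℝ) * L) L (F.χ z.1 z.2.2.1))
    (fun j => segPhase G (((F.gap j : ℤ) : ℝ) / ((2 * F.H : ℕ) : ℝ))
      (((1 : ℕ) : ℝ) / ((2 * F.H : ℕ) : ℝ)) (((j : ℕ) : ℝ) * (N / (F.γc : ℝ)))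
      (N / (F.γc : ℝ)) 0)

/-- The cell positions. -/
def Frame.pos (F : Frame d n h c r v ζ) : F.Cell ⊕ Fin F.γc → ℤ :=
  Sum.elim (fun z => F.Z z.1 z.2.1 z.2.2.1 + ((z.2.2.2 : ℕ) : ℤ)) (fun j => (F.gap j : ℤ))

lemma Frame.omega_nonneg (F : Frame d n h c r v ζ) (i : Fin n) : 0 ≤ F.ω i := by
  rw [F.omega_eq]; positivity

lemma Frame.omega_sum (F : Frame d n h c r v ζ) :
    ∑ i, F.ω i + (F.γc : ℝ) / (2 * (F.H : ℝ)) = 1 / 2 := by
  have hHR : (0 : ℝ) < (F.H : ℝ) := by exact_mod_cast F.hH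
  simp only [F.omega_eq]
  rw [← Finset.sum_div, ← add_div]
  have h1 : (∑ i : Fin n, (F.mW : ℝ) * (F.Q i : ℝ) * (r i : ℝ)) + (F.γc : ℝ) = (F.H : ℝ) := by
    exact_mod_cast F.card_eq
  rw [h1]; field_simp

lemma Frame.gap_div (F : Frame d n h c r v ζ) (j : Fin F.γc) : 0 < (F.γc : ℝ) := by
  exact_mod_cast (Nat.zero_lt_of_lt j.2)

/-- Derivatives of the cell phases and their bounds. -/
lemma Frame.phase_bounds (F : Frame d n h c r v ζ) (hr : ∀ i, 0 < r i) {G T T2 : ℝ → ℝ}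
    (hG : ∀ σ, HasDerivAt G (T σ) σ) (hT : ∀ σ, HasDerivAt T (T2 σ) σ)
    (hT01 : ∀ σ ∈ Set.Icc (0 : ℝ) 1, T σ ∈ Set.Icc (0 : ℝ) 1) {BT : ℝ}
    (hBT : ∀ σ ∈ Set.Icc (0 : ℝ) 1, |T2 σ| ≤ BT) {L : ℝ} (hL : 0 < L) :
    ∃ f1 f2 : F.Cell ⊕ Fin F.γc → ℝ → ℝ,
      (∀ a θ, HasDerivAt (F.phaseFun G L ((F.mW : ℝ) * L) a) (f1 a θ) θ) ∧
      (∀ a θ, HasDerivAt (f1 a) (f2 a θ) θ) ∧
      ∀ a, ∀ θ ∈ Set.Icc ((F.pos a : ℝ) / (2 * (F.H : ℝ)))
          (((F.pos a : ℝ) + 1) / (2 * (F.H : ℝ))),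
        0 ≤ f1 a θ ∧ f1 a θ ≤ (F.mW : ℝ) * L ∧
          |f2 a θ| ≤ (2 * (F.H : ℝ)) * BT * ((F.mW : ℝ) * L) := by
  have hG0 : 0 < 2 * F.H := by have := F.hH; omega
  have hG0R : (0 : ℝ) < ((2 * F.H : ℕ) : ℝ) := by exact_mod_cast hG0
  have hcast : ((2 * F.H : ℕ) : ℝ) = 2 * (F.H : ℝ) := by push_cast; rfl
  have hmW : (0 : ℝ) < (F.mW : ℝ) := by exact_mod_cast F.hmW
  refine ⟨Sum.elim
      (fun z θ => ((z.2.1 : ℕ) : ℝ) * L + L * T ((θ - (F.Z z.1 z.2.1 z.2.2.1 : ℝ)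
        / ((2 * F.H : ℕ) : ℝ)) / ((r z.1 : ℝ) / ((2 * F.H : ℕ) : ℝ))))
      (fun j θ => ((j : ℕ) : ℝ) * (((F.mW : ℝ) * L) / (F.γc : ℝ))
        + ((F.mW : ℝ) * L) / (F.γc : ℝ) * T ((θ - ((F.gap j : ℤ) : ℝ) / ((2 * F.H : ℕ) : ℝ))
          / (((1 : ℕ) : ℝ) / ((2 * F.H : ℕ) : ℝ)))),
    Sum.elim
      (fun z θ => L / ((r z.1 : ℝ) / ((2 * F.H : ℕ) : ℝ)) * T2 ((θ - (F.Z z.1 z.2.1 z.2.2.1 : ℝ)
        / ((2 * F.H : ℕ) : ℝ)) / ((r z.1 : ℝ) / ((2 * F.H : ℕ) : ℝ))))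
      (fun j θ => ((F.mW : ℝ) * L) / (F.γc : ℝ) / (((1 : ℕ) : ℝ) / ((2 * F.H : ℕ) : ℝ))
        * T2 ((θ - ((F.gap j : ℤ) : ℝ) / ((2 * F.H : ℕ) : ℝ))
          / (((1 : ℕ) : ℝ) / ((2 * F.H : ℕ) : ℝ)))), ?_, ?_, ?_⟩
  · rintro (z | j) θ
    · exact hasDerivAt_segPhase hG
        (div_ne_zero (by exact_mod_cast (hr z.1).ne') hG0R.ne') θ
    · exact hasDerivAt_segPhase hG (div_ne_zero (by norm_num) hG0R.ne') θ
  · rintro (z | j) θ
    · exact hasDerivAt_segPhase1 hT θ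
    · exact hasDerivAt_segPhase1 hT θ
  · rintro (z | j) θ hθ
    · simp only [Frame.pos, Sum.elim_inl] at hθ
      push_cast at hθ
      rw [← hcast] at hθ
      have hj : ((z.2.1 : ℕ) : ℝ) + 1 ≤ (F.mW : ℝ) := by exact_mod_cast z.2.1.2
      obtain ⟨h1, h2, h3⟩ := seg_bounds (N := (F.mW : ℝ) * L) (s := (z.2.2.2 : ℕ)) hT01 hBT hG0
        (F.Z z.1 z.2.1 z.2.2.1) z.2.2.2.2 hL (show (0 : ℝ) ≤ ((z.2.1 : ℕ) : ℝ) * L by positivity)
        (show ((z.2.1 : ℕ) : ℝ) * L + L ≤ (F.mW : ℝ) * L by nlinarith) hθ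
      refine ⟨h1, h2, h3.trans (le_of_eq ?_)⟩
      rw [hcast]; ring
    · simp only [Frame.pos, Sum.elim_inr] at hθ
      rw [← hcast] at hθ
      have hγ : (0 : ℝ) < (F.γc : ℝ) := F.gap_div j
      have hj : ((j : ℕ) : ℝ) + 1 ≤ (F.γc : ℝ) := by exact_mod_cast j.2
      obtain ⟨h1, h2, h3⟩ := seg_bounds (N := (F.mW : ℝ) * L) (s := 0) hT01 hBT hG0
        (F.gap j : ℤ) Nat.one_pos
        (show 0 < ((F.mW : ℝ) * L) / (F.γc : ℝ) by positivity)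
        (show (0 : ℝ) ≤ ((j : ℕ) : ℝ) * (((F.mW : ℝ) * L) / (F.γc : ℝ)) by positivity)
        (show ((j : ℕ) : ℝ) * (((F.mW : ℝ) * L) / (F.γc : ℝ)) + ((F.mW : ℝ) * L) / (F.γc : ℝ)
            ≤ (F.mW : ℝ) * L by
          rw [← mul_div_assoc, ← add_div, div_le_iff₀ hγ]
          nlinarith [mul_pos hmW hL])
        (θ := θ) (by simpa using hθ)
      refine ⟨h1, h2, h3.trans (le_of_eq ?_)⟩
      rw [hcast]; ring

lemma norm_sum_error {m : ℕ} {E : ℝ → ℂ} {η ε : ℝ} (hη : 0 ≤ η) (hε : 0 ≤ ε)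
    (hE : ∀ τ, ‖E τ‖ ≤ η) (hfar : ∀ τ, τ ≤ -1 ∨ 2 ≤ τ → ‖E τ‖ ≤ ε) (u : ℝ) {w : Fin m → ℂ}
    (hw : ∀ j, ‖w j‖ ≤ 1) : ‖∑ j : Fin m, w j * E (u - ((j : ℕ) : ℝ))‖ ≤ 3 * η + m * ε := by
  refine (norm_sum_le _ _).trans (le_trans (Finset.sum_le_sum fun j _ => ?_)
    (sum_shift_le hη hε hE hfar u))
  rw [norm_mul]
  exact mul_le_of_le_one_left (norm_nonneg _) (hw j)

/-- The coefficient bound. -/
lemma Frame.coeff_bound (F : Frame d n h c r v ζ) (hr : ∀ i, 0 < r i) (hc : ∀ i, c i ≠ 0)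
    (hsum : 2 * ∑ i, ‖c i‖ ^ 2 = 1) (hvr : ∀ i, dotZ (h i) v = (r i : ℤ)) {δ₁ : ℝ}
    (hδ₁ : 0 ≤ δ₁) (hsup : ∀ x : Fin d → ℝ, |2 * (∑ i, c i * cis (dotR (h i) x)).re| ≤ 1 + δ₁)
    {ξ : ℝ} (hξ : 0 ≤ ξ) (hlow : ∀ i, (1 - 2 * ξ) * ‖c i‖ ^ 2 ≤ F.ω i)
    (hξ1 : ξ ≤ 1 / 2) {G : ℝ → ℝ} (hGc : Continuous G) (hζ : ‖ζ‖ = 1)
    {η Λ₀ ε : ℝ} (hη : 0 ≤ η) (hη1 : η ≤ 1 / 2) (hε : 0 < ε) {a ψ : ℝ → ℝ}
    (ha : ∀ τ, |a τ| ≤ 1 + η)
    (hin : ∀ Λ, Λ₀ ≤ Λ → ∀ τ ∈ Set.Ico (0 : ℝ) 1,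
      ‖oscJ G Λ τ - (a τ : ℂ) * ζ * cis (Λ * ψ τ)‖ ≤ η)
    (hout : ∀ Λ, Λ₀ ≤ Λ → ∀ τ : ℝ, τ ∉ Set.Ico (0 : ℝ) 1 → ‖oscJ G Λ τ‖ ≤ η)
    (hneg : ∀ Λ, 0 < Λ → ∀ τ : ℝ, τ < 0 → ‖oscJ G Λ τ‖ ≤ 1 / (Real.sqrt Λ * (-τ)))
    (hbig : ∀ Λ, 0 < Λ → ∀ τ : ℝ, 1 < τ → ‖oscJ G Λ τ‖ ≤ 1 / (Real.sqrt Λ * (τ - 1)))
    {L : ℝ} (hL : 0 < L) (hL0 : 2 * (F.H : ℝ) * ((F.H : ℝ) + 1) * Λ₀ ≤ L)
    (hL1 : 2 * (F.H : ℝ) * ((F.H : ℝ) + 1) * (1 / ε ^ 2) ≤ L)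
    (k : ℤ) :
    Real.sqrt ((F.mW : ℝ) * L)
        * |2 * (∑ z, cellI (2 * F.H) (F.phaseFun G L ((F.mW : ℝ) * L) z) k (F.pos z)).re|
      ≤ (1 + η) * (1 + δ₁ + 2 * (n : ℝ) * Real.sqrt ξ)
        + 2 * (n : ℝ) * (3 * η + (F.H : ℝ) * ε)
        + 2 * Real.sqrt ξ * (6 + (F.H : ℝ) * ε) := by
  classical
  have hH0 : (0 : ℝ) < (F.H : ℝ) := by exact_mod_cast F.hH
  have hG0 : 0 < 2 * F.H := by have := F.hH; omega
  have hcast : ((2 * F.H : ℕ) : ℝ) = 2 * (F.H : ℝ) := by push_cast; rfl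
  have hmW : (0 : ℝ) < (F.mW : ℝ) := by exact_mod_cast F.hmW
  have hmW1 : (1 : ℝ) ≤ (F.mW : ℝ) := by exact_mod_cast F.hmW
  have hmWH : (F.mW : ℝ) ≤ (F.H : ℝ) := by exact_mod_cast F.hmWH
  have hγH : (F.γc : ℝ) ≤ (F.H : ℝ) := by exact_mod_cast F.hγH
  have hp : ∀ i, 0 < ‖c i‖ ^ 2 := fun i => pow_pos (norm_pos_iff.mpr (hc i)) 2
  obtain ⟨hω, hgapω⟩ := omega_facts hξ hp hsum hlow (by
    have := F.omega_sum
    have : (0 : ℝ) ≤ (F.γc : ℝ) / (2 * (F.H : ℝ)) := by positivity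
    linarith)
  have hγξ : (F.γc : ℝ) / (2 * (F.H : ℝ)) ≤ ξ := by linarith [F.omega_sum]
  -- large parameters
  have hΛ : ∀ Λ : ℝ, L / (2 * (F.H : ℝ) * ((F.H : ℝ) + 1)) ≤ Λ →
      Λ₀ ≤ Λ ∧ 0 < Λ ∧ 1 / Real.sqrt Λ ≤ ε := by
    intro Λ hΛ
    have hpos : 0 < L / (2 * (F.H : ℝ) * ((F.H : ℝ) + 1)) := by positivity
    have h1 : Λ₀ ≤ L / (2 * (F.H : ℝ) * ((F.H : ℝ) + 1)) := by
      rw [le_div_iff₀ (by positivity)]; linarith
    have h2 : 1 / ε ^ 2 ≤ Λ := by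
      refine le_trans ?_ hΛ
      rw [le_div_iff₀ (by positivity)]; linarith
    refine ⟨h1.trans hΛ, hpos.trans_le hΛ, ?_⟩
    rw [show (1 : ℝ) / ε ^ 2 = (1 / ε) ^ 2 by ring] at h2
    have h3 : 1 / ε ≤ Real.sqrt Λ := Real.le_sqrt_of_sq_le h2
    rw [div_le_iff₀ (lt_of_lt_of_le (by positivity) h3)]
    have := (div_le_iff₀ hε).mp h3
    linarith
  -- the main term and the error of the stationary phase formula
  set main : ℝ → ℝ → ℂ := fun Λ τ =>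
    if τ ∈ Set.Ico (0 : ℝ) 1 then (a τ : ℂ) * ζ * cis (Λ * ψ τ) else 0 with hmain
  have hfarJ : ∀ Λ, L / (2 * (F.H : ℝ) * ((F.H : ℝ) + 1)) ≤ Λ → ∀ τ : ℝ, τ ≤ -1 ∨ 2 ≤ τ →
      ‖oscJ G Λ τ‖ ≤ ε := by
    intro Λ h0 τ hτ
    obtain ⟨_, hpos, hsmall⟩ := hΛ Λ h0
    have hs := Real.sqrt_pos.mpr hpos
    rcases hτ with hτ | hτ
    · refine (hneg Λ hpos τ (by linarith)).trans (le_trans ?_ hsmall)
      exact one_div_le_one_div_of_le hs (le_mul_of_one_le_right hs.le (by linarith))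
    · refine (hbig Λ hpos τ (by linarith)).trans (le_trans ?_ hsmall)
      exact one_div_le_one_div_of_le hs (le_mul_of_one_le_right hs.le (by linarith))
  have hE : ∀ Λ, L / (2 * (F.H : ℝ) * ((F.H : ℝ) + 1)) ≤ Λ →
      (∀ τ, ‖oscJ G Λ τ - main Λ τ‖ ≤ η) ∧
      (∀ τ, τ ≤ -1 ∨ 2 ≤ τ → ‖oscJ G Λ τ - main Λ τ‖ ≤ ε) ∧
      ∀ τ, ‖oscJ G Λ τ‖ ≤ 2 := by
    intro Λ h0
    obtain ⟨h0', _, _⟩ := hΛ Λ h0
    refine ⟨fun τ => ?_, fun τ hτ => ?_, fun τ => ?_⟩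
    · by_cases hτ : τ ∈ Set.Ico (0 : ℝ) 1
      · simp only [hmain, if_pos hτ]; exact hin Λ h0' τ hτ
      · simp only [hmain, if_neg hτ, sub_zero]; exact hout Λ h0' τ hτ
    · have hn' : τ ∉ Set.Ico (0 : ℝ) 1 := by
        rintro ⟨x, y⟩; rcases hτ with hτ | hτ <;> linarith
      simp only [hmain, if_neg hn', sub_zero]
      exact hfarJ Λ h0 τ hτ
    · by_cases hτ : τ ∈ Set.Ico (0 : ℝ) 1
      · have h1 := hin Λ h0' τ hτ
        have h2 := norm_le_norm_add_norm_sub' (oscJ G Λ τ) ((a τ : ℂ) * ζ * cis (Λ * ψ τ))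
        have h3 : ‖(a τ : ℂ) * ζ * cis (Λ * ψ τ)‖ ≤ 1 + η := by
          rw [norm_mul, norm_mul, hζ, norm_cis, mul_one, mul_one, Complex.norm_real,
            Real.norm_eq_abs]
          exact ha τ
        linarith
      · linarith [hout Λ h0' τ hτ]
  have hΛi : ∀ i, L / (2 * (F.H : ℝ) * ((F.H : ℝ) + 1)) ≤ L * ((r i : ℝ) / (2 * (F.H : ℝ))) := by
    intro i
    have h1 : (1 : ℝ) ≤ (r i : ℝ) := by exact_mod_cast hr i
    rw [← mul_div_assoc, div_le_div_iff₀ (by positivity) (by positivity)]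
    have : (1 : ℝ) ≤ (r i : ℝ) * ((F.H : ℝ) + 1) :=
      one_le_mul_of_one_le_of_one_le h1 (by linarith)
    nlinarith [mul_pos hL hH0]
  -- the windows
  set u : ℝ := (k : ℝ) / L with hu
  set ph : Fin n → ℂ := fun i => c i / (‖c i‖ : ℂ) * (starRingEnd ℂ) ζ with hph
  set W : Fin n → Fin F.mW → ℂ := fun i j => (Real.sqrt (F.ω i) : ℂ) * (ph i *
    cis (dotR (h i) (fun x => F.V x * (k : ℝ) ^ 2 - (k : ℝ) * F.a j x))) with hW
  have hwin : ∀ i, (Real.sqrt ((F.mW : ℝ) * L) : ℂ)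
      * ∑ y : Fin F.mW × Fin (F.Q i) × Fin (r i), cellI (2 * F.H)
          (F.phaseFun G L ((F.mW : ℝ) * L) (Sum.inl ⟨i, y⟩)) k (F.pos (Sum.inl ⟨i, y⟩))
      = ∑ j : Fin F.mW, W i j
          * oscJ G (L * ((r i : ℝ) / (2 * (F.H : ℝ)))) (u - ((j : ℕ) : ℝ)) := by
    intro i
    rw [Fintype.sum_prod_type, Finset.mul_sum]
    refine Finset.sum_congr rfl fun j _ => ?_
    rw [Fintype.sum_prod_type]
    simp only [Frame.phaseFun, Frame.pos, Sum.elim_inl]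
    simp only [sum_segment hGc hG0 _ (hr i) _ hL]
    simp only [hcast]
    rw [← Finset.sum_mul, ← Finset.sum_mul, F.phase]
    have hτ : ((k : ℝ) - ((j : ℕ) : ℝ) * L) / L = u - ((j : ℕ) : ℝ) := by
      rw [hu]; field_simp
    have hamp : Real.sqrt (F.ω i) = Real.sqrt ((F.mW : ℝ) * L) * Real.sqrt (F.Q i : ℝ)
        * Real.sqrt ((r i : ℝ) / (2 * (F.H : ℝ)) / L) := by
      rw [← Real.sqrt_mul (by positivity), ← Real.sqrt_mul (by positivity), F.omega_eq]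
      congr 1
      field_simp
    rw [hτ, hW]
    simp only [hph, hamp, Complex.ofReal_mul]
    ring
  -- main part of the windows
  set Smain : ℂ := ∑ i, ∑ j : Fin F.mW,
    W i j * main (L * ((r i : ℝ) / (2 * (F.H : ℝ)))) (u - ((j : ℕ) : ℝ)) with hSmain
  have hωle : ∀ i, Real.sqrt (F.ω i) ≤ 1 := by
    intro i
    rw [Real.sqrt_le_one]
    have h1 := Finset.single_le_sum (fun j _ => F.omega_nonneg j) (Finset.mem_univ i)
    have := F.omega_sum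
    have : (0 : ℝ) ≤ (F.γc : ℝ) / (2 * (F.H : ℝ)) := by positivity
    linarith
  have hWnorm : ∀ i j, ‖W i j‖ ≤ 1 := by
    intro i j
    simp only [hW, hph]
    rw [norm_mul, norm_mul, norm_mul, norm_div, Complex.norm_conj, hζ, norm_cis, mul_one, mul_one,
      Complex.norm_real, Complex.norm_real, Real.norm_eq_abs, Real.norm_eq_abs, abs_norm,
      div_self (norm_ne_zero_iff.mpr (hc i)), mul_one, abs_of_nonneg (Real.sqrt_nonneg _)]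
    exact hωle i
  have hmainbd : |2 * Smain.re| ≤ (1 + η) * (1 + δ₁ + 2 * (n : ℝ) * Real.sqrt ξ) := by
    by_cases hex : ∃ j : Fin F.mW, u - ((j : ℕ) : ℝ) ∈ Set.Ico (0 : ℝ) 1
    · obtain ⟨j₀, hj₀⟩ := hex
      set x : Fin d → ℝ := fun l => (F.V l * (k : ℝ) ^ 2 - (k : ℝ) * F.a j₀ l)
        + (L * ψ (u - ((j₀ : ℕ) : ℝ)) / (2 * (F.H : ℝ))) * (v l : ℝ) with hx
      have hsingle : Smain = (a (u - ((j₀ : ℕ) : ℝ)) : ℂ) * ∑ i,
          ((Real.sqrt (F.ω i) : ℂ) * (c i / (‖c i‖ : ℂ))) * cis (dotR (h i) x) := by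
        rw [hSmain, Finset.mul_sum]
        refine Finset.sum_congr rfl fun i _ => ?_
        rw [Finset.sum_eq_single j₀]
        · simp only [hmain, if_pos hj₀, hW, hph, hx, dotR_add, dotR_smul, dotR_intCast, hvr i,
            Int.cast_natCast, cis_add]
          have hz : (starRingEnd ℂ) ζ * ζ = 1 := by
            rw [Complex.conj_mul', hζ]; simp
          rw [show L * ψ (u - ((j₀ : ℕ) : ℝ)) / (2 * (F.H : ℝ)) * (r i : ℝ)
            = L * ((r i : ℝ) / (2 * (F.H : ℝ))) * ψ (u - ((j₀ : ℕ) : ℝ)) by ring]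
          linear_combination ((Real.sqrt (F.ω i) : ℂ) * (c i / (‖c i‖ : ℂ))
            * cis (dotR (h i) (fun l => F.V l * (k : ℝ) ^ 2 - (k : ℝ) * F.a j₀ l))
            * (a (u - ((j₀ : ℕ) : ℝ)) : ℂ)
            * cis (L * ((r i : ℝ) / (2 * (F.H : ℝ))) * ψ (u - ((j₀ : ℕ) : ℝ)))) * hz
        · intro j _ hj
          have hj' : u - ((j : ℕ) : ℝ) ∉ Set.Ico (0 : ℝ) 1 := by
            rintro ⟨h1, h2⟩
            refine hj (Fin.ext ?_)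
            have e1 : (((j : ℕ) : ℤ) : ℝ) < (((j₀ : ℕ) : ℤ) + 1 : ℤ) := by
              push_cast; linarith [hj₀.2]
            have e2 : (((j₀ : ℕ) : ℤ) : ℝ) < (((j : ℕ) : ℤ) + 1 : ℤ) := by
              push_cast; linarith [hj₀.1]
            have := Int.cast_lt.mp e1
            have := Int.cast_lt.mp e2
            omega
          simp only [hmain, if_neg hj', mul_zero]
        · simp
      have hf : |2 * (∑ i, ((Real.sqrt (F.ω i) : ℂ) * (c i / (‖c i‖ : ℂ)))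
          * cis (dotR (h i) x)).re| ≤ 1 + δ₁ + 2 * (n : ℝ) * Real.sqrt ξ := by
        have hdiff : ‖∑ i, ((Real.sqrt (F.ω i) : ℂ) * (c i / (‖c i‖ : ℂ))) * cis (dotR (h i) x)
            - ∑ i, c i * cis (dotR (h i) x)‖ ≤ (n : ℝ) * Real.sqrt ξ := by
          rw [← Finset.sum_sub_distrib]
          refine (norm_sum_le _ _).trans
            ((Finset.sum_le_card_nsmul _ _ (Real.sqrt ξ) (fun i _ => ?_)).trans (le_of_eq (by rw [Finset.card_univ, Fintype.card_fin, nsmul_eq_mul])))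
          rw [← sub_mul, norm_mul, norm_cis, mul_one]
          have hne : (‖c i‖ : ℂ) ≠ 0 := by exact_mod_cast norm_ne_zero_iff.mpr (hc i)
          have e : (Real.sqrt (F.ω i) : ℂ) * (c i / (‖c i‖ : ℂ)) - c i
              = ((Real.sqrt (F.ω i) - ‖c i‖ : ℝ) : ℂ) * (c i / (‖c i‖ : ℂ)) := by
            push_cast; field_simp
          rw [e, norm_mul, norm_div, Complex.norm_real, Complex.norm_real, Real.norm_eq_abs,
            Real.norm_eq_abs, abs_norm, div_self (norm_ne_zero_iff.mpr (hc i)), mul_one]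
          have h1 := abs_sqrt_sub_sqrt_le (F.omega_nonneg i) (hp i).le
          rw [Real.sqrt_sq (norm_nonneg _)] at h1
          exact h1.trans (Real.sqrt_le_sqrt (hω i))
        have h1 := (Complex.abs_re_le_norm _).trans hdiff
        rw [Complex.sub_re] at h1
        have h2 := abs_le.mp h1
        have h3 := abs_le.mp (hsup x)
        rw [abs_le]
        constructor <;> linarith
      rw [hsingle, Complex.re_ofReal_mul, mul_left_comm, abs_mul]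
      exact mul_le_mul (ha _) hf (abs_nonneg _) (by linarith)
    · have hz : Smain = 0 := by
        rw [hSmain]
        refine Finset.sum_eq_zero fun i _ => Finset.sum_eq_zero fun j _ => ?_
        simp only [hmain, if_neg (fun hj => hex ⟨j, hj⟩), mul_zero]
      rw [hz]; simp only [Complex.zero_re, mul_zero, abs_zero]; positivity
  have herr : ‖∑ i, ∑ j : Fin F.mW, W i j
        * oscJ G (L * ((r i : ℝ) / (2 * (F.H : ℝ)))) (u - ((j : ℕ) : ℝ)) - Smain‖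
      ≤ (n : ℝ) * (3 * η + (F.H : ℝ) * ε) := by
    rw [hSmain, ← Finset.sum_sub_distrib]
    refine (norm_sum_le _ _).trans
            ((Finset.sum_le_card_nsmul _ _ (3 * η + (F.H : ℝ) * ε) (fun i _ => ?_)).trans
              (le_of_eq (by rw [Finset.card_univ, Fintype.card_fin, nsmul_eq_mul])))
    rw [← Finset.sum_sub_distrib]
    simp only [← mul_sub]
    refine (norm_sum_error (E := fun τ => oscJ G (L * ((r i : ℝ) / (2 * (F.H : ℝ)))) τ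
      - main (L * ((r i : ℝ) / (2 * (F.H : ℝ)))) τ) hη hε.le (hE _ (hΛi i)).1
      (hE _ (hΛi i)).2.1 u (fun j => hWnorm i j)).trans ?_
    have := mul_le_mul_of_nonneg_right hmWH hε.le
    linarith
  -- the gaps
  have hgaps : ‖(Real.sqrt ((F.mW : ℝ) * L) : ℂ) * ∑ j : Fin F.γc, cellI (2 * F.H)
      (F.phaseFun G L ((F.mW : ℝ) * L) (Sum.inr j)) k (F.pos (Sum.inr j))‖
      ≤ Real.sqrt ξ * (6 + (F.H : ℝ) * ε) := by
    rcases Nat.eq_zero_or_pos F.γc with h0 | h0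
    · have : IsEmpty (Fin F.γc) := by rw [h0]; infer_instance
      simp only [Finset.univ_eq_empty, Finset.sum_empty, mul_zero, norm_zero]
      positivity
    have hγ : (0 : ℝ) < (F.γc : ℝ) := by exact_mod_cast h0
    set D : ℝ := (F.mW : ℝ) * L / (F.γc : ℝ) with hD
    have hD0 : 0 < D := by positivity
    have hone : ∀ j : Fin F.γc, ‖(Real.sqrt ((F.mW : ℝ) * L) : ℂ) * cellI (2 * F.H)
        (F.phaseFun G L ((F.mW : ℝ) * L) (Sum.inr j)) k (F.pos (Sum.inr j))‖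
        = Real.sqrt ((F.γc : ℝ) / (2 * (F.H : ℝ)))
          * ‖oscJ G (D * (1 / (2 * (F.H : ℝ)))) ((k : ℝ) / D - ((j : ℕ) : ℝ))‖ := by
      intro j
      have hs := sum_segment hGc hG0 (F.gap j : ℤ) Nat.one_pos (((j : ℕ) : ℝ) * D) hD0 0 k
      rw [Fin.sum_univ_one] at hs
      simp only [Fin.val_zero, Nat.cast_zero, add_zero] at hs
      simp only [Frame.phaseFun, Frame.pos, Sum.elim_inr, ← hD]
      rw [hs]
      simp only [hcast, Nat.cast_one]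
      rw [norm_mul, norm_mul, norm_mul, norm_cis, one_mul, Complex.norm_real, Complex.norm_real,
        Real.norm_eq_abs, Real.norm_eq_abs, abs_of_nonneg (Real.sqrt_nonneg _),
        abs_of_nonneg (Real.sqrt_nonneg _), ← mul_assoc, ← Real.sqrt_mul (by positivity)]
      congr 2
      · rw [hD]; field_simp
      · rw [hD]; field_simp
    have hΛg : L / (2 * (F.H : ℝ) * ((F.H : ℝ) + 1)) ≤ D * (1 / (2 * (F.H : ℝ))) := by
      rw [hD, div_mul_div_comm, mul_one, div_le_div_iff₀ (by positivity) (by positivity)]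
      have h1 : (F.γc : ℝ) ≤ (F.mW : ℝ) * ((F.H : ℝ) + 1) := by nlinarith
      have h2 : 0 ≤ L * (2 * (F.H : ℝ)) := by positivity
      nlinarith [mul_le_mul_of_nonneg_left h1 h2]
    rw [Finset.mul_sum]
    refine (norm_sum_le _ _).trans ?_
    simp only [hone]
    rw [← Finset.mul_sum]
    refine mul_le_mul (Real.sqrt_le_sqrt hγξ) ?_
      (Finset.sum_nonneg fun j _ => norm_nonneg _) (Real.sqrt_nonneg _)
    refine (sum_shift_le (by norm_num : (0 : ℝ) ≤ 2) hε.le (hE _ hΛg).2.2 (hfarJ _ hΛg)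
      ((k : ℝ) / D)).trans ?_
    have := mul_le_mul_of_nonneg_right hγH hε.le
    linarith
  -- total
  have htotal : (Real.sqrt ((F.mW : ℝ) * L) : ℂ)
      * ∑ z, cellI (2 * F.H) (F.phaseFun G L ((F.mW : ℝ) * L) z) k (F.pos z)
      = (∑ i, ∑ j : Fin F.mW, W i j
          * oscJ G (L * ((r i : ℝ) / (2 * (F.H : ℝ)))) (u - ((j : ℕ) : ℝ)))
        + (Real.sqrt ((F.mW : ℝ) * L) : ℂ) * ∑ j : Fin F.γc, cellI (2 * F.H)
            (F.phaseFun G L ((F.mW : ℝ) * L) (Sum.inr j)) k (F.pos (Sum.inr j)) := by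
    rw [Fintype.sum_sum_type, mul_add, Fintype.sum_sigma, Finset.mul_sum]
    simp only [hwin]
  have hre := congrArg Complex.re htotal
  rw [Complex.re_ofReal_mul, Complex.add_re] at hre
  have e1 : ∀ S : ℝ, Real.sqrt ((F.mW : ℝ) * L) * |2 * S|
      = |2 * (Real.sqrt ((F.mW : ℝ) * L) * S)| := by
    intro S
    rw [mul_left_comm 2 (Real.sqrt _) S, abs_mul (Real.sqrt _), abs_of_nonneg (Real.sqrt_nonneg _)]
  rw [e1, hre]
  have b1 := (Complex.abs_re_le_norm _).trans herr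
  rw [Complex.sub_re] at b1
  have b2 := abs_le.mp ((Complex.abs_re_le_norm _).trans hgaps)
  have b1' := abs_le.mp b1
  have b3 := abs_le.mp hmainbd
  rw [abs_le]
  constructor <;> linarith

end Vale.Agent.P110
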