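import Vale.Agent.P110.MainTools

/-!
# P110, assembly: the symmetric unimodular target with small Fourier coefficients.
-/

namespace Vale.Agent.P110

open scoped BigOperators Real
open Complex

lemma sum_segment {G : ℝ → ℝ} (hGc : Continuous G) {G₀ : ℕ} (hG₀ : 0 < G₀) (Z : ℤ) {r : ℕ}
    (hr : 0 < r) (T₀ : ℝ) {D : ℝ} (hD : 0 < D) (c : ℝ) (k : ℤ) :
    ∑ s : Fin r, cellI G₀
        (segPhase G ((Z : ℝ) / (G₀ : ℝ)) ((r : ℝ) / (G₀ : ℝ)) T₀ D c) k (Z + ((s : ℕ) : ℤ))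
      = cis (c - (k : ℝ) * ((Z : ℝ) / (G₀ : ℝ)))
          * (Real.sqrt ((r : ℝ) / (G₀ : ℝ) / D) : ℂ)
          * oscJ G (D * ((r : ℝ) / (G₀ : ℝ))) (((k : ℝ) - T₀) / D) := by
  have hc : Continuous (segPhase G ((Z : ℝ) / (G₀ : ℝ)) ((r : ℝ) / (G₀ : ℝ)) T₀ D c) := by
    unfold segPhase; fun_prop
  rw [Fin.sum_univ_eq_sum_range
    (fun s => cellI G₀ (segPhase G ((Z : ℝ) / (G₀ : ℝ)) ((r : ℝ) / (G₀ : ℝ)) T₀ D c) k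
      (Z + (s : ℤ))) r, sum_cellI hc, add_div, segPhase_integral G (by positivity) hD]

/-- Derivative bounds of a segment phase on one of its cells. -/
lemma seg_bounds {T T2 : ℝ → ℝ}
    (hT01 : ∀ σ ∈ Set.Icc (0 : ℝ) 1, T σ ∈ Set.Icc (0 : ℝ) 1) {BT : ℝ}
    (hBT : ∀ σ ∈ Set.Icc (0 : ℝ) 1, |T2 σ| ≤ BT) {G₀ : ℕ} (hG₀ : 0 < G₀) (Z : ℤ) {r s : ℕ}
    (hs : s < r) {T₀ D N : ℝ} (hD : 0 < D) (hT0 : 0 ≤ T₀) (hsum : T₀ + D ≤ N) {θ : ℝ}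
    (hθ : θ ∈ Set.Icc (((Z : ℝ) + s) / (G₀ : ℝ)) (((Z : ℝ) + s + 1) / (G₀ : ℝ))) :
    0 ≤ T₀ + D * T ((θ - (Z : ℝ) / (G₀ : ℝ)) / ((r : ℝ) / (G₀ : ℝ))) ∧
      T₀ + D * T ((θ - (Z : ℝ) / (G₀ : ℝ)) / ((r : ℝ) / (G₀ : ℝ))) ≤ N ∧
      |D / ((r : ℝ) / (G₀ : ℝ)) * T2 ((θ - (Z : ℝ) / (G₀ : ℝ)) / ((r : ℝ) / (G₀ : ℝ)))|
        ≤ N * (G₀ : ℝ) * BT := by
  have hG : (0 : ℝ) < (G₀ : ℝ) := by exact_mod_cast hG₀
  have hr1 : (1 : ℝ) ≤ (r : ℝ) := by exact_mod_cast (by omega : 1 ≤ r)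
  have hs1 : (s : ℝ) + 1 ≤ (r : ℝ) := by exact_mod_cast (by omega : s + 1 ≤ r)
  set σ := (θ - (Z : ℝ) / (G₀ : ℝ)) / ((r : ℝ) / (G₀ : ℝ)) with hσ
  have hσe : σ = (θ * (G₀ : ℝ) - (Z : ℝ)) / (r : ℝ) := by rw [hσ]; field_simp
  have hσI : σ ∈ Set.Icc (0 : ℝ) 1 := by
    have h1 := (div_le_iff₀ hG).mp hθ.1
    have h2 := (le_div_iff₀ hG).mp hθ.2
    have hs0 : (0 : ℝ) ≤ (s : ℝ) := Nat.cast_nonneg _
    rw [hσe]
    exact ⟨div_nonneg (by linarith) (by linarith), (div_le_one (by linarith)).mpr (by linarith)⟩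
  have hT := hT01 σ hσI
  have hB := hBT σ hσI
  refine ⟨by nlinarith [hT.1], by nlinarith [hT.2], ?_⟩
  rw [abs_mul, abs_of_pos (show 0 < D / ((r : ℝ) / (G₀ : ℝ)) by positivity)]
  have h3 : D / ((r : ℝ) / (G₀ : ℝ)) ≤ N * (G₀ : ℝ) := by
    rw [div_div_eq_mul_div, div_le_iff₀ (by linarith : (0 : ℝ) < (r : ℝ))]
    have : D * (G₀ : ℝ) ≤ N * (G₀ : ℝ) := by nlinarith
    have hN : 0 ≤ N * (G₀ : ℝ) := by nlinarith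
    nlinarith
  exact mul_le_mul h3 hB (abs_nonneg _) (by nlinarith)

/-- Pure bookkeeping: amplitudes of the windows add up to at most the total measure `1/2`. -/
lemma omega_facts {n : ℕ} {p ω : Fin n → ℝ} {ξ : ℝ} (hξ : 0 ≤ ξ)
    (hp : ∀ i, 0 < p i) (hsum : 2 * ∑ i, p i = 1) (hlow : ∀ i, (1 - 2 * ξ) * p i ≤ ω i)
    (htot : ∑ i, ω i ≤ 1 / 2) :
    (∀ i, |ω i - p i| ≤ ξ) ∧ 1 / 2 - ∑ i, ω i ≤ ξ := by
  classical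
  constructor
  · intro i
    have hpi : p i ≤ ∑ j, p j := Finset.single_le_sum (fun j _ => (hp j).le) (Finset.mem_univ i)
    rw [abs_le]
    refine ⟨by nlinarith [hlow i], ?_⟩
    have h1 := Finset.add_sum_erase Finset.univ ω (Finset.mem_univ i)
    have h2 := Finset.add_sum_erase Finset.univ p (Finset.mem_univ i)
    have h3 : ∑ j ∈ Finset.univ.erase i, (1 - 2 * ξ) * p j ≤ ∑ j ∈ Finset.univ.erase i, ω j :=
      Finset.sum_le_sum fun j _ => hlow j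
    rw [← Finset.mul_sum] at h3
    nlinarith [hp i]
  · have h1 : ∑ i, (1 - 2 * ξ) * p i ≤ ∑ i, ω i := Finset.sum_le_sum fun i _ => hlow i
    rw [← Finset.mul_sum] at h1
    nlinarith

end Vale.Agent.P110
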