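import Vale.Agent.P110.MainCoeff

/-!
# P110, assembly: ultraflat real Littlewood polynomials from the module statements.
-/

namespace Vale.Agent.P110

open scoped BigOperators Real
open Complex

/-- Choice of the small parameter attached to `n`. -/
lemma coeff_numerics {e nr s Hε : ℝ} (he : 0 < e) (he1 : e ≤ 1 / 200) (hn : 1 ≤ nr)
    (hs0 : 0 ≤ s) (hns : nr * s ≤ e) (h7s : 7 * s ≤ e) (hHε : Hε ≤ e / nr) :
    (1 + e / nr) * (1 + e + 2 * nr * s) + 2 * nr * (3 * (e / nr) + Hε)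
      + 2 * s * (6 + Hε) ≤ 1 + 18 * e := by
  have hn0 : 0 < nr := by linarith
  have hηe : e / nr ≤ e := div_le_self he.le hn
  have h0 : 0 ≤ e / nr := by positivity
  have h1a : nr * (e / nr) = e := by field_simp
  have h1 : nr * (3 * (e / nr) + Hε) ≤ 4 * e := by
    nlinarith [mul_le_mul_of_nonneg_left hHε hn0.le]
  have h2 : s * (6 + Hε) ≤ e := by nlinarith
  have h3 : (1 + e / nr) * (1 + e + 2 * nr * s) ≤ (1 + e) * (1 + 3 * e) :=
    mul_le_mul (by linarith) (by linarith) (by nlinarith) (by linarith)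
  nlinarith

/-- The target phases of arbitrarily large length, with small coefficients. -/
lemma exists_target (hA : TorusPolyStatement) (hB : ArithStatement) (hGa : GaussStatement)
    (hC : PackingStatement) (hD : OscStatement) {e : ℝ} (he : 0 < e) (he1 : e ≤ 1 / 200) :
    ∃ (H : ℕ) (B : ℝ), 0 < H ∧ ∀ m : ℕ, ∃ (N : ℕ) (ψ ψ1 ψ2 : Fin H → ℝ → ℝ),
      m ≤ N ∧ 0 < N ∧ (∀ i θ, HasDerivAt (ψ i) (ψ1 i θ) θ) ∧
      (∀ i θ, HasDerivAt (ψ1 i) (ψ2 i θ) θ) ∧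
      (∀ i : Fin H, ∀ θ ∈ Set.Icc (((i : ℕ) : ℝ) / (2 * (H : ℝ)))
          ((((i : ℕ) : ℝ) + 1) / (2 * (H : ℝ))),
        0 ≤ ψ1 i θ ∧ ψ1 i θ ≤ (N : ℝ) ∧ |ψ2 i θ| ≤ B * (N : ℝ)) ∧
      ∀ k : ℤ, Real.sqrt N * |halfCoeff H ψ k| ≤ 1 + 18 * e := by
  classical
  obtain ⟨d, n, h, c, v, r, hd, hn, hind, hne, hc, hsum, hsup, hr, hv⟩ := exists_oriented hA he
  have hn1 : (1 : ℝ) ≤ (n : ℝ) := by exact_mod_cast hn
  have hn0 : (0 : ℝ) < (n : ℝ) := by linarith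
  have hη : 0 < e / (n : ℝ) := by positivity
  have hηe : e / (n : ℝ) ≤ e := div_le_self he.le hn1
  obtain ⟨G, T, T2, ζ, Λ₀, a, ψ, hG, hT, hT2c, hT0, hT1, hT01, hζ, hΛ₀, ha, hin, hout, hneg,
    hbig⟩ := hD (e / (n : ℝ)) hη (by linarith)
  have hGc : Continuous G := continuous_iff_continuousAt.mpr fun σ => (hG σ).continuousAt
  obtain ⟨BT, hBT⟩ := (isCompact_Icc (a := (0 : ℝ)) (b := 1)).exists_bound_of_continuousOn
    hT2c.continuousOn
  simp only [Real.norm_eq_abs] at hBT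
  obtain ⟨s, hs⟩ : ∃ s : ℝ, s = e / ((n : ℝ) + 7) := ⟨_, rfl⟩
  have hs0 : 0 < s := by rw [hs]; positivity
  have hse : ((n : ℝ) + 7) * s = e := by rw [hs]; field_simp
  have hns : (n : ℝ) * s ≤ e := by nlinarith
  have h7s : 7 * s ≤ e := by nlinarith
  have hξ : 0 < s ^ 2 := by positivity
  have hξ1 : s ^ 2 < 1 / 2 := by nlinarith
  obtain ⟨F, hlow⟩ := exists_frame hB hGa hC hd hind hne hc hsum hr hv hζ hξ hξ1
  refine ⟨F.H, 2 * (F.H : ℝ) * BT, F.hH, fun m => ?_⟩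
  have hH0 : (0 : ℝ) < (F.H : ℝ) := by exact_mod_cast F.hH
  obtain ⟨ε, hε⟩ : ∃ ε : ℝ, ε = (e / (n : ℝ)) / ((F.H : ℝ) + 1) := ⟨_, rfl⟩
  have hε0 : 0 < ε := by rw [hε]; positivity
  have hHε : (F.H : ℝ) * ε ≤ e / (n : ℝ) := by
    rw [hε, mul_div_assoc', div_le_iff₀ (by linarith)]; nlinarith
  obtain ⟨A₁, hA₁⟩ : ∃ A₁ : ℝ, A₁ = 2 * (F.H : ℝ) * ((F.H : ℝ) + 1) * Λ₀ := ⟨_, rfl⟩
  obtain ⟨A₂, hA₂⟩ : ∃ A₂ : ℝ, A₂ = 2 * (F.H : ℝ) * ((F.H : ℝ) + 1) * (1 / ε ^ 2) := ⟨_, rfl⟩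
  obtain ⟨L, hL⟩ := exists_nat_gt ((m : ℝ) + 1 + max A₁ A₂)
  have h1 := le_max_left A₁ A₂
  have h2 := le_max_right A₁ A₂
  have hA0 : 0 ≤ A₁ := by rw [hA₁]; positivity
  have hm' : (0 : ℝ) ≤ (m : ℝ) := Nat.cast_nonneg _
  have hL0 : (0 : ℝ) < (L : ℝ) := by linarith
  have hmL : m ≤ L := by
    have : (m : ℝ) ≤ (L : ℝ) := by linarith
    exact_mod_cast this
  have hNR : ((F.mW * L : ℕ) : ℝ) = (F.mW : ℝ) * (L : ℝ) := by push_cast; rfl
  obtain ⟨f1, f2, hf, hf1, hfb⟩ := F.phase_bounds hr hG hT hT01 hBT hL0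
  obtain ⟨ψh, ψh1, ψh2, hψ, hψ1, hψb, hcoef⟩ := exists_half_phases F.hH
    (ι := F.Cell ⊕ Fin F.γc)
    (by simp [Fintype.card_sigma, ← mul_assoc, F.card_eq])
    F.pos F.inj (F.phaseFun G L ((F.mW : ℝ) * L)) f1 f2 hf hf1 hfb
  refine ⟨F.mW * L, ψh, ψh1, ψh2, hmL.trans (Nat.le_mul_of_pos_left _ F.hmW),
    Nat.mul_pos F.hmW (by exact_mod_cast hL0), hψ, hψ1, ?_, fun k => ?_⟩
  · intro i θ hθ
    rw [hNR]
    exact hψb i θ hθ
  · rw [hcoef k, hNR]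
    refine (F.coeff_bound hr hc hsum hv he.le hsup hξ.le hlow hξ1.le hGc hζ hη.le (by linarith)
      hε0 ha hin hout hneg hbig hL0 (by linarith) (by linarith) k).trans ?_
    rw [Real.sqrt_sq hs0.le]
    exact coeff_numerics he he1 hn1 hs0.le hns h7s hHε

/-- A flat polynomial with real coefficients in `[-1,1]`, mostly close to `±1`. -/
lemma exists_flat_real (hA : TorusPolyStatement) (hB : ArithStatement) (hGa : GaussStatement)
    (hC : PackingStatement) (hD : OscStatement) (hE : SmoothingStatement)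
    {e : ℝ} (he : 0 < e) (he1 : e ≤ 1 / 200) (N₀ : ℕ) :
    ∃ (D : ℕ) (a : Fin D → ℝ), N₀ ≤ D ∧ 0 < D ∧ (∀ k, |a k| ≤ 1) ∧
      ∑ k, (1 - a k ^ 2) ≤ 100 * e * D ∧
      ∀ θ : ℝ, |‖∑ k, (a k : ℂ) * cis (((k : ℕ) : ℝ) * θ)‖ - Real.sqrt D|
        ≤ 50 * e * Real.sqrt D := by
  obtain ⟨H, B, hH, htarget⟩ := exists_target hA hB hGa hC hD he he1
  obtain ⟨N₁, hN₁⟩ := hE H hH B e he
  obtain ⟨N, ψh, ψh1, ψh2, hm, hNpos, hψ, hψ1, hψb, hhalf⟩ := htarget (N₁ + N₀)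
  obtain ⟨D, t, b, hND, hDN, hb, hflat⟩ := hN₁ N (by omega) ψh ψh1 ψh2 hψ hψ1 hψb
  have hD0 : 0 < D := by omega
  have hDR : (0 : ℝ) < (D : ℝ) := by exact_mod_cast hD0
  have hN0 : (0 : ℝ) < (N : ℝ) := by exact_mod_cast hNpos
  obtain ⟨K, hK⟩ : ∃ K : ℝ, K = 1 + 40 * e := ⟨_, rfl⟩
  have hK0 : 0 < K := by rw [hK]; positivity
  have hsD : 0 < Real.sqrt D := Real.sqrt_pos.mpr hDR
  have hsN : 0 < Real.sqrt N := Real.sqrt_pos.mpr hN0
  have hDNs : Real.sqrt D ≤ (1 + e) * Real.sqrt N := by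
    rw [← Real.sqrt_sq (by linarith : (0 : ℝ) ≤ 1 + e), ← Real.sqrt_mul (sq_nonneg _)]
    refine Real.sqrt_le_sqrt (hDN.trans ?_)
    nlinarith
  have hbK : ∀ k, Real.sqrt D * |b k| ≤ K := by
    intro k
    have h1 : Real.sqrt N * |b k| ≤ 1 + 19 * e := by
      refine (mul_le_mul_of_nonneg_left (hb k) hsN.le).trans ?_
      rw [mul_add, mul_div_cancel₀ _ hsN.ne']
      linarith [hhalf (((k : ℕ) : ℤ) + t)]
    calc Real.sqrt D * |b k| ≤ (1 + e) * Real.sqrt N * |b k| :=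
          mul_le_mul_of_nonneg_right hDNs (abs_nonneg _)
      _ = (1 + e) * (Real.sqrt N * |b k|) := by ring
      _ ≤ (1 + e) * (1 + 19 * e) := mul_le_mul_of_nonneg_left h1 (by linarith)
      _ ≤ K := by rw [hK]; nlinarith
  refine ⟨D, fun k => Real.sqrt D * b k / K, by omega, hD0, fun k => ?_, ?_, fun θ => ?_⟩
  · rw [abs_div, abs_mul, abs_of_nonneg hsD.le, abs_of_pos hK0, div_le_one hK0]
    exact hbK k
  · have hpar : (1 - e) ^ 2 ≤ ∑ k, b k ^ 2 := by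
      rw [← parseval_finite b]
      calc (1 - e) ^ 2 = ∫ _ in (0 : ℝ)..1, (1 - e) ^ 2 := by simp
        _ ≤ _ := by
          refine intervalIntegral.integral_mono_on zero_le_one (by simp)
            (Continuous.intervalIntegrable (by fun_prop) _ _) fun θ _ => ?_
          have := (abs_le.mp (hflat θ)).1
          exact pow_le_pow_left₀ (by linarith) (by linarith) 2
    rw [Finset.sum_sub_distrib, Finset.sum_const, Finset.card_univ, Fintype.card_fin,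
      nsmul_eq_mul, mul_one]
    simp only [div_pow, mul_pow, Real.sq_sqrt hDR.le]
    rw [← Finset.sum_div, ← Finset.mul_sum]
    have h1 : (1 - 100 * e) * K ^ 2 ≤ (1 - e) ^ 2 := by
      rw [hK]; nlinarith [mul_pos he he, mul_pos (mul_pos he he) he]
    have h2 : (1 - 100 * e) * (D : ℝ) ≤ (D : ℝ) * (∑ k, b k ^ 2) / K ^ 2 := by
      rw [le_div_iff₀ (by positivity)]
      nlinarith
    linarith
  · have hsumeq : ∑ k : Fin D, ((Real.sqrt D * b k / K : ℝ) : ℂ) * cis (((k : ℕ) : ℝ) * θ)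
        = ((Real.sqrt D / K : ℝ) : ℂ) * ∑ k : Fin D, (b k : ℂ) * cis (((k : ℕ) : ℝ) * θ) := by
      rw [Finset.mul_sum]
      exact Finset.sum_congr rfl fun k _ => by push_cast; ring
    rw [hsumeq, norm_mul, Complex.norm_real, Real.norm_eq_abs, abs_of_pos (div_pos hsD hK0)]
    have h1 := abs_le.mp (hflat θ)
    generalize ‖∑ k : Fin D, (b k : ℂ) * cis (((k : ℕ) : ℝ) * θ)‖ = S at h1 ⊢
    have e1 : Real.sqrt D / K * S - Real.sqrt D = Real.sqrt D * (S / K - 1) := by ring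
    rw [e1, abs_mul, abs_of_pos hsD, mul_comm (50 * e)]
    refine mul_le_mul_of_nonneg_left ?_ hsD.le
    rw [abs_le, div_sub_one hK0.ne', le_div_iff₀ hK0, div_le_iff₀ hK0, hK]
    constructor <;> nlinarith

/-- Signs with a flat polynomial, of arbitrarily large length. -/
lemma exists_flat_signs (hF : RoundingStatement) (hA : TorusPolyStatement) (hB : ArithStatement)
    (hGa : GaussStatement) (hC : PackingStatement) (hD : OscStatement) (hE : SmoothingStatement)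
    {c : ℝ} (hc : 0 < c) (N₀ : ℕ) :
    ∃ (N : ℕ) (x : Fin N → ℝ), N₀ ≤ N ∧ (∀ k, x k = 1 ∨ x k = -1) ∧
      ∀ z : ℂ, ‖z‖ = 1 →
        (1 - c) * Real.sqrt N ≤ ‖∑ k, (x k : ℂ) * z ^ (k : ℕ)‖ ∧
        ‖∑ k, (x k : ℂ) * z ^ (k : ℕ)‖ ≤ (1 + c) * Real.sqrt N := by
  obtain ⟨η, hη, M₀, hround⟩ := hF (c / 2) (by linarith)
  set e : ℝ := min (min (1 / 200) (η / 100)) (c / 100) with he
  have he0 : 0 < e := by
    simp only [he, lt_min_iff]; exact ⟨⟨by norm_num, by linarith⟩, by linarith⟩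
  have hee : e ≤ 1 / 200 ∧ e ≤ η / 100 ∧ e ≤ c / 100 :=
    ⟨(min_le_left _ _).trans (min_le_left _ _), (min_le_left _ _).trans (min_le_right _ _),
      min_le_right _ _⟩
  obtain ⟨D, a, hD0', -, ha, haη, hflat⟩ :=
    exists_flat_real hA hB hGa hC hD hE he0 hee.1 (max N₀ M₀)
  obtain ⟨x, hx, hxe⟩ := hround D ((le_max_right _ _).trans hD0') a ha (haη.trans (by
    have : (0 : ℝ) ≤ (D : ℝ) := Nat.cast_nonneg _
    nlinarith [hee.2.1]))
  refine ⟨D, x, (le_max_left _ _).trans hD0', hx, fun z hz => ?_⟩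
  obtain ⟨t, rfl⟩ := exists_cis_eq hz
  have hpow : ∀ k : ℕ, cis t ^ k = cis ((k : ℝ) * t) := by
    intro k
    induction k with
    | zero => simp [cis_zero]
    | succ m ih => rw [pow_succ, ih, ← cis_add]; congr 1; push_cast; ring
  simp only [hpow]
  have h1 := abs_le.mp (hflat t)
  have h2 := hxe t
  have e1 : ∑ k : Fin D, (x k : ℂ) * cis (((k : ℕ) : ℝ) * t)
      = (∑ k : Fin D, (a k : ℂ) * cis (((k : ℕ) : ℝ) * t))
        + ∑ k : Fin D, ((x k - a k : ℝ) : ℂ) * cis (((k : ℕ) : ℝ) * t) := by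
    rw [← Finset.sum_add_distrib]
    exact Finset.sum_congr rfl fun k _ => by push_cast; ring
  rw [e1]
  have h5 : 0 ≤ Real.sqrt (D : ℝ) := Real.sqrt_nonneg _
  constructor
  · have h3 := norm_sub_le_norm_add (∑ k : Fin D, (a k : ℂ) * cis (((k : ℕ) : ℝ) * t))
      (∑ k : Fin D, ((x k - a k : ℝ) : ℂ) * cis (((k : ℕ) : ℝ) * t))
    nlinarith [hee.2.2]
  · have h4 := norm_add_le (∑ k : Fin D, (a k : ℂ) * cis (((k : ℕ) : ℝ) * t))
      (∑ k : Fin D, ((x k - a k : ℝ) : ℂ) * cis (((k : ℕ) : ℝ) * t))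
    nlinarith [hee.2.2]

/-- An ultraflat sequence. -/
lemma exists_ultraflat (hF : RoundingStatement) (hA : TorusPolyStatement) (hB : ArithStatement)
    (hGa : GaussStatement) (hC : PackingStatement) (hD : OscStatement)
    (hE : SmoothingStatement) :
    ∃ (N : ℕ → ℕ) (ε : (n : ℕ) → Fin (N n) → ℝ), Filter.Tendsto N Filter.atTop Filter.atTop ∧
      (∀ n k, ε n k = 1 ∨ ε n k = -1) ∧
      ∀ c : ℝ, 0 < c → ∀ᶠ n in Filter.atTop, ∀ z : ℂ, ‖z‖ = 1 →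
        (1 - c) * Real.sqrt (N n) ≤ ‖∑ k, (ε n k : ℂ) * z ^ (k : ℕ)‖ ∧
        ‖∑ k, (ε n k : ℂ) * z ^ (k : ℕ)‖ ≤ (1 + c) * Real.sqrt (N n) := by
  choose N ε hN hε hflat using fun n : ℕ => exists_flat_signs hF hA hB hGa hC hD hE
    (c := 1 / ((n : ℝ) + 1)) (by positivity) n
  refine ⟨N, ε, Filter.tendsto_atTop_mono hN Filter.tendsto_id, hε, fun c hc => ?_⟩
  obtain ⟨m, hm⟩ := exists_nat_gt (1 / c)
  filter_upwards [Filter.eventually_ge_atTop m] with n hn z hz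
  have hcn : 1 / ((n : ℝ) + 1) ≤ c := by
    have h1 : (m : ℝ) ≤ (n : ℝ) := by exact_mod_cast hn
    rw [div_le_iff₀ (by positivity)]
    rw [div_lt_iff₀ hc] at hm
    nlinarith
  obtain ⟨h1, h2⟩ := hflat n z hz
  have hs : 0 ≤ Real.sqrt (N n : ℝ) := Real.sqrt_nonneg _
  constructor <;> nlinarith

end Vale.Agent.P110
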