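import Vale.Agent.P110.MainCore

/-!
# P110, assembly: construction of the target phases on the half circle.
-/

namespace Vale.Agent.P110

open scoped BigOperators Real
open Complex

/-- Data fixed before the length tends to infinity. -/
structure Frame (d n : ℕ) (h : Fin n → Fin d → ℤ) (c : Fin n → ℂ) (r : Fin n → ℕ)
    (v : Fin d → ℤ) (ζ : ℂ) where
  H : ℕ
  mW : ℕ
  γc : ℕ
  g : Fin n → ℕ
  Q : Fin n → ℕ
  /-- starting cell of the segments -/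
  Z : (i : Fin n) → Fin mW → Fin (Q i) → ℤ
  /-- constant phases -/
  χ : (i : Fin n) → Fin (Q i) → ℝ
  /-- cells outside all segments -/
  gap : Fin γc → ℕ
  /-- frequencies of the windows -/
  a : Fin mW → Fin d → ℝ
  V : Fin d → ℝ
  ω : Fin n → ℝ
  hH : 0 < H
  hmW : 0 < mW
  hg : ∀ i, 0 < g i
  hQ : ∀ i, 0 < Q i
  hmWH : mW ≤ H
  hγH : γc ≤ H
  card_eq : (∑ i : Fin n, mW * Q i * r i) + γc = H
  inj : ∀ a b : ((i : Fin n) × (Fin mW × Fin (Q i) × Fin (r i))) ⊕ Fin γc,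
    let x : ((i : Fin n) × (Fin mW × Fin (Q i) × Fin (r i))) ⊕ Fin γc → ℤ :=
      Sum.elim (fun z => Z z.1 z.2.1 z.2.2.1 + ((z.2.2.2 : ℕ) : ℤ)) (fun j => (gap j : ℤ))
    (2 * (H : ℤ)) ∣ x a - x b ∨ (2 * (H : ℤ)) ∣ x a + x b + 1 → a = b
  omega_eq : ∀ i, ω i = (mW : ℝ) * (Q i : ℝ) * (r i : ℝ) / (2 * (H : ℝ))
  phase : ∀ (i : Fin n) (j : Fin mW) (k : ℤ),
    ∑ l : Fin (Q i), cis (χ i l - (k : ℝ) * ((Z i j l : ℝ) / (2 * (H : ℝ))))
      = (Real.sqrt (Q i : ℝ) : ℂ) * (c i / (‖c i‖ : ℂ) * (starRingEnd ℂ) ζ)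
          * cis (dotR (h i) (fun x => V x * (k : ℝ) ^ 2 - (k : ℝ) * a j x))

/-- The first cell of a segment, before reduction modulo `2 H`. -/
def segStart {d : ℕ} (P M g : ℕ) (h J : Fin d → ℤ) (r : ℕ) (w : (Fin d → Fin P) × Fin M)
    (l : ℕ) : ℤ :=
  (P : ℤ) * (M : ℤ) * (dotZ h J + (g : ℤ) * (l : ℤ))
    + ((M : ℤ) * dotZ h (fun x => ((w.1 x : ℕ) : ℤ)) + (r : ℤ) * ((w.2 : ℕ) : ℤ))

lemma segStart_eq {d : ℕ} (P M g : ℕ) (h J : Fin d → ℤ) (r : ℕ)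
    (w : (Fin d → Fin P) × Fin M) (l : ℕ) :
    segStart P M g h J r w l = (P : ℤ) * (M : ℤ) * (dotZ h J + (g : ℤ) * (l : ℤ)
      + ((M : ℤ) * dotZ h (fun x => ((w.1 x : ℕ) : ℤ)) + (r : ℤ) * ((w.2 : ℕ) : ℤ))
          / ((P : ℤ) * (M : ℤ)))
      + wpos P M h r w := by
  unfold segStart wpos
  linarith [Int.emod_add_mul_ediv
    ((M : ℤ) * dotZ h (fun x => ((w.1 x : ℕ) : ℤ)) + (r : ℤ) * ((w.2 : ℕ) : ℤ))
    ((P : ℤ) * (M : ℤ))]

lemma wpos_range {d : ℕ} {P M r : ℕ} (hP : 0 < P) (hM : 0 < M) (hr : 0 < r) (hrM : r ∣ M)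
    (h : Fin d → ℤ) (w : (Fin d → Fin P) × Fin M) {s : ℕ} (hs : s < r) :
    0 ≤ wpos P M h r w + (s : ℤ) ∧ wpos P M h r w + (s : ℤ) < (P : ℤ) * (M : ℤ) := by
  have hPM : (0 : ℤ) < (P : ℤ) * (M : ℤ) := by positivity
  have h1 : 0 ≤ wpos P M h r w := Int.emod_nonneg _ hPM.ne'
  have h2 : wpos P M h r w < (P : ℤ) * (M : ℤ) := Int.emod_lt_of_pos _ hPM
  have h3 : (r : ℤ) ∣ (M : ℤ) := Int.natCast_dvd_natCast.mpr hrM
  obtain ⟨t, ht⟩ : (r : ℤ) ∣ wpos P M h r w := by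
    rw [wpos, Int.emod_def]
    exact dvd_sub (dvd_add (h3.mul_right _) (dvd_mul_right _ _))
      ((h3.mul_left (P : ℤ)).mul_right _)
  obtain ⟨u, hu⟩ := h3.mul_left (P : ℤ)
  have hsr : (s : ℤ) < (r : ℤ) := by exact_mod_cast hs
  refine ⟨by positivity, ?_⟩
  rw [ht] at h2 ⊢
  rw [hu] at h2 ⊢
  have htu : t < u := lt_of_mul_lt_mul_left h2 (by positivity)
  nlinarith

/-- Segments of a good packing occupy pairwise different cells, up to mirror image. -/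
lemma seg_inj {d n : ℕ} {h : Fin n → Fin d → ℤ} {r g Q : Fin n → ℕ} {P M q H mW : ℕ}
    (hP : 0 < P) (hM : 0 < M) (hr : ∀ i, 0 < r i) (hrM : ∀ i, r i ∣ M)
    (hg : ∀ i, 0 < g i) (hgQ : ∀ i, g i * Q i = q) (hH : 2 * H = q * (P * M))
    (w : Fin mW → (Fin d → Fin P) × Fin M) (hwinj : Function.Injective w)
    (W : Finset ((Fin d → Fin P) × Fin M)) (hwmem : ∀ j, w j ∈ W)
    (hsame : ∀ i j, ∀ u ∈ W, ∀ u' ∈ W, ∀ s < r i, ∀ s' < r j,
        wpos P M (h i) (r i) u + (s : ℤ) = wpos P M (h j) (r j) u' + (s' : ℤ) →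
          i = j ∧ wpos P M (h i) (r i) u = wpos P M (h j) (r j) u' ∧ s = s')
    (hmir : ∀ i j, ∀ u ∈ W, ∀ u' ∈ W, ∀ s < r i, ∀ s' < r j,
        wpos P M (h i) (r i) u + (s : ℤ) + (wpos P M (h j) (r j) u' + (s' : ℤ)) + 1
          ≠ (P : ℤ) * (M : ℤ))
    (rk : Fin n → (Fin d → Fin P) × Fin M → ℕ) (hrk1 : ∀ i, ∀ u ∈ W, rk i u < g i)
    (hrk2 : ∀ i, ∀ u ∈ W, ∀ u' ∈ W, wpos P M (h i) (r i) u = wpos P M (h i) (r i) u' →
        rk i u = rk i u' → u = u')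
    (J : Fin mW → Fin d → ℤ)
    (hJ : ∀ j i, (g i : ℤ) ∣ dotZ (h i) (J j) - ((rk i (w j) : ℤ)
      - ((M : ℤ) * dotZ (h i) (fun x => (((w j).1 x : ℕ) : ℤ))
          + (r i : ℤ) * ((((w j).2 : Fin M) : ℕ) : ℤ)) / ((P : ℤ) * (M : ℤ)))) :
    ∀ a b : (i : Fin n) × (Fin mW × Fin (Q i) × Fin (r i)),
      let X : (i : Fin n) × (Fin mW × Fin (Q i) × Fin (r i)) → ℤ := fun z =>
        segStart P M (g z.1) (h z.1) (J z.2.1) (r z.1) (w z.2.1) (z.2.2.1 : ℕ)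
          + ((z.2.2.2 : ℕ) : ℤ)
      (2 * (H : ℤ)) ∣ X a - X b ∨ (2 * (H : ℤ)) ∣ X a + X b + 1 → a = b := by
  have hPM : (0 : ℤ) < (P : ℤ) * (M : ℤ) := by positivity
  have hHZ : (2 * (H : ℤ)) = (q : ℤ) * ((P : ℤ) * (M : ℤ)) := by exact_mod_cast hH
  rintro ⟨i, j, l, s⟩ ⟨i', j', l', s'⟩ X hab
  have ha := wpos_range hP hM (hr i) (hrM i) (h i) (w j) s.2
  have hb := wpos_range hP hM (hr i') (hrM i') (h i') (w j') s'.2
  simp only [X, segStart_eq, hHZ] at hab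
  have hj := hJ j
  have hj' := hJ j'
  rw [add_assoc, add_assoc ((P : ℤ) * (M : ℤ) * _) (wpos P M (h i') _ _)] at hab
  rcases hab with hab | hab
  · have h1 : ((P : ℤ) * (M : ℤ)) ∣ (wpos P M (h i) (r i) (w j) + ((s : ℕ) : ℤ))
        - (wpos P M (h i') (r i') (w j') + ((s' : ℕ) : ℤ)) := by
      have h2 := (dvd_mul_left ((P : ℤ) * (M : ℤ)) (q : ℤ)).trans hab
      rw [add_sub_add_comm, ← mul_sub] at h2
      exact (dvd_add_right (dvd_mul_right _ _)).mp h2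
    have h3 : (wpos P M (h i) (r i) (w j) + ((s : ℕ) : ℤ))
        - (wpos P M (h i') (r i') (w j') + ((s' : ℕ) : ℤ)) = 0 :=
      Int.eq_zero_of_abs_lt_dvd h1 (abs_lt.mpr ⟨by linarith, by linarith⟩)
    obtain ⟨rfl, hpos, hss⟩ := hsame i i' (w j) (hwmem j) (w j') (hwmem j') s s.2 s' s'.2
      (by linarith)
    obtain rfl : s = s' := Fin.ext hss
    rw [add_sub_add_comm, h3, add_zero, ← mul_sub, mul_comm (q : ℤ)] at hab
    have hq' := (mul_dvd_mul_iff_left hPM.ne').mp hab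
    have hgq : (g i : ℤ) ∣ (q : ℤ) := ⟨Q i, by exact_mod_cast (hgQ i).symm⟩
    have hrkeq : (g i : ℤ) ∣ (rk i (w j) : ℤ) - (rk i (w j') : ℤ) :=
      (dvd_sub (dvd_sub (hgq.trans hq') (dvd_sub (hj i) (hj' i)))
        (dvd_mul_right (g i : ℤ) (((l : ℕ) : ℤ) - ((l' : ℕ) : ℤ)))).trans (dvd_of_eq (by ring))
    have hrk : rk i (w j) = rk i (w j') := by
      have h4 : (rk i (w j) : ℤ) - (rk i (w j') : ℤ) = 0 := by
        refine Int.eq_zero_of_abs_lt_dvd hrkeq (abs_lt.mpr ?_)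
        have := hrk1 i (w j) (hwmem j)
        have := hrk1 i (w j') (hwmem j')
        constructor <;> omega
      omega
    obtain rfl : j = j' := hwinj (hrk2 i (w j) (hwmem j) (w j') (hwmem j') hpos hrk)
    have h5 : (g i : ℤ) * (Q i : ℤ) ∣ (g i : ℤ) * (((l : ℕ) : ℤ) - ((l' : ℕ) : ℤ)) := by
      have h6 : (g i : ℤ) * (Q i : ℤ) = (q : ℤ) := by exact_mod_cast hgQ i
      have h7 := hj i
      have h8 := hj' i
      rw [h6]
      refine hq'.trans (dvd_of_eq ?_)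
      linarith
    rw [mul_dvd_mul_iff_left (by exact_mod_cast (hg i).ne')] at h5
    obtain rfl : l = l' := by
      have h7 := Int.eq_zero_of_abs_lt_dvd h5 (abs_lt.mpr (by
        have := l.2; have := l'.2; constructor <;> omega))
      exact Fin.ext (by omega)
    rfl
  · exfalso
    have h1 : ((P : ℤ) * (M : ℤ)) ∣ (wpos P M (h i) (r i) (w j) + ((s : ℕ) : ℤ))
        + (wpos P M (h i') (r i') (w j') + ((s' : ℕ) : ℤ)) + 1 := by
      have h2 := (dvd_mul_left ((P : ℤ) * (M : ℤ)) (q : ℤ)).trans hab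
      rw [add_add_add_comm, ← mul_add, add_assoc ((P : ℤ) * (M : ℤ) * _)] at h2
      exact (dvd_add_right (dvd_mul_right _ _)).mp h2
    obtain ⟨t, ht⟩ := h1
    have ht1 : 0 < t := by
      by_contra hcon
      have := mul_nonpos_of_nonneg_of_nonpos hPM.le (not_lt.mp hcon)
      linarith
    have ht2 : t < 2 := by
      by_contra hcon
      have := mul_le_mul_of_nonneg_left (not_lt.mp hcon) hPM.le
      linarith
    obtain rfl : t = 1 := by omega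
    exact hmir i i' (w j) (hwmem j) (w j') (hwmem j') s s.2 s' s'.2 (by linarith)

/-- Enumeration of the cells left uncovered. -/
lemma exists_gaps {H : ℕ} (hH : 0 < H) {κ : Type} [Fintype κ] (X : κ → ℤ)
    (hinj : ∀ a b, (2 * (H : ℤ)) ∣ X a - X b ∨ (2 * (H : ℤ)) ∣ X a + X b + 1 → a = b) :
    ∃ (γc : ℕ) (gap : Fin γc → ℕ), Fintype.card κ + γc = H ∧
      ∀ a b : κ ⊕ Fin γc,
        let x : κ ⊕ Fin γc → ℤ := Sum.elim X (fun j => (gap j : ℤ))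
        (2 * (H : ℤ)) ∣ x a - x b ∨ (2 * (H : ℤ)) ∣ x a + x b + 1 → a = b := by
  classical
  set F : κ → Fin H := fun z =>
    ⟨(foldIdx H (X z)).toNat, by have := foldIdx_nonneg hH (X z); omega⟩ with hF
  have hFinj : Function.Injective F := by
    intro a b hab
    refine hinj a b (foldIdx_eq_imp ?_)
    have h1 := congrArg Fin.val hab
    simp only [hF] at h1
    have := foldIdx_nonneg hH (X a)
    have := foldIdx_nonneg hH (X b)
    omega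
  refine ⟨((Finset.univ.image F)ᶜ).card,
    fun j => ((((Finset.univ.image F)ᶜ).equivFin.symm j : Fin H) : ℕ), ?_, ?_⟩
  · rw [Finset.card_compl, Finset.card_image_of_injective _ hFinj, Finset.card_univ,
      Fintype.card_fin]
    have := Fintype.card_le_of_injective _ hFinj
    simp only [Fintype.card_fin] at this
    omega
  · generalize hGs : (Finset.univ.image F)ᶜ = Gs
    intro a b x hab
    have hfold : ∀ j : Fin Gs.card, foldIdx H (((Gs.equivFin.symm j : Fin H) : ℕ) : ℤ)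
        = (((Gs.equivFin.symm j : Fin H) : ℕ) : ℤ) := fun j =>
      foldIdx_of_lt (by positivity) (by exact_mod_cast (Gs.equivFin.symm j : Fin H).2)
    have hne : ∀ z j, foldIdx H (X z) ≠ (((Gs.equivFin.symm j : Fin H) : ℕ) : ℤ) := by
      intro z j h1
      have hmem : (Gs.equivFin.symm j : Fin H) ∈ (Finset.univ.image F)ᶜ := by
        rw [hGs]; exact (Gs.equivFin.symm j).2
      rw [Finset.mem_compl, Finset.mem_image] at hmem
      exact hmem ⟨z, Finset.mem_univ z, Fin.ext (by simp [hF, h1])⟩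
    have h1 := foldIdx_eq_of_dvd hH hab
    rcases a with a | a <;> rcases b with b | b <;>
      simp only [x, Sum.elim_inl, Sum.elim_inr, hfold] at h1 hab
    · exact congrArg Sum.inl (hinj a b hab)
    · exact absurd h1 (hne a b)
    · exact absurd h1.symm (hne b a)
    · exact congrArg Sum.inr (Gs.equivFin.symm.injective
        (Subtype.ext (Fin.ext (by exact_mod_cast h1))))

/-- Phases on the teeth of one comb, and the resulting coefficient identity. -/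
lemma exists_teeth (hGa : GaussStatement) {d : ℕ} {h Vz : Fin d → ℤ} {g Q q P M r : ℕ}
    (hg : 0 < g) (hQ : Odd Q) (hgQ : g * Q = q) (hP : 0 < P) (hM : 0 < M) {A : ℤ}
    (hA : dotZ h Vz = A * (g : ℤ)) (hcop : IsCoprime A (Q : ℤ)) {u : ℂ} (hu : ‖u‖ = 1)
    (v : Fin d → ℤ) (hv : dotZ h v = (r : ℤ)) :
    ∃ χ : Fin Q → ℝ, ∀ (k : ℤ) (J : Fin d → ℤ) (w : (Fin d → Fin P) × Fin M),
      ∑ l : Fin Q, cis (χ l - (k : ℝ) *
          ((segStart P M g h J r w (l : ℕ) : ℝ) / ((q : ℝ) * ((P : ℝ) * (M : ℝ)))))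
        = (Real.sqrt (Q : ℝ) : ℂ) * u
            * cis (dotR h (fun x => (Vz x : ℝ) / (q : ℝ) * (k : ℝ) ^ 2 - (k : ℝ) *
                ((J x : ℝ) / (q : ℝ) + ((M : ℝ) * ((w.1 x : ℕ) : ℝ)
                  + (v x : ℝ) * ((w.2 : ℕ) : ℝ)) / ((q : ℝ) * ((P : ℝ) * (M : ℝ)))))) := by
  obtain ⟨γl, hγ1, hγ2⟩ := hGa Q A hQ hcop
  choose χ hχ using fun l : Fin Q => exists_cis_eq (z := γl l * u) (by rw [norm_mul, hγ1, hu, one_mul])
  refine ⟨χ, fun k J w => ?_⟩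
  have hgR : (0 : ℝ) < (g : ℝ) := by exact_mod_cast hg
  have hQR : (0 : ℝ) < (Q : ℝ) := by exact_mod_cast hQ.pos
  have hPR : (0 : ℝ) < (P : ℝ) := by exact_mod_cast hP
  have hMR : (0 : ℝ) < (M : ℝ) := by exact_mod_cast hM
  have hqR : (q : ℝ) = (g : ℝ) * (Q : ℝ) := by exact_mod_cast hgQ.symm
  have hA' : (dotZ h Vz : ℝ) = (A : ℝ) * (g : ℝ) := by rw [hA]; simp
  have hv' : (dotZ h v : ℝ) = (r : ℝ) := by rw [hv]; simp
  have e0 : dotR h (fun x => (Vz x : ℝ) / (q : ℝ) * (k : ℝ) ^ 2 - (k : ℝ) *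
      ((J x : ℝ) / (q : ℝ) + ((M : ℝ) * ((w.1 x : ℕ) : ℝ)
        + (v x : ℝ) * ((w.2 : ℕ) : ℝ)) / ((q : ℝ) * ((P : ℝ) * (M : ℝ)))))
      = (A : ℝ) * (k : ℝ) ^ 2 / (Q : ℝ) + -((k : ℝ) * ((dotZ h J : ℝ) / (q : ℝ)
        + ((M : ℝ) * (dotZ h (fun x => ((w.1 x : ℕ) : ℤ)) : ℝ)
          + (r : ℝ) * ((w.2 : ℕ) : ℝ)) / ((q : ℝ) * ((P : ℝ) * (M : ℝ))))) := by
    rw [show (A : ℝ) * (k : ℝ) ^ 2 / (Q : ℝ) = (dotZ h Vz : ℝ) / (q : ℝ) * (k : ℝ) ^ 2 by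
      rw [hA', hqR]; field_simp, ← hv']
    simp only [dotR, dotZ, Int.cast_sum, Int.cast_mul, Int.cast_natCast, Finset.sum_div,
      Finset.mul_sum, Finset.sum_mul, ← Finset.sum_add_distrib, ← Finset.sum_neg_distrib]
    exact Finset.sum_congr rfl fun x _ => by ring
  rw [e0, cis_add,
    show ∀ x y : ℂ, (Real.sqrt (Q : ℝ) : ℂ) * u * (x * y)
      = u * ((Real.sqrt (Q : ℝ) : ℂ) * x) * y from fun x y => by ring,
    ← hγ2, Finset.mul_sum, Finset.sum_mul]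
  refine Finset.sum_congr rfl fun l _ => ?_
  rw [show ∀ x y z : ℂ, u * (x * y) * z = x * u * y * z from fun x y z => by ring, ← hχ l,
    ← cis_add, ← cis_add]
  congr 1
  simp only [segStart, Int.cast_add, Int.cast_mul, Int.cast_natCast]
  rw [hqR]
  field_simp
  ring

/-- The amplitude of one harmonic is almost as large as prescribed. -/
lemma omega_lower {p r g P M : ℝ} {mW C π₀ ξ : ℝ} {d : ℕ} (hd : 1 ≤ d) (hp : 0 < p) (hr : 0 < r)
    (hg : 0 < g) (hP : 0 < P) (hM : 0 < M) (hξ : 0 < ξ) (hξ1 : ξ < 1 / 2)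
    (hC : C = π₀ * P ^ (d - 1)) (hC0 : 0 < C) (hgu : g ≤ (1 + ξ) * (C * (r / p)))
    (hW : (1 - ξ) * π₀ * P ^ d * M ≤ mW) :
    (1 - 2 * ξ) * p ≤ mW * r / (g * (P * M)) := by
  have hPd : P ^ d = P ^ (d - 1) * P := by
    rw [← pow_succ]; congr 1; omega
  rw [le_div_iff₀ (by positivity)]
  rw [hPd] at hW
  have h2 : g * p ≤ (1 + ξ) * C * r := by
    calc g * p ≤ (1 + ξ) * (C * (r / p)) * p := mul_le_mul_of_nonneg_right hgu hp.le
      _ = (1 + ξ) * C * r := by field_simp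
  calc (1 - 2 * ξ) * p * (g * (P * M))
      = (1 - 2 * ξ) * (g * p) * (P * M) := by ring
    _ ≤ (1 - 2 * ξ) * ((1 + ξ) * C * r) * (P * M) :=
        mul_le_mul_of_nonneg_right (mul_le_mul_of_nonneg_left h2 (by linarith)) (by positivity)
    _ ≤ (1 - ξ) * (C * r) * (P * M) := by
        have hx : (1 - 2 * ξ) * (1 + ξ) ≤ 1 - ξ := by nlinarith
        have hpos : 0 ≤ C * r * (P * M) := by positivity
        nlinarith [mul_le_mul_of_nonneg_right hx hpos]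
    _ ≤ mW * r := by
        refine le_trans (le_of_eq ?_) (mul_le_mul_of_nonneg_right hW hr.le)
        rw [hC]; ring

/-- A frame exists in which all amplitudes are close to those of `c`. -/
lemma exists_frame (hB : ArithStatement) (hGa : GaussStatement) (hC : PackingStatement)
    {d n : ℕ} {h : Fin n → Fin d → ℤ} {c : Fin n → ℂ} {r : Fin n → ℕ} {v : Fin d → ℤ} {ζ : ℂ}
    (hd : 2 ≤ d) (hind : PairIndep h) (hne : ∀ i, h i ≠ 0) (hc : ∀ i, c i ≠ 0)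
    (hsum : 2 * ∑ i, ‖c i‖ ^ 2 = 1) (hr : ∀ i, 0 < r i) (hv : ∀ i, dotZ (h i) v = (r i : ℤ))
    (hζ : ‖ζ‖ = 1) {ξ : ℝ} (hξ : 0 < ξ) (hξ1 : ξ < 1 / 2) :
    ∃ F : Frame d n h c r v ζ, ∀ i, (1 - 2 * ξ) * ‖c i‖ ^ 2 ≤ F.ω i := by
  classical
  have hp : ∀ i, 0 < ‖c i‖ ^ 2 := fun i => pow_pos (norm_pos_iff.mpr (hc i)) 2
  obtain ⟨π₀, hπ⟩ : ∃ x, x = ∏ i, ‖c i‖ ^ 2 := ⟨_, rfl⟩
  have hπ0 : 0 < π₀ := hπ ▸ Finset.prod_pos fun i _ => hp i
  obtain ⟨Mh, hMh⟩ : ∃ x, x = ∏ i, r i := ⟨_, rfl⟩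
  have hMh0 : 0 < Mh := hMh ▸ Finset.prod_pos fun i _ => hr i
  obtain ⟨M, hM⟩ : ∃ x, x = 2 * Mh := ⟨_, rfl⟩
  have hM0 : 0 < M := by omega
  have hrM : ∀ i, r i ∣ M := fun i => by
    rw [hM, hMh]; exact (Finset.dvd_prod_of_mem r (Finset.mem_univ i)).mul_left 2
  have hρ : ∀ i, 0 < (r i : ℝ) / ‖c i‖ ^ 2 :=
    fun i => div_pos (by exact_mod_cast hr i) (hp i)
  obtain ⟨C₀, hC₀⟩ := hB d n h hind hne _ hρ ξ hξ
  obtain ⟨P₀, hP₀⟩ := hC d n h hd hind hne v r hr hv M hM0 hrM _ hp hsum ξ hξ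
  obtain ⟨P, hPge, hPp⟩ := Nat.exists_infinite_primes (max P₀ (⌈C₀ / π₀⌉₊ + 1))
  have hP0 : 0 < P := hPp.pos
  have hCC₀ : C₀ ≤ π₀ * (P : ℝ) ^ (d - 1) := by
    have h1 : (P : ℝ) ≤ (P : ℝ) ^ (d - 1) :=
      le_self_pow₀ (by exact_mod_cast hPp.one_le) (by omega)
    have h2 : C₀ / π₀ ≤ (P : ℝ) := by
      refine (Nat.le_ceil _).trans ?_
      exact_mod_cast (le_trans (by omega) (le_trans (le_max_right P₀ _) hPge) : ⌈C₀ / π₀⌉₊ ≤ P)
    rw [div_le_iff₀ hπ0] at h2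
    nlinarith
  obtain ⟨g, Vz, hgodd, hgsize, hgA, hJ⟩ := hC₀ _ hCC₀
  have hg : ∀ i, 0 < g i := fun i => (hgodd i).pos
  obtain ⟨W, hWcard, hWsame, hWmir, hWfib⟩ :=
    hP₀ P hPp ((le_max_left _ _).trans hPge) g (fun i => by
      refine le_of_eq_of_le ?_ (hgsize i).1
      rw [hπ]; ring)
  obtain ⟨q, hq⟩ : ∃ x, x = ∏ i, g i := ⟨_, rfl⟩
  obtain ⟨Q, hQdef⟩ : ∃ Q : Fin n → ℕ, Q = fun i => ∏ j ∈ Finset.univ.erase i, g j := ⟨_, rfl⟩
  have hgQ : ∀ i, g i * Q i = q := fun i => by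
    rw [hQdef, hq]; exact Finset.mul_prod_erase _ g (Finset.mem_univ i)
  have hQodd : ∀ i, Odd (Q i) := fun i => by
    rw [hQdef]
    exact Finset.prod_induction g Odd (fun a b ha hb => ha.mul hb) odd_one fun j _ => hgodd j
  obtain ⟨H, hHdef⟩ : ∃ x, x = q * P * Mh := ⟨_, rfl⟩
  have hq0 : 0 < q := hq ▸ Finset.prod_pos fun i _ => hg i
  have hH0 : 0 < H := hHdef ▸ by positivity
  have hH2 : 2 * H = q * (P * M) := by rw [hHdef, hM]; ring
  have hH2R : (2 * (H : ℝ)) = (q : ℝ) * ((P : ℝ) * (M : ℝ)) := by exact_mod_cast hH2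
  have hWpos : 0 < W.card := by
    have h1 : (0 : ℝ) < (W.card : ℝ) := by
      refine lt_of_lt_of_le ?_ hWcard
      have h2 : (0 : ℝ) < 1 - ξ := by linarith
      have h3 := Finset.prod_pos (f := fun i => ‖c i‖ ^ 2) (s := Finset.univ) fun i _ => hp i
      positivity
    exact_mod_cast h1
  obtain ⟨w, hwmem, hwinj⟩ :
      ∃ w : Fin W.card → (Fin d → Fin P) × Fin M, (∀ j, w j ∈ W) ∧ Function.Injective w :=
    ⟨fun j => (W.equivFin.symm j : _), fun j => (W.equivFin.symm j).2,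
      fun a b hab => W.equivFin.symm.injective (Subtype.ext hab)⟩
  choose rk hrk1 hrk2 using fun i =>
    exists_rank W (fun x => wpos P M (h i) (r i) x) (hWfib i)
  choose J hJ' using fun j => hJ (fun i => (rk i (w j) : ℤ)
    - ((M : ℤ) * dotZ (h i) (fun x => (((w j).1 x : ℕ) : ℤ))
        + (r i : ℤ) * ((((w j).2 : Fin M) : ℕ) : ℤ)) / ((P : ℤ) * (M : ℤ)))
  have hinjX := seg_inj (Q := Q) (q := q) (H := H) hP0 hM0 hr hrM hg hgQ hH2 w hwinj W hwmem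
    hWsame hWmir rk hrk1 hrk2 J hJ'
  obtain ⟨γc, gap, hcards, hinjall⟩ := exists_gaps hH0 _ hinjX
  have hcardCell : Fintype.card ((i : Fin n) × (Fin W.card × Fin (Q i) × Fin (r i)))
      = ∑ i : Fin n, W.card * Q i * r i := by
    simp [Fintype.card_sigma, mul_assoc]
  rw [hcardCell] at hcards
  have hu : ∀ i, ‖c i / (‖c i‖ : ℂ) * (starRingEnd ℂ) ζ‖ = 1 := fun i => by
    rw [norm_mul, norm_div, Complex.norm_real, Real.norm_eq_abs, abs_norm,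
      div_self (norm_ne_zero_iff.mpr (hc i)), Complex.norm_conj, hζ, one_mul]
  have hteeth : ∀ i, ∃ χ : Fin (Q i) → ℝ, ∀ (k : ℤ) (J : Fin d → ℤ)
      (w : (Fin d → Fin P) × Fin M),
      ∑ l : Fin (Q i), cis (χ l - (k : ℝ) *
          ((segStart P M (g i) (h i) J (r i) w (l : ℕ) : ℝ) / ((q : ℝ) * ((P : ℝ) * (M : ℝ)))))
        = (Real.sqrt (Q i : ℝ) : ℂ) * (c i / (‖c i‖ : ℂ) * (starRingEnd ℂ) ζ)
            * cis (dotR (h i) (fun x => (Vz x : ℝ) / (q : ℝ) * (k : ℝ) ^ 2 - (k : ℝ) *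
                ((J x : ℝ) / (q : ℝ) + ((M : ℝ) * ((w.1 x : ℕ) : ℝ)
                  + (v x : ℝ) * ((w.2 : ℕ) : ℝ)) / ((q : ℝ) * ((P : ℝ) * (M : ℝ)))))) := by
    intro i
    obtain ⟨A, hA1, hA2⟩ := hgA i
    have hA2' : IsCoprime A (Q i : ℤ) := by rw [hQdef]; exact hA2
    exact exists_teeth hGa (hg i) (hQodd i) (hgQ i) hP0 hM0 hA1 hA2' (hu i) v (hv i)
  choose χ hχ using hteeth
  have hQ0 : ∀ i, 0 < Q i := fun i => (hQodd i).pos
  have hmWH : W.card ≤ H := by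
    rcases Nat.eq_zero_or_pos n with hn | hn
    · subst hn; simp at hsum
    refine le_trans ?_ (le_of_le_of_eq (Nat.le_add_right _ γc) hcards)
    refine le_trans ?_ (Finset.single_le_sum (f := fun i => W.card * Q i * r i)
      (fun i _ => Nat.zero_le _) (Finset.mem_univ (⟨0, hn⟩ : Fin n)))
    calc W.card = W.card * 1 * 1 := by ring
      _ ≤ W.card * Q ⟨0, hn⟩ * r ⟨0, hn⟩ :=
        Nat.mul_le_mul (Nat.mul_le_mul_left _ (hQ0 _)) (hr _)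
  refine ⟨{
    H := H, mW := W.card, γc := γc, g := g, Q := Q
    Z := fun i j l => segStart P M (g i) (h i) (J j) (r i) (w j) (l : ℕ)
    χ := χ, gap := gap
    a := fun j x => (J j x : ℝ) / (q : ℝ) + ((M : ℝ) * (((w j).1 x : ℕ) : ℝ)
      + (v x : ℝ) * ((((w j).2 : Fin M) : ℕ) : ℝ)) / ((q : ℝ) * ((P : ℝ) * (M : ℝ)))
    V := fun x => (Vz x : ℝ) / (q : ℝ)
    ω := fun i => (W.card : ℝ) * (Q i : ℝ) * (r i : ℝ) / (2 * (H : ℝ))
    hH := hH0, hmW := hWpos, hg := hg, hQ := hQ0, hmWH := hmWH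
    hγH := le_of_le_of_eq (Nat.le_add_left _ _) hcards
    card_eq := hcards
    inj := hinjall
    omega_eq := fun i => rfl
    phase := fun i j k => by rw [hH2R]; exact hχ i k (J j) (w j) }, ?_⟩
  intro i
  show (1 - 2 * ξ) * ‖c i‖ ^ 2 ≤ (W.card : ℝ) * (Q i : ℝ) * (r i : ℝ) / (2 * (H : ℝ))
  have hgR : (0 : ℝ) < (g i : ℝ) := by exact_mod_cast hg i
  have hQR : (0 : ℝ) < (Q i : ℝ) := by exact_mod_cast hQ0 i
  have key : (W.card : ℝ) * (Q i : ℝ) * (r i : ℝ) / (2 * (H : ℝ))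
      = (W.card : ℝ) * (r i : ℝ) / ((g i : ℝ) * ((P : ℝ) * (M : ℝ))) := by
    rw [hH2R, show (q : ℝ) = (g i : ℝ) * (Q i : ℝ) by exact_mod_cast (hgQ i).symm]
    field_simp
  rw [key]
  refine omega_lower (C := π₀ * (P : ℝ) ^ (d - 1)) (by omega) (hp i) (by exact_mod_cast hr i) hgR
    (by exact_mod_cast hP0) (by exact_mod_cast hM0) hξ hξ1 rfl (by positivity) (hgsize i).2 ?_
  rw [hπ]; exact hWcard

end Vale.Agent.P110
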