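import Vale.Agent.P110.MainCells

/-!
# P110, assembly: small tools.
-/

namespace Vale.Agent.P110

open scoped BigOperators Real
open Complex

lemma foldIdx_eq_of_dvd {H : ℕ} (hH : 0 < H) {x y : ℤ}
    (h : (2 * (H : ℤ)) ∣ x - y ∨ (2 * (H : ℤ)) ∣ x + y + 1) : foldIdx H x = foldIdx H y := by
  have hpos : (0 : ℤ) < 2 * (H : ℤ) := by positivity
  have hx := Int.emod_add_mul_ediv x (2 * (H : ℤ))
  have hy := Int.emod_add_mul_ediv y (2 * (H : ℤ))
  have x1 := Int.emod_nonneg x hpos.ne'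
  have x2 := Int.emod_lt_of_pos x hpos
  have y1 := Int.emod_nonneg y hpos.ne'
  have y2 := Int.emod_lt_of_pos y hpos
  rcases h with h | h
  · have he : x % (2 * (H : ℤ)) = y % (2 * (H : ℤ)) := (Int.emod_eq_emod_iff_emod_sub_eq_zero).mpr
      (Int.emod_eq_zero_of_dvd h)
    unfold foldIdx; rw [he]
  · obtain ⟨t, ht⟩ := h
    have he : x % (2 * (H : ℤ)) + y % (2 * (H : ℤ)) + 1
        = 2 * (H : ℤ) * (t - x / (2 * (H : ℤ)) - y / (2 * (H : ℤ))) := by linarith
    generalize t - x / (2 * (H : ℤ)) - y / (2 * (H : ℤ)) = u at he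
    have hu : u = 1 := by
      have h1 : 0 < u := by
        by_contra hcon
        have : 2 * (H : ℤ) * u ≤ 0 :=
          mul_nonpos_of_nonneg_of_nonpos hpos.le (not_lt.mp hcon)
        omega
      have h2 : u < 2 := by
        by_contra hcon
        have : 2 * (H : ℤ) * 2 ≤ 2 * (H : ℤ) * u :=
          mul_le_mul_of_nonneg_left (not_lt.mp hcon) hpos.le
        omega
      omega
    subst hu
    unfold foldIdx
    split_ifs <;> omega

/-- A rank function with injective fibres. -/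
lemma exists_rank {α β : Type} [DecidableEq α] [DecidableEq β] (W : Finset α) (f : α → β)
    {g : ℕ} (hg : ∀ z, (W.filter (fun w => f w = z)).card ≤ g) :
    ∃ rk : α → ℕ, (∀ w ∈ W, rk w < g) ∧
      ∀ w ∈ W, ∀ w' ∈ W, f w = f w' → rk w = rk w' → w = w' := by
  refine ⟨fun w => (W.filter (fun x => f x = f w)).toList.idxOf w, ?_, ?_⟩
  · intro w hw
    refine lt_of_lt_of_le (List.idxOf_lt_length_of_mem ?_) ?_
    · simp [hw]
    · simpa using hg (f w)
  · intro w hw w' hw' hf h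
    simp only [hf] at h
    exact (List.idxOf_inj (by simp [hw, hf])).mp h

/-- A family of unit translates of a function which is small away from `[-1,2)`. -/
lemma sum_shift_le {m : ℕ} {J : ℝ → ℂ} {B ε : ℝ} (hB0 : 0 ≤ B) (hε : 0 ≤ ε)
    (hB : ∀ τ, ‖J τ‖ ≤ B) (hfar : ∀ τ, τ ≤ -1 ∨ 2 ≤ τ → ‖J τ‖ ≤ ε) (u : ℝ) :
    ∑ j : Fin m, ‖J (u - ((j : ℕ) : ℝ))‖ ≤ 3 * B + m * ε := by
  classical
  set S : Finset (Fin m) := Finset.univ.filter
    (fun j => ((j : ℕ) : ℤ) ∈ Finset.Icc (⌊u⌋ - 1) (⌊u⌋ + 1)) with hS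
  have hScard : S.card ≤ 3 := by
    have h1 : S.card ≤ (Finset.Icc (⌊u⌋ - 1) (⌊u⌋ + 1)).card := by
      refine Finset.card_le_card_of_injOn (fun j : Fin m => ((j : ℕ) : ℤ)) ?_ ?_
      · intro j hj; simp only [hS, Finset.coe_filter, Set.mem_ofPred_eq] at hj; exact hj.2
      · intro a _ b _ hab; exact Fin.ext (by simpa using hab)
    refine h1.trans ?_
    rw [Int.card_Icc]; omega
  have h1 : ∀ j : Fin m, ‖J (u - ((j : ℕ) : ℝ))‖ ≤ (if j ∈ S then B else 0) + ε := by
    intro j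
    split_ifs with hj
    · linarith [hB (u - ((j : ℕ) : ℝ))]
    · rw [zero_add]
      refine hfar _ ?_
      simp only [hS, Finset.mem_filter, Finset.mem_univ, true_and, Finset.mem_Icc, not_and_or,
        not_le] at hj
      rcases hj with hj | hj
      · right
        have : ((j : ℕ) : ℤ) ≤ ⌊u⌋ - 2 := by omega
        have h2 : (((j : ℕ) : ℤ) : ℝ) ≤ ((⌊u⌋ - 2 : ℤ) : ℝ) := Int.cast_le.mpr this
        push_cast at h2
        linarith [Int.floor_le u]
      · left
        have : ⌊u⌋ + 2 ≤ ((j : ℕ) : ℤ) := by omega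
        have h2 : ((⌊u⌋ + 2 : ℤ) : ℝ) ≤ (((j : ℕ) : ℤ) : ℝ) := Int.cast_le.mpr this
        push_cast at h2
        linarith [Int.lt_floor_add_one u]
  refine (Finset.sum_le_sum fun j _ => h1 j).trans ?_
  rw [Finset.sum_add_distrib, Finset.sum_ite_mem, Finset.univ_inter, Finset.sum_const,
    Finset.sum_const, Finset.card_univ, Fintype.card_fin, nsmul_eq_mul, nsmul_eq_mul]
  have : (S.card : ℝ) ≤ 3 := by exact_mod_cast hScard
  nlinarith

lemma abs_sqrt_sub_sqrt_le {a b : ℝ} (ha : 0 ≤ a) (hb : 0 ≤ b) :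
    |Real.sqrt a - Real.sqrt b| ≤ Real.sqrt |a - b| := by
  rw [← Real.sqrt_sq (abs_nonneg (Real.sqrt a - Real.sqrt b))]
  refine Real.sqrt_le_sqrt ?_
  have hA := Real.mul_self_sqrt ha
  have hB := Real.mul_self_sqrt hb
  have hA0 := Real.sqrt_nonneg a
  have hB0 := Real.sqrt_nonneg b
  rw [sq_abs]
  rcases le_total (Real.sqrt b) (Real.sqrt a) with h | h
  · nlinarith [le_abs_self (a - b), mul_nonneg hB0 (sub_nonneg.mpr h)]
  · nlinarith [neg_abs_le (a - b), mul_nonneg hA0 (sub_nonneg.mpr h)]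

/-- Parseval for trigonometric polynomials with real coefficients. -/
lemma parseval_finite {D : ℕ} (b : Fin D → ℝ) :
    ∫ θ in (0 : ℝ)..1, ‖∑ k : Fin D, (b k : ℂ) * cis (((k : ℕ) : ℝ) * θ)‖ ^ 2
      = ∑ k, b k ^ 2 := by
  have h1 : ∀ θ : ℝ, ((‖∑ k : Fin D, (b k : ℂ) * cis (((k : ℕ) : ℝ) * θ)‖ ^ 2 : ℝ) : ℂ)
      = ∑ k : Fin D, ∑ l : Fin D,
          ((b k * b l : ℝ) : ℂ) * cis ((((k : ℕ) : ℤ) - ((l : ℕ) : ℤ) : ℤ) * θ) := by
    intro θ
    rw [Complex.ofReal_pow, ← Complex.mul_conj', map_sum, Finset.sum_mul_sum]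
    refine Finset.sum_congr rfl fun k _ => Finset.sum_congr rfl fun l _ => ?_
    rw [map_mul, Complex.conj_ofReal, conj_cis]
    push_cast
    rw [show (((k : ℕ) : ℝ) - ((l : ℕ) : ℝ)) * θ
      = ((k : ℕ) : ℝ) * θ + -(((l : ℕ) : ℝ) * θ) by ring, cis_add]
    ring
  apply Complex.ofReal_injective
  rw [← intervalIntegral.integral_ofReal, intervalIntegral.integral_congr (fun θ _ => h1 θ),
    intervalIntegral.integral_finsetSum]
  · push_cast
    refine Finset.sum_congr rfl fun k _ => ?_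
    rw [intervalIntegral.integral_finsetSum]
    · rw [Finset.sum_eq_single k]
      · rw [intervalIntegral.integral_const_mul]
        simp [cis_zero, sq]
      · intro l _ hl
        rw [intervalIntegral.integral_const_mul]
        have hne : (((k : ℕ) : ℤ) - ((l : ℕ) : ℤ)) ≠ 0 := fun h0 => hl (Fin.ext (by omega))
        have h2 := integral_cis_int (((k : ℕ) : ℤ) - ((l : ℕ) : ℤ))
        rw [if_neg hne] at h2
        push_cast at h2
        rw [h2, mul_zero]
      · simp
    · intro l _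
      exact (Continuous.intervalIntegrable (by fun_prop) _ _)
  · intro k _
    exact (Continuous.intervalIntegrable (by fun_prop) _ _)

/-- Some integer vector pairs nontrivially with finitely many nonzero integer vectors. -/
lemma exists_generic {n d : ℕ} (h : Fin n → Fin d → ℤ) (hne : ∀ i, h i ≠ 0) :
    ∃ v : Fin d → ℤ, ∀ i, dotZ (h i) v ≠ 0 := by
  classical
  let pol : Fin n → Polynomial ℤ := fun i =>
    ∑ l : Fin d, Polynomial.C (h i l) * Polynomial.X ^ (l : ℕ)
  have hp : ∀ i, pol i ≠ 0 := by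
    intro i h0
    apply hne i
    funext l
    have h1 := congrArg (fun P : Polynomial ℤ => P.coeff (l : ℕ)) h0
    simp only [pol, Polynomial.finsetSum_coeff, Polynomial.coeff_C_mul_X_pow,
      Polynomial.coeff_zero] at h1
    rw [Finset.sum_eq_single l (fun m _ hm => if_neg (fun h2 => hm (Fin.ext h2.symm)))
      (by simp), if_pos rfl] at h1
    exact h1
  have hP : (∏ i, pol i) ≠ 0 := Finset.prod_ne_zero_iff.mpr fun i _ => hp i
  obtain ⟨s, hs⟩ := Infinite.exists_notMem_finset (∏ i, pol i).roots.toFinset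
  refine ⟨fun l => s ^ (l : ℕ), fun i h0 => hs ?_⟩
  rw [Multiset.mem_toFinset, Polynomial.mem_roots hP, Polynomial.IsRoot, Polynomial.eval_prod]
  refine Finset.prod_eq_zero (Finset.mem_univ i) ?_
  simp only [pol, Polynomial.eval_finsetSum, Polynomial.eval_mul, Polynomial.eval_C,
    Polynomial.eval_pow, Polynomial.eval_X]
  exact h0

/-- The torus polynomial with harmonics oriented along a common integer direction. -/
lemma exists_oriented (hA : TorusPolyStatement) {δ : ℝ} (hδ : 0 < δ) :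
    ∃ (d n : ℕ) (h : Fin n → Fin d → ℤ) (c : Fin n → ℂ) (v : Fin d → ℤ) (r : Fin n → ℕ),
      2 ≤ d ∧ 0 < n ∧ PairIndep h ∧ (∀ i, h i ≠ 0) ∧ (∀ i, c i ≠ 0) ∧
      2 * ∑ i, ‖c i‖ ^ 2 = 1 ∧
      (∀ x : Fin d → ℝ, |2 * (∑ i, c i * cis (dotR (h i) x)).re| ≤ 1 + δ) ∧
      (∀ i, 0 < r i) ∧ ∀ i, dotZ (h i) v = (r i : ℤ) := by
  classical
  obtain ⟨d, n, h, c, hd, hn, hind, hne, hc, hsum, hsup⟩ := hA δ hδ
  obtain ⟨v, hv⟩ := exists_generic h hne
  let σ : Fin n → ℤ := fun i => if 0 < dotZ (h i) v then 1 else -1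
  have hσ : ∀ i, σ i = 1 ∨ σ i = -1 := fun i => by
    by_cases h0 : 0 < dotZ (h i) v
    · left; simp [σ, h0]
    · right; simp [σ, h0]
  refine ⟨d, n, fun i l => σ i * h i l,
    fun i => if 0 < dotZ (h i) v then c i else (starRingEnd ℂ) (c i), v,
    fun i => (dotZ (h i) v).natAbs, hd, hn, ?_, ?_, ?_, ?_, ?_, fun i =>
      Int.natAbs_pos.mpr (hv i), ?_⟩
  · intro i j hij a b hab
    obtain ⟨ha, hb⟩ := hind i j hij (a * σ i) (b * σ j) fun l => by
      rw [← hab l]; ring
    rcases hσ i with h1 | h1 <;> rcases hσ j with h2 | h2 <;>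
      simp [h1, h2] at ha hb <;> exact ⟨ha, hb⟩
  · intro i h0
    apply hne i
    funext l
    have := congrFun h0 l
    rcases hσ i with h1 | h1 <;> simpa [h1] using this
  · intro i
    show (if 0 < dotZ (h i) v then c i else (starRingEnd ℂ) (c i)) ≠ 0
    split_ifs <;> simp [hc i]
  · rw [← hsum]; congr 1
    refine Finset.sum_congr rfl fun i _ => ?_
    dsimp only
    split_ifs <;> simp
  · intro x
    refine le_of_eq_of_le ?_ (hsup x)
    congr 2
    rw [Complex.re_sum, Complex.re_sum]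
    refine Finset.sum_congr rfl fun i _ => ?_
    by_cases h0 : 0 < dotZ (h i) v
    · simp [σ, h0, dotR]
    · have hd' : dotR (fun l => σ i * h i l) x = -dotR (h i) x := by
        simp [σ, h0, dotR]
      dsimp only
      rw [if_neg h0, hd', ← conj_cis, ← map_mul, Complex.conj_re]
  · intro i
    have e1 : dotZ (fun l => σ i * h i l) v = σ i * dotZ (h i) v := by
      simp only [dotZ, Finset.mul_sum, mul_assoc]
    rw [e1]
    by_cases h0 : 0 < dotZ (h i) v
    · simp only [σ, if_pos h0]; omega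
    · simp only [σ, if_neg h0]; omega

end Vale.Agent.P110
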