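import Vale.Agent.P110.OscVdc

/-!
# P110, module D: the profile with steep ends and stationary phase
-/

open MeasureTheory Set intervalIntegral

namespace Vale.Agent.P110.OscAux

/-- The antiderivative of the profile. -/
noncomputable def profG (e : ℝ) (k : ℕ) (s : ℝ) : ℝ :=
  (1 - e) * s ^ 2 / 2 + e / 2 * (s + (1 - s) ^ (k + 3) / (k + 3) + s ^ (k + 3) / (k + 3))

/-- The profile: close to the identity, steep at both ends. -/
noncomputable def profT (e : ℝ) (k : ℕ) (s : ℝ) : ℝ :=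
  (1 - e) * s + e / 2 * (1 - (1 - s) ^ (k + 2) + s ^ (k + 2))

/-- The derivative of the profile. -/
noncomputable def profT2 (e : ℝ) (k : ℕ) (s : ℝ) : ℝ :=
  (1 - e) + e / 2 * ((k + 2) * (1 - s) ^ (k + 1) + (k + 2) * s ^ (k + 1))

/-- The second derivative of the profile. -/
noncomputable def profT3 (e : ℝ) (k : ℕ) (s : ℝ) : ℝ :=
  e / 2 * ((k + 2) * (k + 1) * (s ^ k - (1 - s) ^ k))

lemma hasDerivAt_one_sub_pow (n : ℕ) (s : ℝ) :
    HasDerivAt (fun x : ℝ => (1 - x) ^ n) (-((n : ℝ) * (1 - s) ^ (n - 1))) s := by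
  simpa using ((hasDerivAt_id s).const_sub 1).fun_pow n

lemma hasDerivAt_profG (e : ℝ) (k : ℕ) (s : ℝ) :
    HasDerivAt (profG e k) (profT e k s) s := by
  have h1 : HasDerivAt (fun x => (1 - e) * x ^ 2 / 2) ((1 - e) * (2 * s) / 2) s := by
    simpa using ((hasDerivAt_pow 2 s).const_mul (1 - e)).div_const 2
  have h2 := ((((hasDerivAt_id s).fun_add
    ((hasDerivAt_one_sub_pow (k + 3) s).div_const ((k : ℝ) + 3))).fun_add
    ((hasDerivAt_pow (k + 3) s).div_const ((k : ℝ) + 3))).const_mul (e / 2))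
  refine (h1.fun_add h2).congr_deriv ?_
  simp only [profT, Nat.add_one_sub_one]
  push_cast
  field_simp
  ring

lemma hasDerivAt_profT (e : ℝ) (k : ℕ) (s : ℝ) :
    HasDerivAt (profT e k) (profT2 e k s) s := by
  have h1 := (hasDerivAt_id s).const_mul (1 - e)
  have h2 := (((hasDerivAt_one_sub_pow (k + 2) s).const_sub 1).fun_add
    (hasDerivAt_pow (k + 2) s)).const_mul (e / 2)
  refine (h1.fun_add h2).congr_deriv ?_
  simp only [profT2, Nat.add_one_sub_one]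
  push_cast
  ring

lemma hasDerivAt_profT2 (e : ℝ) (k : ℕ) (s : ℝ) :
    HasDerivAt (profT2 e k) (profT3 e k s) s := by
  have h := ((((hasDerivAt_one_sub_pow (k + 1) s).const_mul ((k : ℝ) + 2)).fun_add
    ((hasDerivAt_pow (k + 1) s).const_mul ((k : ℝ) + 2))).const_mul (e / 2)).const_add (1 - e)
  refine h.congr_deriv ?_
  simp only [profT3, Nat.add_one_sub_one]
  push_cast
  ring

lemma continuous_profT2 (e : ℝ) (k : ℕ) : Continuous (profT2 e k) :=
  continuous_iff_continuousAt.2 fun s => (hasDerivAt_profT2 e k s).continuousAt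

section

variable {e : ℝ} {k : ℕ}

lemma profT_zero : profT e k 0 = 0 := by simp [profT]

lemma profT_one : profT e k 1 = 1 := by simp [profT]; ring

lemma profT2_ge (he : 0 ≤ e) {s : ℝ} (hs : s ∈ Icc (0 : ℝ) 1) : 1 - e ≤ profT2 e k s := by
  obtain ⟨h0, h1⟩ := hs
  have : 0 ≤ 1 - s := by linarith
  exact le_add_of_nonneg_right (by positivity)

lemma abs_profT3_le (he : 0 ≤ e) (he2 : e ≤ 1) {s : ℝ} (hs : s ∈ Icc (0 : ℝ) 1) :
    |profT3 e k s| ≤ ((k : ℝ) + 2) ^ 2 := by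
  obtain ⟨h0, h1⟩ := hs
  have a1 : s ^ k ≤ 1 := pow_le_one₀ h0 h1
  have a2 : (1 - s) ^ k ≤ 1 := pow_le_one₀ (by linarith) (by linarith)
  have a3 : 0 ≤ s ^ k := by positivity
  have a4 : 0 ≤ (1 - s) ^ k := pow_nonneg (by linarith) k
  have hd : |s ^ k - (1 - s) ^ k| ≤ 1 := abs_sub_le_iff.2 ⟨by linarith, by linarith⟩
  rw [profT3, abs_mul, abs_mul, abs_of_nonneg (by positivity : 0 ≤ e / 2),
    abs_of_nonneg (by positivity : (0 : ℝ) ≤ ((k : ℝ) + 2) * (k + 1))]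
  calc e / 2 * (((k : ℝ) + 2) * (k + 1) * |s ^ k - (1 - s) ^ k|)
      ≤ 1 * (((k : ℝ) + 2) * (k + 2) * 1) := by gcongr <;> linarith
    _ = _ := by ring

lemma one_sub_pow_ge (k : ℕ) {s : ℝ} (_h0 : 0 ≤ s) (hs : s ≤ 1 / ((k : ℝ) + 2)) :
    1 / 3 ≤ (1 - s) ^ (k + 1) := by
  have hk : (0 : ℝ) < (k : ℝ) + 2 := by positivity
  have hk1 : (0 : ℝ) < (k : ℝ) + 1 := by positivity
  have hb : ((k : ℝ) + 1) / ((k : ℝ) + 2) ≤ 1 - s := by
    have : ((k : ℝ) + 1) / ((k : ℝ) + 2) = 1 - 1 / ((k : ℝ) + 2) := by field_simp; ring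
    linarith
  have hexp : (((k : ℝ) + 2) / ((k : ℝ) + 1)) ^ (k + 1) ≤ 3 := by
    have h1 : ((k : ℝ) + 2) / ((k : ℝ) + 1) ≤ Real.exp (1 / ((k : ℝ) + 1)) := by
      have := Real.add_one_le_exp (1 / ((k : ℝ) + 1))
      have e1 : ((k : ℝ) + 2) / ((k : ℝ) + 1) = 1 / ((k : ℝ) + 1) + 1 := by field_simp; ring
      linarith
    calc (((k : ℝ) + 2) / ((k : ℝ) + 1)) ^ (k + 1)
        ≤ Real.exp (1 / ((k : ℝ) + 1)) ^ (k + 1) := pow_le_pow_left₀ (by positivity) h1 _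
      _ = Real.exp 1 := by
          rw [← Real.exp_nat_mul]; congr 1; push_cast; field_simp
      _ ≤ 3 := by linarith [Real.exp_one_lt_d9]
  calc (1 : ℝ) / 3 ≤ 1 / (((k : ℝ) + 2) / ((k : ℝ) + 1)) ^ (k + 1) :=
        one_div_le_one_div_of_le (by positivity) hexp
    _ = (((k : ℝ) + 1) / ((k : ℝ) + 2)) ^ (k + 1) := by rw [← one_div_pow, one_div_div]
    _ ≤ (1 - s) ^ (k + 1) := pow_le_pow_left₀ (by positivity) hb _

lemma profT2_steep (he : 0 ≤ e) (he2 : e ≤ 1) {s : ℝ} (hs : s ∈ Icc (0 : ℝ) 1)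
    (hend : s ≤ 1 / ((k : ℝ) + 2) ∨ 1 - 1 / ((k : ℝ) + 2) ≤ s) :
    e * ((k : ℝ) + 2) / 6 ≤ profT2 e k s := by
  obtain ⟨h0, h1⟩ := hs
  have hsum : (1 : ℝ) / 3 ≤ (1 - s) ^ (k + 1) + s ^ (k + 1) := by
    rcases hend with h | h
    · linarith [one_sub_pow_ge k h0 h, pow_nonneg h0 (k + 1)]
    · have := one_sub_pow_ge k (s := 1 - s) (by linarith) (by linarith)
      rw [sub_sub_cancel] at this
      linarith [pow_nonneg (by linarith : (0 : ℝ) ≤ 1 - s) (k + 1)]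
  have := mul_le_mul_of_nonneg_left hsum (by positivity : 0 ≤ e * ((k : ℝ) + 2) / 2)
  rw [profT2]
  linarith

lemma profT_gap (he : 0 ≤ e) {x y : ℝ} (hx : 0 ≤ x) (hxy : x ≤ y) (hy : y ≤ 1) :
    (1 - e) * (y - x) ≤ profT e k y - profT e k x :=
  (convex_Icc (0 : ℝ) 1).mul_sub_le_image_sub_of_le_deriv
    (f := profT e k)
    (continuousOn_of_forall_continuousAt fun z _ => (hasDerivAt_profT e k z).continuousAt)
    (fun z _ => (hasDerivAt_profT e k z).differentiableAt.differentiableWithinAt) (C := 1 - e)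
    (fun z hz => by
      rw [(hasDerivAt_profT e k z).deriv]; exact profT2_ge he (interior_subset hz))
    x ⟨hx, hxy.trans hy⟩ y ⟨hx.trans hxy, hy⟩ hxy

lemma profT_mem (he : 0 ≤ e) (he2 : e ≤ 1) {s : ℝ} (hs : s ∈ Icc (0 : ℝ) 1) :
    profT e k s ∈ Icc (0 : ℝ) 1 := by
  have h1 := profT_gap (e := e) (k := k) he le_rfl hs.1 hs.2
  have h2 := profT_gap (e := e) (k := k) he hs.1 hs.2 le_rfl
  rw [profT_zero] at h1
  rw [profT_one] at h2
  constructor
  · nlinarith [hs.1, hs.2]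
  · nlinarith [hs.1, hs.2]

end

/-! ### Stationary phase -/

section Phase

variable {G T T2 : ℝ → ℝ}

/-- A piece without a stationary point. -/
lemma piece_deriv (hG : ∀ x, HasDerivAt G (T x) x) (hT : ∀ x, HasDerivAt T (T2 x) x)
    (hc : Continuous T2) {a b τ L Λ : ℝ} (hab : a ≤ b) (hΛ : 0 < Λ) (hL : 0 < L)
    (hconv : ∀ x ∈ Icc a b, 0 ≤ T2 x)
    (hbig : (∀ x ∈ Icc a b, L ≤ T x - τ) ∨ (∀ x ∈ Icc a b, T x - τ ≤ -L)) :
    ‖(Real.sqrt Λ : ℂ) * ∫ σ in a..b, cis (Λ * (G σ - τ * σ))‖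
      ≤ 1 / (Real.pi * (Real.sqrt Λ * L)) := by
  have h1 : ∀ x, HasDerivAt (fun y => Λ * (G y - τ * y)) (Λ * (T x - τ)) x := fun x => by
    simpa using ((hG x).fun_sub ((hasDerivAt_id x).const_mul τ)).const_mul Λ
  have h2 : ∀ x, HasDerivAt (fun y => Λ * (T y - τ)) (Λ * T2 x) x := fun x => by
    simpa using ((hT x).sub_const τ).const_mul Λ
  have h := norm_integral_le_of_deriv hab (mul_pos hΛ hL) h1 h2 (continuous_const.mul hc)
    (fun x hx => mul_nonneg hΛ.le (hconv x hx))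
    (hbig.imp (fun h x hx => mul_le_mul_of_nonneg_left (h x hx) hΛ.le)
      (fun h x hx => by rw [← mul_neg]; exact mul_le_mul_of_nonneg_left (h x hx) hΛ.le))
  have hs : 0 < Real.sqrt Λ := Real.sqrt_pos.2 hΛ
  rw [norm_mul, Complex.norm_real, Real.norm_eq_abs, abs_of_pos hs]
  refine (mul_le_mul_of_nonneg_left h hs.le).trans (le_of_eq ?_)
  have hsq : Λ = Real.sqrt Λ * Real.sqrt Λ := (Real.mul_self_sqrt hΛ.le).symm
  rw [show Real.pi * (Λ * L) = Real.sqrt Λ * (Real.pi * (Real.sqrt Λ * L)) by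
    nth_rewrite 1 [hsq]; ring]
  field_simp

/-- A steep piece. -/
lemma piece_steep (hG : ∀ x, HasDerivAt G (T x) x) (hT : ∀ x, HasDerivAt T (T2 x) x)
    (hc : Continuous T2) {a b τ K Λ : ℝ} (hab : a ≤ b) (hΛ : 0 < Λ) (hK : 0 < K)
    (hlow : ∀ x ∈ Icc a b, K ≤ T2 x) :
    ‖(Real.sqrt Λ : ℂ) * ∫ σ in a..b, cis (Λ * (G σ - τ * σ))‖ ≤ 4 / Real.sqrt K := by
  have h1 : ∀ x, HasDerivAt (fun y => Λ * (G y - τ * y)) (Λ * (T x - τ)) x := fun x => by
    simpa using ((hG x).fun_sub ((hasDerivAt_id x).const_mul τ)).const_mul Λ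
  have h2 : ∀ x, HasDerivAt (fun y => Λ * (T y - τ)) (Λ * T2 x) x := fun x => by
    simpa using ((hT x).sub_const τ).const_mul Λ
  have h := norm_integral_le_of_second_deriv hab (mul_pos hΛ hK) h1 h2 (continuous_const.mul hc)
    (fun x hx => mul_le_mul_of_nonneg_left (hlow x hx) hΛ.le)
  have hs : 0 < Real.sqrt Λ := Real.sqrt_pos.2 hΛ
  rw [norm_mul, Complex.norm_real, Real.norm_eq_abs, abs_of_pos hs]
  refine (mul_le_mul_of_nonneg_left h hs.le).trans (le_of_eq ?_)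
  rw [Real.sqrt_mul hΛ.le]
  field_simp

lemma oscJ_split (hG : ∀ x, HasDerivAt G (T x) x) (Λ τ c : ℝ) :
    oscJ G Λ τ = (Real.sqrt Λ : ℂ) * (∫ σ in (0 : ℝ)..c, cis (Λ * (G σ - τ * σ)))
      + (Real.sqrt Λ : ℂ) * ∫ σ in c..1, cis (Λ * (G σ - τ * σ)) := by
  have hc : Continuous fun σ => Λ * (G σ - τ * σ) :=
    continuous_const.mul
      ((continuous_iff_continuousAt.2 fun x => (hG x).continuousAt).sub (by fun_prop))
  rw [oscJ, ← mul_add, integral_add_adjacent_intervals (intervalIntegrable_cis_comp hc _ _)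
    (intervalIntegrable_cis_comp hc _ _)]

/-- Second order Taylor bound for a primitive. -/
lemma taylor_two (hG : ∀ x, HasDerivAt G (T x) x) (hT : ∀ x, HasDerivAt T (T2 x) x)
    {T3 : ℝ → ℝ} (hT2 : ∀ x, HasDerivAt T2 (T3 x) x) {L c h : ℝ} (hL : 0 ≤ L)
    (hb : ∀ x ∈ Icc (0 : ℝ) 1, |T3 x| ≤ L) (hc : c ∈ Icc (0 : ℝ) 1) (hch : c + h ∈ Icc (0 : ℝ) 1) :
    |G (c + h) - G c - T c * h - T2 c * h ^ 2 / 2| ≤ L * |h| ^ 3 := by
  have hsub : ∀ x ∈ uIcc c (c + h), x ∈ Icc (0 : ℝ) 1 ∧ |x - c| ≤ |h| := fun x hx =>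
    ⟨uIcc_subset_Icc hc hch hx, by
      have := abs_sub_left_of_mem_uIcc hx
      rwa [add_sub_cancel_left] at this⟩
  have s1 : ∀ x ∈ uIcc c (c + h), |T2 x - T2 c| ≤ L * |h| := by
    intro x hx
    have := (convex_uIcc c (c + h)).norm_image_sub_le_of_norm_hasDerivWithin_le
      (fun y _ => (hT2 y).hasDerivWithinAt) (fun y hy => hb y (hsub y hy).1) left_mem_uIcc hx
    simp only [Real.norm_eq_abs] at this
    exact this.trans (mul_le_mul_of_nonneg_left (hsub x hx).2 hL)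
  have s2 : ∀ x ∈ uIcc c (c + h), |T x - T c - T2 c * (x - c)| ≤ L * |h| * |h| := by
    intro x hx
    have hd : ∀ y, HasDerivAt (fun y => T y - T2 c * (y - c)) (T2 y - T2 c) y := fun y => by
      simpa using (hT y).fun_sub (((hasDerivAt_id y).sub_const c).const_mul (T2 c))
    have := (convex_uIcc c (c + h)).norm_image_sub_le_of_norm_hasDerivWithin_le
      (fun y _ => (hd y).hasDerivWithinAt) (fun y hy => s1 y hy) left_mem_uIcc hx
    simp only [Real.norm_eq_abs, sub_self, mul_zero, sub_zero] at this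
    rw [show T x - T c - T2 c * (x - c) = T x - T2 c * (x - c) - T c by ring]
    exact this.trans (mul_le_mul_of_nonneg_left (hsub x hx).2 (by positivity))
  have hd : ∀ y, HasDerivAt (fun y => G y - T c * (y - c) - T2 c * (y - c) ^ 2 / 2)
      (T y - T c - T2 c * (y - c)) y := fun y => by
    have h1 := ((hasDerivAt_id y).sub_const c)
    have := ((hG y).fun_sub (h1.const_mul (T c))).fun_sub
      (((h1.fun_pow 2).const_mul (T2 c)).div_const 2)
    refine this.congr_deriv ?_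
    simp; ring
  have := (convex_uIcc c (c + h)).norm_image_sub_le_of_norm_hasDerivWithin_le
    (fun y _ => (hd y).hasDerivWithinAt) (fun y hy => s2 y hy) left_mem_uIcc right_mem_uIcc
  simp only [Real.norm_eq_abs, add_sub_cancel_left, sub_self, mul_zero, sub_zero,
    zero_pow two_ne_zero, zero_div] at this
  rw [show G (c + h) - G c - T c * h - T2 c * h ^ 2 / 2
    = G (c + h) - T c * h - T2 c * h ^ 2 / 2 - G c by ring]
  refine this.trans (le_of_eq ?_)
  ring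

/-- The central piece is a truncated Fresnel integral. -/
lemma center_piece (hG : ∀ x, HasDerivAt G (T x) x) (hT : ∀ x, HasDerivAt T (T2 x) x)
    {T3 : ℝ → ℝ} (hT2 : ∀ x, HasDerivAt T2 (T3 x) x) {L c R Λ : ℝ} (hL : 0 ≤ L)
    (hb : ∀ x ∈ Icc (0 : ℝ) 1, |T3 x| ≤ L) (hR : 0 < R) (hΛ : 0 < Λ)
    (hlo : 0 ≤ c - R / Real.sqrt Λ) (hhi : c + R / Real.sqrt Λ ≤ 1) (hβ : 1 / 4 ≤ T2 c) :
    ‖(Real.sqrt Λ : ℂ) * (∫ σ in (c - R / Real.sqrt Λ)..(c + R / Real.sqrt Λ),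
        cis (Λ * (G σ - T c * σ)))
      - ((Real.sqrt (T2 c))⁻¹ : ℝ) * fresnel R * cis (Λ * (G c - T c * c))‖
      ≤ 13 * L * R ^ 4 / Real.sqrt Λ + 4 / R := by
  set s := Real.sqrt Λ with hsdef
  have hs : 0 < s := Real.sqrt_pos.2 hΛ
  set q := Real.sqrt (T2 c) with hqdef
  have hq : 1 / 2 ≤ q := (Real.le_sqrt' (by norm_num)).2 (by linarith)
  have hq2 : q ^ 2 = T2 c := Real.sq_sqrt (by linarith)
  have hr : 0 ≤ R / s := by positivity
  have hcG : Continuous G := continuous_iff_continuousAt.2 fun x => (hG x).continuousAt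
  let A : ℝ → ℂ := fun u => cis (Λ * (G (c + u / s) - T c * (c + u / s)))
  let B : ℝ → ℂ := fun u => cis (Λ * (G c - T c * c) + (q * u) ^ 2 / 2)
  have cA : Continuous A := continuous_cis_comp
    (continuous_const.mul ((hcG.comp (by fun_prop)).sub (by fun_prop)))
  have cB : Continuous B := continuous_cis_comp (by fun_prop)
  have h1 : (s : ℂ) * (∫ σ in (c - R / s)..(c + R / s), cis (Λ * (G σ - T c * σ)))
      = ∫ u in (-R)..R, A u := by
    have h := intervalIntegral.integral_comp_add_div (a := -R) (b := R)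
      (fun σ => cis (Λ * (G σ - T c * σ))) hs.ne' c
    rw [Complex.real_smul, neg_div, ← sub_eq_add_neg] at h
    exact h.symm
  have h2 : (∫ u in (-R)..R, B u)
      = cis (Λ * (G c - T c * c)) * ((q⁻¹ : ℝ) * fresnel (q * R)) := by
    simp only [B, cis_add]
    rw [intervalIntegral.integral_const_mul]
    congr 1
    rw [intervalIntegral.integral_comp_mul_left (fun v => cis (v ^ 2 / 2))
      (by linarith : q ≠ 0), fresnel, Complex.real_smul, mul_neg]
  have hAB : ‖(∫ u in (-R)..R, A u) - ∫ u in (-R)..R, B u‖ ≤ 13 * L * R ^ 4 / s := by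
    rw [← intervalIntegral.integral_sub (cA.intervalIntegrable _ _) (cB.intervalIntegrable _ _)]
    refine (intervalIntegral.norm_integral_le_of_norm_le_const
      (C := 2 * Real.pi * (L * R ^ 3 / s)) fun u hu => ?_).trans ?_
    · rw [uIoc_of_le (by linarith)] at hu
      have hu' : |u| ≤ R := abs_le.2 ⟨hu.1.le, hu.2⟩
      refine (norm_cis_sub_cis_le _ _).trans ?_
      gcongr
      have hus : |u / s| ≤ R / s := by rw [abs_div, abs_of_pos hs]; gcongr
      obtain ⟨hus1, hus2⟩ := abs_le.1 hus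
      have hmem : c + u / s ∈ Icc (0 : ℝ) 1 := ⟨by linarith, by linarith⟩
      have ht := taylor_two hG hT hT2 hL hb (show c ∈ Icc (0 : ℝ) 1 from
        ⟨by linarith, by linarith⟩) hmem
      have hΛs : Λ = s ^ 2 := (Real.sq_sqrt hΛ.le).symm
      have e : Λ * (G (c + u / s) - T c * (c + u / s)) -
          (Λ * (G c - T c * c) + (q * u) ^ 2 / 2)
          = Λ * (G (c + u / s) - G c - T c * (u / s) - T2 c * (u / s) ^ 2 / 2) := by
        rw [mul_pow, hq2, hΛs]; field_simp; ring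
      rw [e, abs_mul, abs_of_pos hΛ]
      calc Λ * |G (c + u / s) - G c - T c * (u / s) - T2 c * (u / s) ^ 2 / 2|
          ≤ Λ * (L * (R / s) ^ 3) := by
            refine mul_le_mul_of_nonneg_left (ht.trans ?_) hΛ.le
            gcongr
        _ = L * R ^ 3 / s := by rw [hΛs]; field_simp
    · rw [abs_of_nonneg (by linarith)]
      rw [show 2 * Real.pi * (L * R ^ 3 / s) * (R - -R) = 4 * Real.pi * (L * R ^ 4 / s) by ring,
        show 13 * L * R ^ 4 / s = 13 * (L * R ^ 4 / s) by ring]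
      refine mul_le_mul_of_nonneg_right ?_ (by positivity)
      linarith [Real.pi_lt_d2]
  have hfr : ‖cis (Λ * (G c - T c * c)) * ((q⁻¹ : ℝ) * fresnel (q * R))
      - ((q⁻¹ : ℝ) : ℂ) * fresnel R * cis (Λ * (G c - T c * c))‖ ≤ 4 / R := by
    rw [show cis (Λ * (G c - T c * c)) * (((q⁻¹ : ℝ) : ℂ) * fresnel (q * R))
      - ((q⁻¹ : ℝ) : ℂ) * fresnel R * cis (Λ * (G c - T c * c))
      = cis (Λ * (G c - T c * c)) * ((q⁻¹ : ℝ) * (fresnel (q * R) - fresnel R)) by ring,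
      norm_mul, norm_cis, one_mul, norm_mul, Complex.norm_real, Real.norm_eq_abs,
      abs_of_pos (by positivity : 0 < q⁻¹)]
    have hf := norm_fresnel_sub (X := q * R) (Y := R) (half_pos hR) (by nlinarith) (by linarith)
    have hq' : q⁻¹ ≤ 2 := by
      rw [inv_le_comm₀ (by linarith) two_pos, ← one_div]; exact hq
    calc q⁻¹ * ‖fresnel (q * R) - fresnel R‖ ≤ 2 * (2 / (Real.pi * (R / 2))) := by gcongr
      _ ≤ 2 * (2 / (2 * (R / 2))) := by gcongr; exact Real.two_le_pi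
      _ = 4 / R := by field_simp; ring
  rw [h1]
  calc _ ≤ ‖(∫ u in (-R)..R, A u) - ∫ u in (-R)..R, B u‖ + ‖(∫ u in (-R)..R, B u)
        - ((q⁻¹ : ℝ) : ℂ) * fresnel R * cis (Λ * (G c - T c * c))‖ :=
        norm_sub_le_norm_sub_add_norm_sub _ _ _
    _ ≤ _ := add_le_add hAB (h2 ▸ hfr)

end Phase

/-- Bookkeeping of the constants. -/
lemma constants_ok {η : ℝ} (hη : 0 < η) (hη2 : η < 1 / 2) {k : ℕ} {R S : ℝ}
    (hk : 384 ≤ η / 3 * η ^ 2 * ((k : ℝ) + 2)) (hR : R = 32 / η)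
    (hS1 : 3 * ((k : ℝ) + 2) * R ≤ S) :
    0 < R ∧ 64 ≤ R ∧ 0 < S ∧ 1 / R = η / 32 ∧ 0 < η / 3 * ((k : ℝ) + 2) / 6 ∧
      4 / Real.sqrt (η / 3 * ((k : ℝ) + 2) / 6) ≤ η / 2 ∧ 0 < R / S ∧
      3 * (R / S) ≤ 1 / ((k : ℝ) + 2) ∧ 1 / ((k : ℝ) + 2) ≤ 1 / 2 := by
  set e := η / 3 with hedef
  have he : 0 ≤ e := by positivity
  have he6 : e ≤ 1 / 6 := by rw [hedef]; linarith
  have hR64 : 64 ≤ R := by rw [hR, le_div_iff₀ hη]; linarith
  have hR0 : 0 < R := by linarith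
  have hk2 : (2 : ℝ) ≤ (k : ℝ) + 2 := by linarith [(k.cast_nonneg : (0 : ℝ) ≤ k)]
  have hS0 : 0 < S := lt_of_lt_of_le (by positivity) hS1
  set w := R / S with hwdef
  have hw0 : 0 < w := by positivity
  have hw3 : 3 * w ≤ 1 / ((k : ℝ) + 2) := by
    rw [hwdef, ← mul_div_assoc, div_le_div_iff₀ hS0 (by linarith)]; linarith
  have hwhalf : 1 / ((k : ℝ) + 2) ≤ 1 / 2 := one_div_le_one_div_of_le two_pos hk2
  set K := e * ((k : ℝ) + 2) / 6 with hKdef
  have hK : 64 / η ^ 2 ≤ K := by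
    rw [hKdef, div_le_iff₀ (by positivity)]; linarith
  have hK0 : 0 < K := lt_of_lt_of_le (by positivity) hK
  have hsteep : 4 / Real.sqrt K ≤ η / 2 := by
    have h8 : 8 / η ≤ Real.sqrt K := by
      rw [Real.le_sqrt' (by positivity), div_pow]; norm_num; exact hK
    calc 4 / Real.sqrt K ≤ 4 / (8 / η) := div_le_div_of_nonneg_left (by norm_num) (by positivity) h8
      _ = η / 2 := by field_simp; ring
  exact ⟨hR0, hR64, hS0, by rw [hR, one_div_div], hK0, hsteep, hw0, hw3, hwhalf⟩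

/-- Enough room for the first derivative bound. -/
lemma room_le {η R Λ L : ℝ} (hR0 : 0 < R) (hR32 : 1 / R = η / 32)
    (h : R / 2 ≤ Real.sqrt Λ * L) : 1 / (Real.pi * (Real.sqrt Λ * L)) ≤ η / 32 := by
  rw [← hR32]
  refine one_div_le_one_div_of_le hR0 ?_
  nlinarith [Real.two_le_pi]

/-- Near and left of the left end. -/
lemma end_left {η : ℝ} (hη : 0 < η) (hη2 : η < 1 / 2) {k : ℕ} {R S : ℝ}
    (hk : 384 ≤ η / 3 * η ^ 2 * ((k : ℝ) + 2)) (hR : R = 32 / η)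
    (hS1 : 3 * ((k : ℝ) + 2) * R ≤ S) {τ Λ : ℝ} (hΛ : S ^ 2 ≤ Λ)
    (hl : τ ≤ profT (η / 3) k (R / S)) : ‖oscJ (profG (η / 3) k) Λ τ‖ ≤ η := by
  obtain ⟨hR0, hR64, hS0, hR32, hK0, hsteep, hw0, hw3, hwhalf⟩ := constants_ok hη hη2 hk hR hS1
  set e := η / 3 with hedef
  have he : 0 ≤ e := by positivity
  have he6 : e ≤ 1 / 6 := by rw [hedef]; linarith
  have hG := hasDerivAt_profG e k
  have hT := hasDerivAt_profT e k
  have hc := continuous_profT2 e k
  have hconv : ∀ x ∈ Icc (0 : ℝ) 1, 0 ≤ profT2 e k x := fun x hx =>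
    le_trans (by linarith) (profT2_ge he hx)
  set w := R / S with hwdef
  have hΛ0 : 0 < Λ := lt_of_lt_of_le (by positivity) hΛ
  have hΛS : S ≤ Real.sqrt Λ := Real.le_sqrt_of_sq_le hΛ
  have hfar : R / 2 ≤ Real.sqrt Λ * ((1 - e) * w) := by
    have hSw : S * w = R := by rw [hwdef]; field_simp
    have := mul_le_mul_of_nonneg_right hΛS hw0.le
    nlinarith
  rw [oscJ_split hG Λ τ (2 * w)]
  refine (norm_add_le _ _).trans ?_
  have p1 := piece_steep hG hT hc (τ := τ) (by linarith : (0 : ℝ) ≤ 2 * w) hΛ0 hK0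
    (fun x hx => profT2_steep he (by linarith) ⟨hx.1, by linarith [hx.2]⟩
      (Or.inl (by linarith [hx.2])))
  have p2 := piece_deriv hG hT hc (τ := τ) (by linarith : 2 * w ≤ (1 : ℝ)) hΛ0
    (L := (1 - e) * w) (mul_pos (by linarith) hw0)
    (fun x hx => hconv x ⟨by linarith [hx.1], hx.2⟩)
    (Or.inl fun x hx => by
      have hg := profT_gap (k := k) he hw0.le (by linarith [hx.1] : w ≤ x) hx.2
      nlinarith [hx.1])
  linarith [room_le hR0 hR32 hfar]

/-- Near and right of the right end. -/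
lemma end_right {η : ℝ} (hη : 0 < η) (hη2 : η < 1 / 2) {k : ℕ} {R S : ℝ}
    (hk : 384 ≤ η / 3 * η ^ 2 * ((k : ℝ) + 2)) (hR : R = 32 / η)
    (hS1 : 3 * ((k : ℝ) + 2) * R ≤ S) {τ Λ : ℝ} (hΛ : S ^ 2 ≤ Λ)
    (hr : profT (η / 3) k (1 - R / S) ≤ τ) : ‖oscJ (profG (η / 3) k) Λ τ‖ ≤ η := by
  obtain ⟨hR0, hR64, hS0, hR32, hK0, hsteep, hw0, hw3, hwhalf⟩ := constants_ok hη hη2 hk hR hS1
  set e := η / 3 with hedef
  have he : 0 ≤ e := by positivity
  have he6 : e ≤ 1 / 6 := by rw [hedef]; linarith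
  have hG := hasDerivAt_profG e k
  have hT := hasDerivAt_profT e k
  have hc := continuous_profT2 e k
  have hconv : ∀ x ∈ Icc (0 : ℝ) 1, 0 ≤ profT2 e k x := fun x hx =>
    le_trans (by linarith) (profT2_ge he hx)
  set w := R / S with hwdef
  have hΛ0 : 0 < Λ := lt_of_lt_of_le (by positivity) hΛ
  have hΛS : S ≤ Real.sqrt Λ := Real.le_sqrt_of_sq_le hΛ
  have hfar : R / 2 ≤ Real.sqrt Λ * ((1 - e) * w) := by
    have hSw : S * w = R := by rw [hwdef]; field_simp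
    have := mul_le_mul_of_nonneg_right hΛS hw0.le
    nlinarith
  rw [oscJ_split hG Λ τ (1 - 2 * w)]
  refine (norm_add_le _ _).trans ?_
  have p1 := piece_steep hG hT hc (τ := τ) (by linarith : 1 - 2 * w ≤ (1 : ℝ)) hΛ0 hK0
    (fun x hx => profT2_steep he (by linarith) ⟨by linarith [hx.1], hx.2⟩
      (Or.inr (by linarith [hx.1])))
  have p2 := piece_deriv hG hT hc (τ := τ) (by linarith : (0 : ℝ) ≤ 1 - 2 * w) hΛ0
    (L := (1 - e) * w) (mul_pos (by linarith) hw0)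
    (fun x hx => hconv x ⟨hx.1, by linarith [hx.2]⟩)
    (Or.inr fun x hx => by
      have hg := profT_gap (k := k) he hx.1 (by linarith [hx.2] : x ≤ 1 - w) (by linarith)
      nlinarith [hx.2])
  linarith [room_le hR0 hR32 hfar]

/-- A stationary point away from the ends. -/
lemma middle {η : ℝ} (hη : 0 < η) (hη2 : η < 1 / 2) {k : ℕ} {R S : ℝ}
    (hk : 384 ≤ η / 3 * η ^ 2 * ((k : ℝ) + 2)) (hR : R = 32 / η)
    (hS1 : 3 * ((k : ℝ) + 2) * R ≤ S)
    (hS2 : 13 * ((k : ℝ) + 2) ^ 2 * R ^ 5 ≤ S) {c Λ : ℝ} (hΛ : S ^ 2 ≤ Λ)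
    (hcm : c ∈ Icc (R / S) (1 - R / S)) :
    ‖oscJ (profG (η / 3) k) Λ (profT (η / 3) k c) -
      (((Real.sqrt (profT2 (η / 3) k c))⁻¹ : ℝ) : ℂ) * fresnel R *
        cis (Λ * (profG (η / 3) k c - profT (η / 3) k c * c))‖ ≤ η := by
  obtain ⟨hR0, hR64, hS0, hR32, hK0, hsteep, hw0, hw3, hwhalf⟩ := constants_ok hη hη2 hk hR hS1
  set e := η / 3 with hedef
  have he : 0 ≤ e := by positivity
  have he6 : e ≤ 1 / 6 := by rw [hedef]; linarith
  have hG := hasDerivAt_profG e k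
  have hT := hasDerivAt_profT e k
  have hc := continuous_profT2 e k
  have hconv : ∀ x ∈ Icc (0 : ℝ) 1, 0 ≤ profT2 e k x := fun x hx =>
    le_trans (by linarith) (profT2_ge he hx)
  set w := R / S with hwdef
  have hΛ0 : 0 < Λ := lt_of_lt_of_le (by positivity) hΛ
  have hΛS : S ≤ Real.sqrt Λ := Real.le_sqrt_of_sq_le hΛ
  have hfar : R / 2 ≤ Real.sqrt Λ * ((1 - e) * w) := by
    have hSw : S * w = R := by rw [hwdef]; field_simp
    have := mul_le_mul_of_nonneg_right hΛS hw0.le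
    nlinarith
  have hT2 := hasDerivAt_profT2 e k
  have hc01 : c ∈ Icc (0 : ℝ) 1 := ⟨by linarith [hcm.1], by linarith [hcm.2]⟩
  have hβ := profT2_ge (k := k) he hc01
  set τ := profT e k c with hτdef
  have hs0 : 0 < Real.sqrt Λ := lt_of_lt_of_le hS0 hΛS
  set r := R / Real.sqrt Λ with hrdef
  have hr0 : 0 < r := by positivity
  have hrw : r ≤ w := div_le_div_of_nonneg_left hR0.le hS0 hΛS
  have hcen := center_piece hG hT hT2 (L := ((k : ℝ) + 2) ^ 2) (c := c) (Λ := Λ) (by positivity)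
    (fun x hx => abs_profT3_le he (by linarith) hx) hR0 hΛ0
    (by linarith [hcm.1]) (by linarith [hcm.2]) (by linarith)
  have hL : R / 2 ≤ Real.sqrt Λ * ((1 - e) * r) := by
    have : Real.sqrt Λ * r = R := by rw [hrdef]; field_simp
    nlinarith
  have p1 := piece_deriv hG hT hc (τ := τ) (by linarith [hcm.1] : (0 : ℝ) ≤ c - r) hΛ0
    (L := (1 - e) * r) (mul_pos (by linarith) hr0)
    (fun x hx => hconv x ⟨hx.1, by linarith [hx.2, hcm.2]⟩)
    (Or.inr fun x hx => by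
      have hg := profT_gap (k := k) he hx.1 (by linarith [hx.2] : x ≤ c) hc01.2
      rw [hτdef]; nlinarith [hx.2])
  have p2 := piece_deriv hG hT hc (τ := τ) (by linarith [hcm.2] : c + r ≤ (1 : ℝ)) hΛ0
    (L := (1 - e) * r) (mul_pos (by linarith) hr0)
    (fun x hx => hconv x ⟨by linarith [hx.1, hcm.1], hx.2⟩)
    (Or.inl fun x hx => by
      have hg := profT_gap (k := k) he hc01.1 (by linarith [hx.1] : c ≤ x) hx.2
      rw [hτdef]; nlinarith [hx.1])
  have herr : 13 * ((k : ℝ) + 2) ^ 2 * R ^ 4 / Real.sqrt Λ ≤ 1 / R := by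
    rw [div_le_div_iff₀ hs0 hR0]
    calc 13 * ((k : ℝ) + 2) ^ 2 * R ^ 4 * R = 13 * ((k : ℝ) + 2) ^ 2 * R ^ 5 := by ring
      _ ≤ 1 * Real.sqrt Λ := by linarith
  have hcont : Continuous fun σ => Λ * (profG e k σ - τ * σ) :=
    continuous_const.mul
      ((continuous_iff_continuousAt.2 fun x => (hG x).continuousAt).sub (by fun_prop))
  rw [oscJ_split hG Λ τ (c - r), ← integral_add_adjacent_intervals
    (intervalIntegrable_cis_comp hcont (c - r) (c + r))
    (intervalIntegrable_cis_comp hcont (c + r) 1), mul_add]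
  rw [show ∀ x y z w : ℂ, x + (y + z) - w = x + (y - w) + z from fun x y z w => by ring]
  refine norm_add₃_le.trans ?_
  linarith [room_le (L := (1 - e) * r) hR0 hR32 hL, hcen, hR32, show (4 : ℝ) / R = 4 * (1 / R) by ring]

/-- The estimate for a fixed `τ`. -/
lemma exists_amp {η : ℝ} (hη : 0 < η) (hη2 : η < 1 / 2) {k : ℕ} {R S : ℝ} {ζ : ℂ}
    (hk : 384 ≤ η / 3 * η ^ 2 * ((k : ℝ) + 2)) (hR : R = 32 / η)
    (hS1 : 3 * ((k : ℝ) + 2) * R ≤ S) (hS2 : 13 * ((k : ℝ) + 2) ^ 2 * R ^ 5 ≤ S)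
    (hζ : (‖fresnel R‖ : ℂ) * ζ = fresnel R) (τ : ℝ) :
    ∃ a ψ : ℝ, |a| ≤ 1 + η ∧ (∀ Λ, S ^ 2 ≤ Λ →
      ‖oscJ (profG (η / 3) k) Λ τ - (a : ℂ) * ζ * cis (Λ * ψ)‖ ≤ η) ∧
      (τ ∉ Ico (0 : ℝ) 1 → a = 0) := by
  obtain ⟨hR0, hR64, hS0, hR32, hK0, hsteep, hw0, hw3, hwhalf⟩ := constants_ok hη hη2 hk hR hS1
  have he : 0 ≤ η / 3 := by positivity
  have hT := hasDerivAt_profT (η / 3) k
  rcases le_or_gt τ (profT (η / 3) k (R / S)) with hl | hl
  · exact ⟨0, 0, by simp; linarith, fun Λ hΛ => by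
      simpa using end_left hη hη2 hk hR hS1 hΛ hl, fun _ => rfl⟩
  rcases le_or_gt (profT (η / 3) k (1 - R / S)) τ with hr | hr
  · exact ⟨0, 0, by simp; linarith, fun Λ hΛ => by
      simpa using end_right hη hη2 hk hR hS1 hΛ hr, fun _ => rfl⟩
  obtain ⟨c, hcm, hcT⟩ := intermediate_value_Icc (by linarith : R / S ≤ 1 - R / S)
    (continuousOn_of_forall_continuousAt fun z _ => (hT z).continuousAt)
    (show τ ∈ Icc (profT (η / 3) k (R / S)) (profT (η / 3) k (1 - R / S)) from ⟨hl.le, hr.le⟩)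
  have hc01 : c ∈ Icc (0 : ℝ) 1 := ⟨by linarith [hcm.1], by linarith [hcm.2]⟩
  have hβ := profT2_ge (k := k) he hc01
  set q := Real.sqrt (profT2 (η / 3) k c) with hqdef
  have hq : 1 - η / 3 ≤ q := (Real.le_sqrt' (by linarith)).2 (by nlinarith)
  have hq0 : 0 < q := by linarith
  refine ⟨q⁻¹ * ‖fresnel R‖, profG (η / 3) k c - profT (η / 3) k c * c, ?_, fun Λ hΛ => ?_,
    fun hout => ?_⟩
  · rw [abs_of_nonneg (by positivity)]
    have hf := norm_fresnel_le (by linarith : (1 : ℝ) ≤ R)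
    rw [show 8 / R = 8 * (1 / R) by ring, hR32] at hf
    rw [inv_mul_le_iff₀ hq0]
    refine hf.trans ?_
    calc 1 + 8 * (η / 32) ≤ (1 - η / 3) * (1 + η) := by nlinarith
      _ ≤ q * (1 + η) := mul_le_mul_of_nonneg_right hq (by linarith)
  · have h := middle hη hη2 hk hR hS1 hS2 hΛ hcm
    rw [← hcT]
    rw [show ((q⁻¹ * ‖fresnel R‖ : ℝ) : ℂ) * ζ = ((q⁻¹ : ℝ) : ℂ) * fresnel R by
      push_cast; rw [mul_assoc, hζ]]
    exact h
  · exfalso
    refine hout ⟨?_, ?_⟩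
    · linarith [(profT_mem (k := k) he (by linarith)
        (⟨hw0.le, by linarith⟩ : R / S ∈ Icc (0 : ℝ) 1)).1]
    · linarith [(profT_mem (k := k) he (by linarith)
        (⟨by linarith, by linarith⟩ : 1 - R / S ∈ Icc (0 : ℝ) 1)).2]

end Vale.Agent.P110.OscAux

namespace Vale.Agent.P110

open OscAux

/-- Module D: the oscillatory integrals. -/
theorem osc : OscStatement := by
  intro η hη hη2
  obtain ⟨k, hk⟩ := exists_nat_ge (384 / (η / 3 * η ^ 2))
  have hden : 0 < η / 3 * η ^ 2 := by positivity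
  have hk' : 384 ≤ η / 3 * η ^ 2 * ((k : ℝ) + 2) := by
    rw [div_le_iff₀ hden] at hk
    nlinarith
  set R : ℝ := 32 / η with hR
  set S : ℝ := 3 * ((k : ℝ) + 2) * R + 13 * ((k : ℝ) + 2) ^ 2 * R ^ 5 with hS
  have hR0 : 0 < R := by positivity
  have hS1 : 3 * ((k : ℝ) + 2) * R ≤ S := le_add_of_nonneg_right (by positivity)
  have hS2 : 13 * ((k : ℝ) + 2) ^ 2 * R ^ 5 ≤ S := le_add_of_nonneg_left (by positivity)
  have hS0 : 0 < S := by positivity
  obtain ⟨ζ, hζ1, hζ⟩ : ∃ ζ : ℂ, ‖ζ‖ = 1 ∧ (‖fresnel R‖ : ℂ) * ζ = fresnel R := by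
    by_cases h : fresnel R = 0
    · exact ⟨1, norm_one, by simp [h]⟩
    · have hne : (‖fresnel R‖ : ℂ) ≠ 0 := Complex.ofReal_ne_zero.2 (norm_ne_zero_iff.2 h)
      refine ⟨fresnel R / (‖fresnel R‖ : ℂ), ?_, by field_simp⟩
      rw [norm_div, Complex.norm_real, norm_norm, div_self (norm_ne_zero_iff.2 h)]
  have he : 0 ≤ η / 3 := by positivity
  have hex := fun τ => exists_amp hη hη2 hk' hR hS1 hS2 hζ τ
  choose a ψ ha hbd hzero using hex
  refine ⟨profG (η / 3) k, profT (η / 3) k, profT2 (η / 3) k, ζ, S ^ 2, a, ψ,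
    hasDerivAt_profG _ _, hasDerivAt_profT _ _, continuous_profT2 _ _, profT_zero, profT_one,
    fun σ hσ => profT_mem he (by linarith) hσ, hζ1, by positivity, ha,
    fun Λ hΛ τ _ => hbd τ Λ hΛ, fun Λ hΛ τ hτ => ?_, fun Λ hΛ τ hτ => ?_, fun Λ hΛ τ hτ => ?_⟩
  · simpa [hzero τ hτ] using hbd τ Λ hΛ
  · have h := piece_deriv (hasDerivAt_profG (η / 3) k) (hasDerivAt_profT _ _)
      (continuous_profT2 _ _) (τ := τ) zero_le_one hΛ (L := -τ) (by linarith)
      (fun x hx => le_trans (by linarith) (profT2_ge he hx))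
      (Or.inl fun x hx => by linarith [(profT_mem (k := k) he (by linarith) hx).1])
    refine le_trans h (one_div_le_one_div_of_le ?_ ?_)
    · exact mul_pos (Real.sqrt_pos.2 hΛ) (by linarith)
    · exact le_mul_of_one_le_left (mul_nonneg (Real.sqrt_nonneg _) (by linarith))
        (by linarith [Real.two_le_pi])
  · have h := piece_deriv (hasDerivAt_profG (η / 3) k) (hasDerivAt_profT _ _)
      (continuous_profT2 _ _) (τ := τ) zero_le_one hΛ (L := τ - 1) (by linarith)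
      (fun x hx => le_trans (by linarith) (profT2_ge he hx))
      (Or.inr fun x hx => by linarith [(profT_mem (k := k) he (by linarith) hx).2])
    refine le_trans h (one_div_le_one_div_of_le ?_ ?_)
    · exact mul_pos (Real.sqrt_pos.2 hΛ) (by linarith)
    · exact le_mul_of_one_le_left (mul_nonneg (Real.sqrt_nonneg _) (by linarith))
        (by linarith [Real.two_le_pi])

end Vale.Agent.P110
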