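import Vale.Agent.P110.Defs

/-!
# P110, module D: van der Corput type bounds and the truncated Fresnel integral
-/

open MeasureTheory Set Filter Topology intervalIntegral

namespace Vale.Agent.P110.OscAux

lemma norm_cis (x : ℝ) : ‖cis x‖ = 1 := by
  rw [cis, Complex.norm_exp_ofReal_mul_I]

lemma cis_add (x y : ℝ) : cis (x + y) = cis x * cis y := by
  rw [cis, cis, cis, ← Complex.exp_add]
  congr 1
  push_cast
  ring

lemma cis_zero : cis 0 = 1 := by simp [cis]

lemma norm_cis_sub_cis_le (x y : ℝ) : ‖cis x - cis y‖ ≤ 2 * Real.pi * |x - y| := by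
  have h : cis x - cis y = cis y * (cis (x - y) - 1) := by
    rw [mul_sub, ← cis_add, mul_one]; congr 2; ring
  rw [h, norm_mul, norm_cis, one_mul]
  have h1 := Real.norm_exp_I_mul_ofReal_sub_one_le (x := 2 * Real.pi * (x - y))
  rw [mul_comm Complex.I] at h1
  refine h1.trans ?_
  rw [Real.norm_eq_abs, abs_mul, abs_of_pos (by positivity : (0 : ℝ) < 2 * Real.pi)]

lemma hasDerivAt_cis_comp {φ : ℝ → ℝ} {φ' x : ℝ} (h : HasDerivAt φ φ' x) :
    HasDerivAt (fun y => cis (φ y)) (cis (φ x) * ((2 * Real.pi * φ' : ℝ) * Complex.I)) x := by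
  unfold cis
  exact (((h.const_mul (2 * Real.pi)).ofReal_comp).mul_const Complex.I).cexp

lemma continuous_cis_comp {φ : ℝ → ℝ} (h : Continuous φ) : Continuous fun y => cis (φ y) := by
  unfold cis; fun_prop

lemma intervalIntegrable_cis_comp {φ : ℝ → ℝ} (h : Continuous φ) (a b : ℝ) :
    IntervalIntegrable (fun y => cis (φ y)) volume a b :=
  (continuous_cis_comp h).intervalIntegrable a b

lemma norm_integral_cis_le {φ : ℝ → ℝ} {a b : ℝ} (hab : a ≤ b) :
    ‖∫ y in a..b, cis (φ y)‖ ≤ b - a := by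
  have := intervalIntegral.norm_integral_le_of_norm_le_const (a := a) (b := b) (C := 1)
    (f := fun y => cis (φ y)) (fun y _ => (norm_cis _).le)
  rwa [one_mul, abs_of_nonneg (sub_nonneg.2 hab)] at this

section FirstDerivative

variable {φ φ1 φ2 : ℝ → ℝ}

/-- First derivative bound, for a convex phase. -/
lemma norm_integral_le_of_deriv {a b L : ℝ} (hab : a ≤ b) (hL : 0 < L)
    (h1 : ∀ x, HasDerivAt φ (φ1 x) x) (h2 : ∀ x, HasDerivAt φ1 (φ2 x) x) (hc : Continuous φ2)
    (hconv : ∀ x ∈ Icc a b, 0 ≤ φ2 x)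
    (hbig : (∀ x ∈ Icc a b, L ≤ φ1 x) ∨ (∀ x ∈ Icc a b, φ1 x ≤ -L)) :
    ‖∫ x in a..b, cis (φ x)‖ ≤ 1 / (Real.pi * L) := by
  have hne : ∀ x ∈ Icc a b, φ1 x ≠ 0 := by
    intro x hx
    rcases hbig with h | h <;> [exact (by linarith [h x hx] : (0 : ℝ) < φ1 x).ne';
      exact (by linarith [h x hx] : φ1 x < 0).ne]
  have cφ : Continuous φ := continuous_iff_continuousAt.2 fun x => (h1 x).continuousAt
  have cφ1 : Continuous φ1 := continuous_iff_continuousAt.2 fun x => (h2 x).continuousAt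
  let F : ℝ → ℂ := fun x => cis (φ x) * (((1 / (2 * Real.pi * φ1 x) : ℝ) : ℂ) * (-Complex.I))
  let E : ℝ → ℂ := fun x =>
    cis (φ x) * (((-φ2 x / (2 * Real.pi * φ1 x ^ 2) : ℝ) : ℂ) * (-Complex.I))
  have hF : ∀ x ∈ uIcc a b, HasDerivAt F (cis (φ x) + E x) x := by
    intro x hx
    rw [uIcc_of_le hab] at hx
    have hd : HasDerivAt (fun y => 1 / (2 * Real.pi * φ1 y))
        (-φ2 x / (2 * Real.pi * φ1 x ^ 2)) x := by
      have h := ((h2 x).const_mul (2 * Real.pi)).inv
        (mul_ne_zero (mul_ne_zero two_ne_zero Real.pi_ne_zero) (hne x hx))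
      simp only [← one_div] at h
      refine h.congr_deriv ?_
      have := hne x hx
      field_simp
    have h := (hasDerivAt_cis_comp (h1 x)).mul ((hd.ofReal_comp).mul_const (-Complex.I))
    refine h.congr_deriv ?_
    have h0 := hne x hx
    have hI : ((2 * Real.pi * φ1 x : ℝ) : ℂ) * Complex.I *
        (((1 / (2 * Real.pi * φ1 x) : ℝ) : ℂ) * (-Complex.I)) = 1 := by
      have : (2 * Real.pi * φ1 x) * (1 / (2 * Real.pi * φ1 x)) = 1 := by
        rw [mul_one_div_cancel (mul_ne_zero (mul_ne_zero two_ne_zero Real.pi_ne_zero) h0)]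
      have hc : ((2 * Real.pi * φ1 x : ℝ) : ℂ) * ((1 / (2 * Real.pi * φ1 x) : ℝ) : ℂ) = 1 := by
        rw [← Complex.ofReal_mul, this, Complex.ofReal_one]
      linear_combination hc - ((2 * Real.pi * φ1 x : ℝ) : ℂ) *
        ((1 / (2 * Real.pi * φ1 x) : ℝ) : ℂ) * Complex.I_mul_I
    simp only [mul_assoc] at hI ⊢
    rw [hI, mul_one]
    simp only [E, mul_assoc]
  have cq : ContinuousOn (fun x => -φ2 x / (2 * Real.pi * φ1 x ^ 2)) (Icc a b) :=
    hc.neg.continuousOn.div (continuous_const.mul (cφ1.pow 2)).continuousOn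
      fun x hx => mul_ne_zero (mul_ne_zero two_ne_zero Real.pi_ne_zero) (pow_ne_zero _ (hne x hx))
  have cE : ContinuousOn E (Icc a b) :=
    (continuous_cis_comp cφ).continuousOn.mul
      ((Complex.continuous_ofReal.comp_continuousOn cq).mul continuousOn_const)
  have iE : IntervalIntegrable E volume a b := cE.intervalIntegrable_of_Icc hab
  have iC := intervalIntegrable_cis_comp cφ a b
  have hFTC := integral_eq_sub_of_hasDerivAt hF (iC.add iE)
  rw [intervalIntegral.integral_add iC iE] at hFTC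
  have hq : (∫ x in a..b, φ2 x / (2 * Real.pi * φ1 x ^ 2))
      = 1 / (2 * Real.pi * φ1 a) - 1 / (2 * Real.pi * φ1 b) := by
    have hd : ∀ x ∈ uIcc a b, HasDerivAt (fun y => -(1 / (2 * Real.pi * φ1 y)))
        (φ2 x / (2 * Real.pi * φ1 x ^ 2)) x := by
      intro x hx
      rw [uIcc_of_le hab] at hx
      have h := (((h2 x).const_mul (2 * Real.pi)).inv
        (mul_ne_zero (mul_ne_zero two_ne_zero Real.pi_ne_zero) (hne x hx))).neg
      simp only [← one_div] at h
      refine h.congr_deriv ?_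
      have := hne x hx
      field_simp
    rw [integral_eq_sub_of_hasDerivAt hd]
    · ring
    · refine ContinuousOn.intervalIntegrable_of_Icc hab ?_
      exact hc.continuousOn.div (continuous_const.mul (cφ1.pow 2)).continuousOn
        fun x hx => mul_ne_zero (mul_ne_zero two_ne_zero Real.pi_ne_zero) (pow_ne_zero _ (hne x hx))
  have hEb : ‖∫ x in a..b, E x‖ ≤ 1 / (2 * Real.pi * φ1 a) - 1 / (2 * Real.pi * φ1 b) := by
    rw [← hq]
    refine norm_integral_le_of_norm_le hab (Eventually.of_forall fun x hx => ?_) ?_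
    · have hx' : x ∈ Icc a b := Ioc_subset_Icc_self hx
      have hden : 0 ≤ 2 * Real.pi * φ1 x ^ 2 := by positivity
      simp only [E, norm_mul, norm_cis, norm_neg, Complex.norm_I, one_mul, mul_one,
        Complex.norm_real, Real.norm_eq_abs, abs_div, abs_neg, abs_of_nonneg (hconv x hx'),
        abs_of_nonneg hden, le_refl]
    · refine ContinuousOn.intervalIntegrable_of_Icc hab ?_
      exact hc.continuousOn.div (continuous_const.mul (cφ1.pow 2)).continuousOn
        fun x hx => mul_ne_zero (mul_ne_zero two_ne_zero Real.pi_ne_zero) (pow_ne_zero _ (hne x hx))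
  have hFn : ∀ x, ‖F x‖ = 1 / (2 * Real.pi) * (1 / |φ1 x|) := by
    intro x
    simp [F, norm_cis, abs_of_pos Real.pi_pos]
    ring
  have heq : (∫ x in a..b, cis (φ x)) = F b - F a - ∫ x in a..b, E x := by
    rw [← hFTC]; ring
  rw [heq]
  refine ((norm_sub_le _ _).trans (add_le_add (norm_sub_le _ _) hEb)).trans ?_
  rw [hFn, hFn]
  have hp : (0 : ℝ) < 1 / (2 * Real.pi) := by positivity
  rcases hbig with h | h
  · have ha := h a (left_mem_Icc.2 hab)
    have hb := h b (right_mem_Icc.2 hab)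
    rw [abs_of_pos (hL.trans_le ha), abs_of_pos (hL.trans_le hb)]
    have e1 : 1 / φ1 a ≤ 1 / L := one_div_le_one_div_of_le hL ha
    have e2 : 1 / (Real.pi * L) = 1 / (2 * Real.pi) * (2 * (1 / L)) := by field_simp
    rw [e2, show 1 / (2 * Real.pi * φ1 a) = 1 / (2 * Real.pi) * (1 / φ1 a) from
      one_div_mul_one_div _ _ |>.symm, show 1 / (2 * Real.pi * φ1 b) =
      1 / (2 * Real.pi) * (1 / φ1 b) from one_div_mul_one_div _ _ |>.symm]
    nlinarith
  · have ha := h a (left_mem_Icc.2 hab)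
    have hb := h b (right_mem_Icc.2 hab)
    rw [abs_of_neg (by linarith : φ1 a < 0), abs_of_neg (by linarith : φ1 b < 0)]
    have e1 : 1 / (-φ1 b) ≤ 1 / L := one_div_le_one_div_of_le hL (by linarith)
    have e2 : 1 / (Real.pi * L) = 1 / (2 * Real.pi) * (2 * (1 / L)) := by field_simp
    have e3 : ∀ y : ℝ, 1 / (2 * Real.pi * y) = -(1 / (2 * Real.pi) * (1 / (-y))) := by
      intro y; rw [one_div_mul_one_div, mul_neg, one_div_neg_eq_neg_one_div, neg_neg]
    rw [e2, e3 (φ1 a), e3 (φ1 b)]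
    nlinarith

lemma deriv_ge_of_second {a b c L : ℝ} (h2 : ∀ x, HasDerivAt φ1 (φ2 x) x)
    (hlow : ∀ x ∈ Icc a b, L ≤ φ2 x) (hac : a ≤ c) (hcb : c ≤ b) :
    φ1 a + L * (c - a) ≤ φ1 c := by
  have := (convex_Icc a b).mul_sub_le_image_sub_of_le_deriv
    (f := φ1) (continuousOn_of_forall_continuousAt fun x _ => (h2 x).continuousAt)
    (fun x _ => (h2 x).differentiableAt.differentiableWithinAt) (C := L)
    (fun x hx => by rw [(h2 x).deriv]; exact hlow x (interior_subset hx))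
    a (left_mem_Icc.2 (hac.trans hcb)) c ⟨hac, hcb⟩ hac
  linarith

/-- Second derivative bound. -/
lemma norm_integral_le_of_second_deriv {a b L : ℝ} (hab : a ≤ b) (hL : 0 < L)
    (h1 : ∀ x, HasDerivAt φ (φ1 x) x) (h2 : ∀ x, HasDerivAt φ1 (φ2 x) x) (hc : Continuous φ2)
    (hlow : ∀ x ∈ Icc a b, L ≤ φ2 x) :
    ‖∫ x in a..b, cis (φ x)‖ ≤ 4 / Real.sqrt L := by
  have cφ : Continuous φ := continuous_iff_continuousAt.2 fun x => (h1 x).continuousAt
  have cφ1 : Continuous φ1 := continuous_iff_continuousAt.2 fun x => (h2 x).continuousAt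
  set h := 1 / Real.sqrt L with hh
  have hs : 0 < Real.sqrt L := Real.sqrt_pos.2 hL
  have hh0 : 0 < h := by positivity
  have hLh : L * h = Real.sqrt L := by
    rw [hh, mul_one_div, div_eq_iff hs.ne', Real.mul_self_sqrt hL.le]
  have hpi : 1 / (Real.pi * Real.sqrt L) ≤ h :=
    one_div_le_one_div_of_le hs
      (le_mul_of_one_le_left hs.le (by linarith [Real.two_le_pi]))
  have hright : ∀ c ∈ Icc a b, 0 ≤ φ1 c → ‖∫ x in c..b, cis (φ x)‖ ≤ 2 * h := by
    intro c hcm hc0
    by_cases hsmall : b ≤ c + h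
    · exact (norm_integral_cis_le hcm.2).trans (by linarith)
    rw [not_le] at hsmall
    rw [← integral_add_adjacent_intervals (intervalIntegrable_cis_comp cφ c (c + h))
      (intervalIntegrable_cis_comp cφ (c + h) b)]
    refine (norm_add_le _ _).trans ?_
    have e1 := norm_integral_cis_le (φ := φ) (le_add_of_nonneg_right hh0.le : c ≤ c + h)
    have e2 : ‖∫ x in (c + h)..b, cis (φ x)‖ ≤ 1 / (Real.pi * Real.sqrt L) := by
      refine norm_integral_le_of_deriv hsmall.le hs h1 h2 hc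
        (fun x hx => (hL.trans_le (hlow x ⟨by linarith [hx.1, hcm.1], hx.2⟩)).le)
        (Or.inl fun x hx => ?_)
      have := deriv_ge_of_second h2 (a := c) (b := b) (c := x)
        (fun y hy => hlow y ⟨hcm.1.trans hy.1, hy.2⟩) (by linarith [hx.1]) hx.2
      nlinarith [mul_le_mul_of_nonneg_left (show h ≤ x - c by linarith [hx.1]) hL.le]
    linarith
  have hleft : ∀ c ∈ Icc a b, φ1 c ≤ 0 → ‖∫ x in a..c, cis (φ x)‖ ≤ 2 * h := by
    intro c hcm hc0
    by_cases hsmall : c - h ≤ a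
    · exact (norm_integral_cis_le hcm.1).trans (by linarith)
    rw [not_le] at hsmall
    rw [← integral_add_adjacent_intervals (intervalIntegrable_cis_comp cφ a (c - h))
      (intervalIntegrable_cis_comp cφ (c - h) c)]
    refine (norm_add_le _ _).trans ?_
    have e1 := norm_integral_cis_le (φ := φ) (sub_le_self c hh0.le : c - h ≤ c)
    have e2 : ‖∫ x in a..(c - h), cis (φ x)‖ ≤ 1 / (Real.pi * Real.sqrt L) := by
      refine norm_integral_le_of_deriv hsmall.le hs h1 h2 hc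
        (fun x hx => (hL.trans_le (hlow x ⟨hx.1, by linarith [hx.2, hcm.2]⟩)).le)
        (Or.inr fun x hx => ?_)
      have := deriv_ge_of_second h2 (a := x) (b := b) (c := c)
        (fun y hy => hlow y ⟨hx.1.trans hy.1, hy.2⟩) (by linarith [hx.2]) hcm.2
      nlinarith [mul_le_mul_of_nonneg_left (show h ≤ c - x by linarith [hx.2]) hL.le]
    linarith
  have h4 : 4 / Real.sqrt L = 4 * h := by rw [hh, mul_one_div]
  rw [h4]
  by_cases ha : 0 ≤ φ1 a
  · linarith [hright a (left_mem_Icc.2 hab) ha]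
  by_cases hb : φ1 b ≤ 0
  · linarith [hleft b (right_mem_Icc.2 hab) hb]
  obtain ⟨c, hcm, hc0⟩ := intermediate_value_Icc hab cφ1.continuousOn
    (show (0 : ℝ) ∈ Icc (φ1 a) (φ1 b) from ⟨(not_le.1 ha).le, (not_le.1 hb).le⟩)
  rw [← integral_add_adjacent_intervals (intervalIntegrable_cis_comp cφ a c)
    (intervalIntegrable_cis_comp cφ c b)]
  refine (norm_add_le _ _).trans ?_
  linarith [hleft c hcm hc0.le, hright c hcm hc0.ge]

end FirstDerivative

/-! ### Gaussian tails and the truncated Fresnel integral -/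

lemma norm_cexp_neg_sq_le {b : ℂ} (hb : 0 ≤ b.re) (u : ℝ) :
    ‖Complex.exp (-b * (u : ℂ) ^ 2)‖ ≤ 1 := by
  rw [Complex.norm_exp, Real.exp_le_one_iff]
  have : (-b * (u : ℂ) ^ 2).re = -(b.re * u ^ 2) := by
    rw [← Complex.ofReal_pow, Complex.re_mul_ofReal, Complex.neg_re, neg_mul]
  rw [this, neg_nonpos]
  positivity

/-- Uniform tail bound for complex Gaussians. -/
lemma norm_gauss_tail {b : ℂ} (hb : 0 ≤ b.re) (hb' : Real.pi ≤ ‖b‖) {R X : ℝ} (hR : 0 < R)
    (hX : R ≤ X) : ‖∫ u in R..X, Complex.exp (-b * (u : ℂ) ^ 2)‖ ≤ 1 / (Real.pi * R) := by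
  have hb0 : b ≠ 0 := by
    intro h; rw [h, norm_zero] at hb'; linarith [Real.pi_pos]
  have hpos : ∀ u ∈ uIcc R X, 0 < u := by
    intro u hu; rw [uIcc_of_le hX] at hu; linarith [hu.1]
  let f : ℝ → ℂ := fun u => Complex.exp (-b * (u : ℂ) ^ 2)
  let F : ℝ → ℂ := fun u => -(((u⁻¹ : ℝ) : ℂ)) / (2 * b) * f u
  let E : ℝ → ℂ := fun u => (((u ^ 2)⁻¹ : ℝ) : ℂ) / (2 * b) * f u
  have cf : Continuous f := by fun_prop
  have cE : ContinuousOn E (uIcc R X) := by
    refine (ContinuousOn.div_const ?_ _).mul cf.continuousOn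
    exact Complex.continuous_ofReal.comp_continuousOn
      ((continuous_pow 2).continuousOn.inv₀ fun u hu => pow_ne_zero _ (hpos u hu).ne')
  have hF : ∀ u ∈ uIcc R X, HasDerivAt F (f u + E u) u := by
    intro u hu
    have hu0 : u ≠ 0 := (hpos u hu).ne'
    have h1 : HasDerivAt (fun y : ℝ => -(((y⁻¹ : ℝ) : ℂ)) / (2 * b))
        (-(((-(u ^ 2)⁻¹ : ℝ) : ℂ)) / (2 * b)) u :=
      ((hasDerivAt_inv hu0).ofReal_comp.fun_neg).div_const (2 * b)
    have h2 : HasDerivAt f (f u * (-b * (2 * (u : ℂ)))) u := by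
      have : HasDerivAt (fun y : ℝ => -b * (y : ℂ) ^ 2) (-b * (2 * (u : ℂ))) u := by
        have := ((hasDerivAt_pow 2 u).ofReal_comp).const_mul (-b)
        simpa using this
      exact this.cexp
    refine (h1.mul h2).congr_deriv ?_
    have huc : (u : ℂ) ≠ 0 := Complex.ofReal_ne_zero.2 hu0
    simp only [E, Complex.ofReal_neg, Complex.ofReal_inv, Complex.ofReal_pow]
    field_simp
    ring
  have hint : IntervalIntegrable (fun u => f u + E u) volume R X :=
    (cf.intervalIntegrable _ _).add cE.intervalIntegrable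
  have hFTC := integral_eq_sub_of_hasDerivAt hF hint
  rw [intervalIntegral.integral_add (cf.intervalIntegrable _ _) cE.intervalIntegrable] at hFTC
  have heq : (∫ u in R..X, f u) = F X - F R - ∫ u in R..X, E u := by rw [← hFTC]; ring
  have hnb : ‖2 * b‖ = 2 * ‖b‖ := by simp
  have hb1 : 0 < 2 * ‖b‖ := by linarith [Real.pi_pos]
  have hFb : ∀ u, 0 < u → ‖F u‖ ≤ u⁻¹ / (2 * ‖b‖) := by
    intro u hu
    calc ‖F u‖ = u⁻¹ / (2 * ‖b‖) * ‖f u‖ := by
          simp [F, abs_of_pos hu]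
      _ ≤ u⁻¹ / (2 * ‖b‖) * 1 :=
          mul_le_mul_of_nonneg_left (norm_cexp_neg_sq_le hb u) (by positivity)
      _ = _ := mul_one _
  have hq : (∫ u in R..X, (u ^ 2)⁻¹ / (2 * ‖b‖)) = (R⁻¹ - X⁻¹) / (2 * ‖b‖) := by
    rw [intervalIntegral.integral_div]
    congr 1
    have hc2 : ContinuousOn (fun u : ℝ => (u ^ 2)⁻¹) (uIcc R X) :=
      (continuous_pow 2).continuousOn.inv₀ fun u hu => pow_ne_zero _ (hpos u hu).ne'
    rw [integral_eq_sub_of_hasDerivAt (f := fun u => -u⁻¹)
      (fun u hu => by simpa using (hasDerivAt_inv (hpos u hu).ne').fun_neg)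
      hc2.intervalIntegrable]
    ring
  have hEb : ‖∫ u in R..X, E u‖ ≤ (R⁻¹ - X⁻¹) / (2 * ‖b‖) := by
    rw [← hq]
    refine norm_integral_le_of_norm_le hX (Eventually.of_forall fun u hu => ?_) ?_
    · calc ‖E u‖ = (u ^ 2)⁻¹ / (2 * ‖b‖) * ‖f u‖ := by simp [E]
        _ ≤ (u ^ 2)⁻¹ / (2 * ‖b‖) * 1 :=
            mul_le_mul_of_nonneg_left (norm_cexp_neg_sq_le hb u) (by positivity)
        _ = _ := mul_one _
    · exact (((continuous_pow 2).continuousOn.inv₀ fun u hu =>
        pow_ne_zero _ (hpos u hu).ne').div_const _).intervalIntegrable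
  show ‖∫ u in R..X, f u‖ ≤ _
  rw [heq]
  refine ((norm_sub_le _ _).trans (add_le_add ((norm_sub_le _ _).trans
    (add_le_add (hFb X (hR.trans_le hX)) (hFb R hR))) hEb)).trans ?_
  calc X⁻¹ / (2 * ‖b‖) + R⁻¹ / (2 * ‖b‖) + (R⁻¹ - X⁻¹) / (2 * ‖b‖) = R⁻¹ / ‖b‖ := by
        field_simp; ring
    _ ≤ R⁻¹ / Real.pi := div_le_div_of_nonneg_left (by positivity) Real.pi_pos hb'
    _ = 1 / (Real.pi * R) := by field_simp

/-- The truncated Fresnel integral `∫_{-X}^{X} cis (u²/2)`. -/
noncomputable def fresnel (X : ℝ) : ℂ := ∫ u in (-X)..X, cis (u ^ 2 / 2)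

lemma cis_half_sq (u : ℝ) :
    cis (u ^ 2 / 2) = Complex.exp (-(-(Real.pi : ℂ) * Complex.I) * (u : ℂ) ^ 2) := by
  rw [cis]; congr 1; push_cast; ring

lemma integral_symm_even {f : ℝ → ℂ} (hc : Continuous f) (he : ∀ u, f (-u) = f u) (X : ℝ) :
    (∫ u in (-X)..X, f u) = 2 * ∫ u in (0 : ℝ)..X, f u := by
  rw [← integral_add_adjacent_intervals (hc.intervalIntegrable (-X) 0) (hc.intervalIntegrable 0 X)]
  have : (∫ u in (-X)..0, f u) = ∫ u in (0 : ℝ)..X, f u := by
    conv_rhs => rw [← intervalIntegral.integral_congr (f := fun u => f (-u)) fun u _ => he u]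
    rw [intervalIntegral.integral_comp_neg, neg_zero]
  rw [this]; ring

lemma norm_fresnel_sub {X Y R : ℝ} (hR : 0 < R) (hX : R ≤ X) (hY : R ≤ Y) :
    ‖fresnel X - fresnel Y‖ ≤ 2 / (Real.pi * R) := by
  wlog h : Y ≤ X generalizing X Y
  · rw [norm_sub_rev]; exact this hY hX (not_le.1 h).le
  have hc : Continuous fun u : ℝ => cis (u ^ 2 / 2) := continuous_cis_comp (by fun_prop)
  have he : ∀ u : ℝ, cis ((-u) ^ 2 / 2) = cis (u ^ 2 / 2) := fun u => by rw [neg_sq]
  have hsplit : (∫ u in (0 : ℝ)..X, cis (u ^ 2 / 2)) =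
      (∫ u in (0 : ℝ)..Y, cis (u ^ 2 / 2)) + ∫ u in Y..X, cis (u ^ 2 / 2) :=
    (integral_add_adjacent_intervals (hc.intervalIntegrable _ _) (hc.intervalIntegrable _ _)).symm
  have htail := norm_gauss_tail (b := -(Real.pi : ℂ) * Complex.I) (by simp)
    (by simp [le_abs_self]) (hR.trans_le hY) h
  simp only [← cis_half_sq] at htail
  rw [fresnel, fresnel, integral_symm_even hc he, integral_symm_even hc he, hsplit]
  rw [mul_add, add_sub_cancel_left, norm_mul, Complex.norm_two]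
  calc 2 * ‖∫ u in Y..X, cis (u ^ 2 / 2)‖ ≤ 2 * (1 / (Real.pi * Y)) := by linarith
    _ ≤ 2 * (1 / (Real.pi * R)) := by gcongr
    _ = _ := by ring

/-- The truncated Fresnel integral has modulus at most `1 + O(1/R)`. -/
lemma norm_fresnel_le {R : ℝ} (hR : 1 ≤ R) : ‖fresnel R‖ ≤ 1 + 8 / R := by
  have hR0 : 0 < R := by linarith
  set δ : ℝ := 1 / (2 * R ^ 4) with hδ
  have hδ0 : 0 < δ := by positivity
  set b : ℂ := (Real.pi : ℂ) * ((δ : ℂ) - Complex.I) with hbdef
  have hbre : b.re = Real.pi * δ := by simp [hbdef]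
  have hbpos : 0 < b.re := by rw [hbre]; positivity
  have hbnorm : Real.pi ≤ ‖b‖ := by
    have h1 : |b.im| ≤ ‖b‖ := Complex.abs_im_le_norm b
    have h2 : b.im = -Real.pi := by simp [hbdef]
    rw [h2, abs_neg, abs_of_pos Real.pi_pos] at h1
    exact h1
  let f : ℝ → ℂ := fun u => Complex.exp (-b * (u : ℂ) ^ 2)
  have hfull : ‖∫ u : ℝ, f u‖ ≤ 1 := by
    rw [integral_gaussian_complex hbpos]
    have hb0 : b ≠ 0 := by intro h; rw [h] at hbpos; simp at hbpos
    rw [show (1 / 2 : ℂ) = ((1 / 2 : ℝ) : ℂ) by push_cast; ring,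
      Complex.norm_cpow_real, norm_div, Complex.norm_real, Real.norm_eq_abs,
      abs_of_pos Real.pi_pos]
    exact Real.rpow_le_one (by positivity) ((div_le_one (by linarith [Real.pi_pos])).2 hbnorm)
      (by norm_num)
  have hcf : Continuous f := by fun_prop
  have hint : Integrable f := integrable_cexp_neg_mul_sq hbpos
  have hZ : ‖∫ u in (-R)..R, f u‖ ≤ 1 + 2 / R := by
    have hlim : Tendsto (fun X : ℝ => ∫ u in (-X)..X, f u) atTop (𝓝 (∫ u : ℝ, f u)) :=
      intervalIntegral_tendsto_integral hint tendsto_neg_atTop_atBot tendsto_id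
    have he : ∀ u : ℝ, f (-u) = f u := fun u => by simp [f]
    have hdiff : ∀ᶠ X : ℝ in atTop,
        ‖(∫ u in (-X)..X, f u) - ∫ u in (-R)..R, f u‖ ≤ 2 / R := by
      filter_upwards [eventually_ge_atTop R] with X hX
      rw [integral_symm_even hcf he, integral_symm_even hcf he,
        ← integral_add_adjacent_intervals (hcf.intervalIntegrable 0 R)
          (hcf.intervalIntegrable R X), mul_add, add_sub_cancel_left, norm_mul, Complex.norm_two]
      have := norm_gauss_tail hbpos.le hbnorm hR0 hX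
      calc 2 * ‖∫ u in R..X, f u‖ ≤ 2 * (1 / (Real.pi * R)) := by linarith
        _ ≤ 2 * (1 / R) := by
            gcongr
            exact le_mul_of_one_le_left hR0.le (by linarith [Real.two_le_pi])
        _ = 2 / R := by ring
    have hle := le_of_tendsto ((hlim.sub_const _).norm) hdiff
    calc ‖∫ u in (-R)..R, f u‖
        ≤ ‖∫ u : ℝ, f u‖ + ‖(∫ u : ℝ, f u) - ∫ u in (-R)..R, f u‖ := by
          rw [norm_sub_rev]; exact norm_le_insert' _ _
      _ ≤ 1 + 2 / R := add_le_add hfull hle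
  have hd : ‖fresnel R - ∫ u in (-R)..R, f u‖ ≤ 6 / R := by
    have hc : Continuous fun u : ℝ => cis (u ^ 2 / 2) := continuous_cis_comp (by fun_prop)
    rw [fresnel, ← intervalIntegral.integral_sub (hc.intervalIntegrable _ _)
      (hcf.intervalIntegrable _ _)]
    refine (intervalIntegral.norm_integral_le_of_norm_le_const (C := Real.pi / (2 * R ^ 2)) fun u hu => ?_).trans ?_
    · rw [uIoc_of_le (by linarith)] at hu
      have hu2 : u ^ 2 ≤ R ^ 2 := by nlinarith [hu.1, hu.2]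
      have hfu : f u = cis (u ^ 2 / 2) * ((Real.exp (-(Real.pi * δ * u ^ 2)) : ℝ) : ℂ) := by
        simp only [f, cis, hbdef, Complex.ofReal_exp, ← Complex.exp_add]
        congr 1
        push_cast
        ring
      rw [hfu, ← mul_one_sub, norm_mul, norm_cis, one_mul, ← Complex.ofReal_one,
        ← Complex.ofReal_sub, Complex.norm_real, Real.norm_eq_abs]
      have hx : 0 ≤ Real.pi * δ * u ^ 2 := by positivity
      have h1 := Real.add_one_le_exp (-(Real.pi * δ * u ^ 2))
      have h2 : Real.exp (-(Real.pi * δ * u ^ 2)) ≤ 1 := Real.exp_le_one_iff.2 (by linarith)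
      rw [abs_of_nonneg (by linarith)]
      have : Real.pi * δ * u ^ 2 ≤ Real.pi * δ * R ^ 2 := by gcongr
      have e : Real.pi * δ * R ^ 2 = Real.pi / (2 * R ^ 2) := by rw [hδ]; field_simp
      linarith
    · rw [abs_of_nonneg (by linarith)]
      rw [show Real.pi / (2 * R ^ 2) * (R - -R) = Real.pi / R by field_simp; ring]
      gcongr
      linarith [Real.pi_le_four]
  calc ‖fresnel R‖ ≤ ‖∫ u in (-R)..R, f u‖ + ‖fresnel R - ∫ u in (-R)..R, f u‖ :=
        norm_le_insert' _ _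
    _ ≤ (1 + 2 / R) + 6 / R := add_le_add hZ hd
    _ = 1 + 8 / R := by ring

end Vale.Agent.P110.OscAux
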