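import Vale.Agent.P110.PackingCount

/-!
# P110, module C: packing by a random colouring of half blocks.
-/

namespace Vale.Agent.P110

open scoped BigOperators
open Finset

/-- A window. -/
abbrev Wnd (d P M : ℕ) : Type := (Fin d → Fin P) × Fin M

/-- The block containing the interval of a window. -/
def blk {d : ℕ} (P M : ℕ) (h : Fin d → ℤ) (r : ℕ) (w : Wnd d P M) : ℕ :=
  (wpos P M h r w / (M : ℤ)).toNat

/-- The half block representing a block and its mirror image. -/
def halfIdx (H Y : ℕ) : ℕ := if Y < H then Y else 2 * H - Y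

/-- The colour of the block `Y` is `(i,+)`. -/
def IsPlus {n H : ℕ} (ω : Fin H → Fin n × Bool) (i : Fin n) (Y : ℕ) : Prop :=
  ∃ hY : halfIdx H Y < H, ω ⟨halfIdx H Y, hY⟩ = (i, decide (Y < H))

theorem blk_spec {d P M : ℕ} (hP : 0 < P) (hM : 0 < M) (h : Fin d → ℤ) (r : ℕ) (w : Wnd d P M) :
    wpos P M h r w = (M : ℤ) * (blk P M h r w : ℤ) + ((r * (w.2 : ℕ) % M : ℕ) : ℤ)
      ∧ blk P M h r w < P
      ∧ ((blk P M h r w : ℕ) : ZMod P)
          = gridForm (modVec P h) w.1 + ((r * (w.2 : ℕ) / M : ℕ) : ZMod P) := by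
  set a := dotZ h (fun l => ((w.1 l : ℕ) : ℤ)) with ha
  set q := r * (w.2 : ℕ) / M with hq
  set s := r * (w.2 : ℕ) % M with hs
  have hsM : s < M := Nat.mod_lt _ hM
  have hsplit : (r : ℤ) * ((w.2 : ℕ) : ℤ) = (M : ℤ) * q + s := by
    exact_mod_cast (Nat.div_add_mod (r * (w.2 : ℕ)) M).symm
  have hM' : (0 : ℤ) < M := by exact_mod_cast hM
  have hP' : (0 : ℤ) < P := by exact_mod_cast hP
  set x := (a + q) % (P : ℤ) with hx
  have hx0 : 0 ≤ x := Int.emod_nonneg _ hP'.ne'
  have hxP : x < P := Int.emod_lt_of_pos _ hP'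
  have hw : wpos P M h r w = (M : ℤ) * x + s := by
    unfold wpos
    rw [← ha, hsplit]
    have e : (M : ℤ) * a + ((M : ℤ) * q + s)
        = ((M : ℤ) * x + s) + (P : ℤ) * M * ((a + q) / (P : ℤ)) := by
      have := Int.mul_ediv_add_emod (a + q) (P : ℤ)
      rw [← hx] at this
      linear_combination -(M : ℤ) * this
    rw [e, Int.add_mul_emod_self_left, Int.emod_eq_of_lt (by positivity)]
    have : (M : ℤ) * (x + 1) ≤ (M : ℤ) * P := mul_le_mul_of_nonneg_left (by omega) hM'.le
    have : (s : ℤ) < M := by exact_mod_cast hsM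
    linarith
  have hb : blk P M h r w = x.toNat := by
    unfold blk
    rw [hw, Int.add_comm, Int.add_mul_ediv_left _ _ hM'.ne',
      Int.ediv_eq_zero_of_lt (by positivity) (by exact_mod_cast hsM), zero_add]
  refine ⟨?_, ?_, ?_⟩
  · rw [hb, Int.toNat_of_nonneg hx0]; exact hw
  · rw [hb]; omega
  · rw [hb, show ((x.toNat : ℕ) : ZMod P) = ((x.toNat : ℤ) : ZMod P) by push_cast; rfl,
      Int.toNat_of_nonneg hx0, hx, ZMod.intCast_mod, Int.cast_add, Int.cast_natCast]
    congr 1
    simp [ha, dotZ, gridForm, modVec]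

theorem rem_mul {r M t : ℕ} (hr : r ∣ M) : r * t % M = r * (t % (M / r)) := by
  conv_lhs => rw [← Nat.mul_div_cancel' hr]
  exact Nat.mul_mod_mul_left _ _ _

theorem rem_add_le {r M t : ℕ} (hM : 0 < M) (hr0 : 0 < r) (hr : r ∣ M) :
    r * t % M + r ≤ M := by
  rw [rem_mul hr]
  have h1 : t % (M / r) < M / r :=
    Nat.mod_lt _ (Nat.div_pos (Nat.le_of_dvd hM hr) hr0)
  calc r * (t % (M / r)) + r = r * (t % (M / r) + 1) := by ring
    _ ≤ r * (M / r) := Nat.mul_le_mul_left _ h1
    _ = M := Nat.mul_div_cancel' hr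

/-- Intervals are disjoint and not mirror images of each other, for admissible windows. -/
theorem plus_disjoint {d n P M H : ℕ} (hPH : P = 2 * H + 1) (hM : 0 < M)
    (h : Fin n → Fin d → ℤ) (r : Fin n → ℕ) (hr0 : ∀ i, 0 < r i) (hr : ∀ i, r i ∣ M)
    (ω : Fin H → Fin n × Bool) (i j : Fin n) (w w' : Wnd d P M)
    (hw : IsPlus ω i (blk P M (h i) (r i) w)) (hw' : IsPlus ω j (blk P M (h j) (r j) w'))
    {s s' : ℕ} (hs : s < r i) (hs' : s' < r j) :
    (wpos P M (h i) (r i) w + (s : ℤ) = wpos P M (h j) (r j) w' + (s' : ℤ) →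
      i = j ∧ wpos P M (h i) (r i) w = wpos P M (h j) (r j) w' ∧ s = s') ∧
    wpos P M (h i) (r i) w + (s : ℤ) + (wpos P M (h j) (r j) w' + (s' : ℤ)) + 1
      ≠ (P : ℤ) * (M : ℤ) := by
  have hP : 0 < P := by omega
  obtain ⟨e, hYP, -⟩ := blk_spec hP hM (h i) (r i) w
  obtain ⟨e', hYP', -⟩ := blk_spec hP hM (h j) (r j) w'
  set Y := blk P M (h i) (r i) w
  set Y' := blk P M (h j) (r j) w'
  have hq := rem_add_le (t := (w.2 : ℕ)) hM (hr0 i) (hr i)
  have hq' := rem_add_le (t := (w'.2 : ℕ)) hM (hr0 j) (hr j)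
  set q := r i * (w.2 : ℕ) % M with hqdef
  set q' := r j * (w'.2 : ℕ) % M with hqdef'
  obtain ⟨hf, hc⟩ := hw
  obtain ⟨hf', hc'⟩ := hw'
  constructor
  · intro heq
    rw [e, e'] at heq
    have hN : M * Y + (q + s) = M * Y' + (q' + s') := by
      have h2 : (M : ℤ) * Y + ((q : ℤ) + s) = (M : ℤ) * Y' + ((q' : ℤ) + s') := by linarith
      exact_mod_cast h2
    have h1 := congrArg (· / M) hN
    simp only [Nat.mul_add_div hM, Nat.div_eq_of_lt (show q + s < M by omega),
      Nat.div_eq_of_lt (show q' + s' < M by omega), add_zero] at h1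
    have hh : halfIdx H Y = halfIdx H Y' := by rw [h1]
    have hcol : ω ⟨halfIdx H Y, hf⟩ = ω ⟨halfIdx H Y', hf'⟩ := congrArg ω (Fin.ext hh)
    rw [hc, hc', Prod.mk.injEq] at hcol
    obtain rfl := hcol.1
    rw [h1] at hN
    have hqs : q + s = q' + s' := Nat.add_left_cancel hN
    obtain ⟨m, hm⟩ : r i ∣ q := by rw [hqdef, rem_mul (hr i)]; exact dvd_mul_right _ _
    obtain ⟨m', hm'⟩ : r i ∣ q' := by rw [hqdef', rem_mul (hr i)]; exact dvd_mul_right _ _
    have h3 := congrArg (· % r i) hqs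
    simp only [hm, hm', Nat.mul_add_mod, Nat.mod_eq_of_lt hs, Nat.mod_eq_of_lt hs'] at h3
    refine ⟨rfl, ?_, h3⟩
    rw [e, e', h1, show q = q' by omega]
  · intro heq
    rw [e, e'] at heq
    have hN : M * (Y + Y') + (q + s + (q' + s') + 1) = M * P := by
      have h2 : (M : ℤ) * ((Y : ℤ) + Y') + ((q : ℤ) + s + ((q' : ℤ) + s') + 1) = (M : ℤ) * P := by
        linarith
      exact_mod_cast h2
    have hsum : Y + Y' + 1 = P := by
      rcases lt_trichotomy (Y + Y' + 1) P with hl | hl | hl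
      · have h4 : M * (Y + Y' + 2) ≤ M * P := Nat.mul_le_mul_left _ hl
        rw [Nat.mul_add] at h4
        omega
      · exact hl
      · have h4 : M * P ≤ M * (Y + Y') := Nat.mul_le_mul_left _ (by omega)
        omega
    have hY' : Y' = 2 * H - Y := by omega
    unfold halfIdx at hf hf'
    have hh : halfIdx H Y = halfIdx H Y' := by
      unfold halfIdx; split_ifs at hf hf' ⊢ <;> omega
    have hcol : ω ⟨halfIdx H Y, by unfold halfIdx; exact hf⟩
        = ω ⟨halfIdx H Y', by unfold halfIdx; exact hf'⟩ := congrArg ω (Fin.ext hh)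
    rw [hc, hc', Prod.mk.injEq, decide_eq_decide] at hcol
    have := hcol.2
    split_ifs at hf hf' with a b b <;> simp only [a, b, iff_true, iff_false, true_iff, false_iff,
      not_true, not_false_eq_true] at this <;> omega

theorem card_window_le {d P M : ℕ} (S : Finset (Wnd d P M)) (T : Finset (Fin M)) {K : ℕ}
    (hT : ∀ w ∈ S, w.2 ∈ T) (Q : Fin M → (Fin d → Fin P) → Prop) [∀ t, DecidablePred (Q t)]
    (hS : ∀ w ∈ S, Q w.2 w.1) (hK : ∀ t ∈ T, (univ.filter (Q t)).card ≤ K) :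
    S.card ≤ T.card * K := by
  classical
  rw [card_eq_sum_card_fiberwise (f := fun w => w.2) (t := T) (fun w hw => hT w hw)]
  refine (sum_le_sum fun t ht => le_trans ?_ (hK t ht)).trans (by simp)
  refine card_le_card_of_injOn (fun w => w.1) ?_ ?_
  · intro w hw
    simp only [coe_filter, Set.mem_ofPred_eq] at hw ⊢
    exact ⟨mem_univ _, hw.2 ▸ hS w hw.1⟩
  · intro w hw w' hw' he
    simp only [coe_filter, Set.mem_ofPred_eq] at hw hw'
    exact Prod.ext he (hw.2.trans hw'.2.symm)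

theorem card_rem_le {r M : ℕ} (hr0 : 0 < r) (q : ℕ) :
    (univ.filter fun t : Fin M => r * (t : ℕ) % M = q).card ≤ r := by
  refine le_trans (card_le_card_of_injOn (fun t => r * (t : ℕ) / M) (t := range r) ?_ ?_) (by simp)
  · intro t _
    simp only [coe_range, Set.mem_Iio]
    exact Nat.div_lt_of_lt_mul (by rw [mul_comm M r]; exact Nat.mul_lt_mul_of_pos_left t.2 hr0)
  · intro t ht u hu he
    simp only [coe_filter, mem_univ, true_and, Set.mem_ofPred_eq] at ht hu
    simp only at he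
    have h1 := Nat.div_add_mod (r * (t : ℕ)) M
    have h2 := Nat.div_add_mod (r * (u : ℕ)) M
    rw [ht, he] at h1
    rw [hu] at h2
    exact Fin.ext (Nat.eq_of_mul_eq_mul_left hr0 (h1.symm.trans h2))

theorem halfIdx_eq_cases {H Y Y' : ℕ} (hY : Y < 2 * H + 1) (hY' : Y' < 2 * H + 1)
    (h : halfIdx H Y = halfIdx H Y') : Y = Y' ∨ Y + Y' = 2 * H := by
  unfold halfIdx at h
  split_ifs at h <;> omega

theorem halfIdx_le {H Y : ℕ} : halfIdx H Y ≤ H := by
  unfold halfIdx
  split_ifs <;> omega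

theorem middle_of_halfIdx {H Y : ℕ} (hY : Y < 2 * H + 1) (h : halfIdx H Y = H) : Y = H := by
  unfold halfIdx at h
  split_ifs at h <;> omega

theorem exists_minor {n d : ℕ} {h : Fin n → Fin d → ℤ} (hind : PairIndep h)
    (hne : ∀ i, h i ≠ 0) {i j : Fin n} (hij : i ≠ j) :
    ∃ l m, h i l * h j m - h i m * h j l ≠ 0 := by
  by_contra hc
  push Not at hc
  obtain ⟨l, hl⟩ := Function.ne_iff.1 (hne i)
  have := (hind i j hij (h j l) (-(h i l)) fun m => by linear_combination -(hc l m)).2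
  exact hl (by simpa using this)

theorem intCast_ne_zero_of_lt {P : ℕ} {k : ℤ} (hk : k ≠ 0) (hP : k.natAbs < P) :
    (k : ZMod P) ≠ 0 := by
  rw [Ne, ZMod.intCast_zmod_eq_zero_iff_dvd, ← Int.natAbs_dvd_natAbs]
  intro hd
  rw [Int.natAbs_natCast] at hd
  exact absurd (Nat.le_of_dvd (Int.natAbs_pos.2 hk) hd) (by omega)

/-- The facts about `h` modulo a large prime that are used. -/
theorem modVec_facts {n d P : ℕ} {h : Fin n → Fin d → ℤ} (hind : PairIndep h)
    (hne : ∀ i, h i ≠ 0) {C : ℕ} (hC : ∀ i l, (h i l).natAbs ≤ C)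
    (hP : 2 * C + 2 * C * C < P) :
    (∀ i, modVec P (h i) ≠ 0) ∧
    (∀ i j, i ≠ j → modVec P (h i) - modVec P (h j) ≠ 0) ∧
    (∀ i j, i ≠ j → modVec P (h i) + modVec P (h j) ≠ 0) ∧
    (∀ i j, i ≠ j → ∃ l m, l ≠ m ∧
      modVec P (h i) l * modVec P (h j) m - modVec P (h i) m * modVec P (h j) l ≠ 0) := by
  refine ⟨fun i => ?_, fun i j hij => ?_, fun i j hij => ?_, fun i j hij => ?_⟩
  · obtain ⟨l, hl⟩ := Function.ne_iff.1 (hne i)
    refine Function.ne_iff.2 ⟨l, intCast_ne_zero_of_lt hl ?_⟩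
    have := hC i l
    omega
  · obtain ⟨l, hl⟩ : ∃ l, h i l - h j l ≠ 0 := by
      by_contra hc
      push Not at hc
      exact one_ne_zero ((hind i j hij 1 (-1) fun l => by linarith [hc l]).1)
    refine Function.ne_iff.2 ⟨l, ?_⟩
    simp only [modVec, Pi.sub_apply, Pi.zero_apply, ← Int.cast_sub]
    refine intCast_ne_zero_of_lt hl ?_
    have := hC i l; have := hC j l; have := Int.natAbs_sub_le (h i l) (h j l)
    omega
  · obtain ⟨l, hl⟩ : ∃ l, h i l + h j l ≠ 0 := by
      by_contra hc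
      push Not at hc
      exact one_ne_zero ((hind i j hij 1 1 fun l => by linarith [hc l]).1)
    refine Function.ne_iff.2 ⟨l, ?_⟩
    simp only [modVec, Pi.add_apply, Pi.zero_apply, ← Int.cast_add]
    refine intCast_ne_zero_of_lt hl ?_
    have := hC i l; have := hC j l; have := Int.natAbs_add_le (h i l) (h j l)
    omega
  · obtain ⟨l, m, hlm⟩ := exists_minor hind hne hij
    refine ⟨l, m, fun e => hlm (by rw [e]; ring), ?_⟩
    simp only [modVec, ← Int.cast_mul, ← Int.cast_sub]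
    refine intCast_ne_zero_of_lt hlm ?_
    have h1 := Int.natAbs_sub_le (h i l * h j m) (h i m * h j l)
    rw [Int.natAbs_mul, Int.natAbs_mul] at h1
    have := Nat.mul_le_mul (hC i l) (hC j m)
    have := Nat.mul_le_mul (hC i m) (hC j l)
    have : 2 * C * C = C * C + C * C := by ring
    omega

section core

variable {d n P M H : ℕ} (h : Fin n → Fin d → ℤ) (r : Fin n → ℕ)

open Classical in
/-- Windows with pairwise different half blocks, none in the middle. -/
noncomputable def goodSet (P M H : ℕ) : Finset (Wnd d P M) :=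
  univ.filter fun w => (∀ i, halfIdx H (blk P M (h i) (r i) w) < H) ∧
    Function.Injective fun i => halfIdx H (blk P M (h i) (r i) w)

open Classical in
/-- Indicator of admissibility. -/
noncomputable def admI (ω : Fin H → Fin n × Bool) (w : Wnd d P M) : ℝ :=
  if ∀ i, IsPlus ω i (blk P M (h i) (r i) w) then 1 else 0

theorem admI_eq (ω : Fin H → Fin n × Bool) (w : Wnd d P M)
    (ha : ∀ j, halfIdx H (blk P M (h j) (r j) w) < H) :
    admI h r ω w = if ∀ j, ω ⟨halfIdx H (blk P M (h j) (r j) w), ha j⟩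
      = (j, decide (blk P M (h j) (r j) w < H)) then 1 else 0 := by
  unfold admI
  by_cases hc : ∀ j, IsPlus ω j (blk P M (h j) (r j) w)
  · rw [if_pos hc, if_pos fun j => (hc j).choose_spec]
  · rw [if_neg hc, if_neg fun hall => hc fun j => ⟨ha j, hall j⟩]

variable (hPH : P = 2 * H + 1) (hM : 0 < M)

include hPH hM in
theorem card_bad_le [Fact P.Prime] (h1 : ∀ i, modVec P (h i) ≠ 0)
    (h2 : ∀ i j, i ≠ j → modVec P (h i) - modVec P (h j) ≠ 0)
    (h3 : ∀ i j, i ≠ j → modVec P (h i) + modVec P (h j) ≠ 0) :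
    ((univ : Finset (Wnd d P M)).card : ℝ) - (goodSet h r P M H).card
      ≤ (3 * (n : ℝ) ^ 2) * ((M : ℝ) * (P : ℝ) ^ (d - 1)) := by
  classical
  have hP : 0 < P := by omega
  set Y := fun i w => blk P M (h i) (r i) w with hYdef
  set A : Fin n → Finset (Wnd d P M) := fun i => univ.filter fun w => Y i w = H
  set B : Fin n × Fin n → Finset (Wnd d P M) := fun x =>
    univ.filter fun w => x.1 ≠ x.2 ∧ Y x.1 w = Y x.2 w
  set C : Fin n × Fin n → Finset (Wnd d P M) := fun x =>
    univ.filter fun w => x.1 ≠ x.2 ∧ Y x.1 w + Y x.2 w = 2 * H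
  have hsub : (univ : Finset (Wnd d P M)) ⊆
      goodSet h r P M H ∪ (univ.biUnion A ∪ (univ.biUnion B ∪ univ.biUnion C)) := by
    intro w _
    by_contra hc
    simp only [mem_union, mem_biUnion, mem_filter, mem_univ, true_and, not_or, not_exists,
      goodSet, A, B, C] at hc
    obtain ⟨hg, hA, hB, hC⟩ := hc
    apply hg
    have hlt : ∀ i, Y i w < 2 * H + 1 := fun i => hPH ▸ (blk_spec hP hM (h i) (r i) w).2.1
    refine ⟨fun i => lt_of_le_of_ne halfIdx_le fun e => hA i (middle_of_halfIdx (hlt i) e), ?_⟩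
    intro i j e
    by_contra hij
    rcases halfIdx_eq_cases (hlt i) (hlt j) e with e' | e'
    · exact hB (i, j) ⟨hij, e'⟩
    · exact hC (i, j) ⟨hij, e'⟩
  have one : ∀ (S : Finset (Wnd d P M)) (c : Fin d → ZMod P) (b : Fin M → ZMod P), c ≠ 0 →
      (∀ w ∈ S, gridForm c w.1 = b w.2) → S.card ≤ M * P ^ (d - 1) := by
    intro S c b hc hS
    have := card_window_le S univ (fun w _ => mem_univ _) (fun t A => gridForm c A = b t) hS
      (fun t _ => card_form_le c hc (b t))
    simpa using this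
  have cast : ∀ i w, gridForm (modVec P (h i)) w.1
      = ((Y i w : ℕ) : ZMod P) - ((r i * (w.2 : ℕ) / M : ℕ) : ZMod P) := fun i w =>
    eq_sub_of_add_eq (blk_spec hP hM (h i) (r i) w).2.2.symm
  have bA : ∀ i, (A i).card ≤ M * P ^ (d - 1) := fun i =>
    one _ _ (fun t => (H : ZMod P) - ((r i * (t : ℕ) / M : ℕ) : ZMod P)) (h1 i) fun w hw => by
      simp only [A, mem_filter] at hw
      rw [cast, hw.2]
  have bB : ∀ x, (B x).card ≤ M * P ^ (d - 1) := by
    rintro ⟨i, j⟩
    rcases eq_or_ne i j with rfl | hij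
    · simp [B]
    refine one _ _ (fun t => ((r j * (t : ℕ) / M : ℕ) : ZMod P) - ((r i * (t : ℕ) / M : ℕ) : ZMod P))
      (h2 i j hij) fun w hw => ?_
    simp only [B, mem_filter] at hw
    have : gridForm (modVec P (h i) - modVec P (h j)) w.1
        = gridForm (modVec P (h i)) w.1 - gridForm (modVec P (h j)) w.1 := by
      simp [gridForm, sub_mul, sum_sub_distrib]
    rw [this, cast, cast, hw.2.2]
    ring
  have bC : ∀ x, (C x).card ≤ M * P ^ (d - 1) := by
    rintro ⟨i, j⟩
    rcases eq_or_ne i j with rfl | hij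
    · simp [C]
    refine one _ _ (fun t => ((2 * H : ℕ) : ZMod P) - ((r j * (t : ℕ) / M : ℕ) : ZMod P)
      - ((r i * (t : ℕ) / M : ℕ) : ZMod P)) (h3 i j hij) fun w hw => ?_
    simp only [C, mem_filter] at hw
    have : gridForm (modVec P (h i) + modVec P (h j)) w.1
        = gridForm (modVec P (h i)) w.1 + gridForm (modVec P (h j)) w.1 := by
      simp [gridForm, add_mul, sum_add_distrib]
    rw [this, cast, cast, ← hw.2.2, Nat.cast_add]
    ring
  have hcard := (card_le_card hsub).trans ((card_union_le _ _).trans (Nat.add_le_add_left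
    ((card_union_le _ _).trans (Nat.add_le_add
      (card_biUnion_le_card_mul univ A _ fun i _ => bA i)
      ((card_union_le _ _).trans (Nat.add_le_add
        (card_biUnion_le_card_mul univ B _ fun x _ => bB x)
        (card_biUnion_le_card_mul univ C _ fun x _ => bC x))))) _))
  simp only [card_univ, Fintype.card_fin, Fintype.card_prod] at hcard ⊢
  have hreal := (Nat.cast_le (α := ℝ)).2 hcard
  push_cast at hreal ⊢
  have hn : (n : ℝ) ≤ (n : ℝ) ^ 2 := by exact_mod_cast Nat.le_self_pow two_ne_zero n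
  have hnn : (0 : ℝ) ≤ (M : ℝ) * (P : ℝ) ^ (d - 1) := by positivity
  nlinarith

include hPH hM in
theorem card_coincide_le [Fact P.Prime] (hr0 : ∀ i, 0 < r i)
    (h4 : ∀ i j, i ≠ j → ∃ l m, l ≠ m ∧
      modVec P (h i) l * modVec P (h j) m - modVec P (h i) m * modVec P (h j) l ≠ 0)
    (i : Fin n) (w' : Wnd d P M) (S : Finset (Wnd d P M))
    (hz : ∀ w ∈ S, wpos P M (h i) (r i) w = wpos P M (h i) (r i) w')
    (hS : ∀ w ∈ S, ∃ j k, j ≠ i ∧
      halfIdx H (blk P M (h j) (r j) w) = halfIdx H (blk P M (h k) (r k) w')) :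
    (S.card : ℝ) ≤ 2 * (n : ℝ) ^ 2 * ((r i : ℝ) * (P : ℝ) ^ (d - 2)) := by
  classical
  have hP : 0 < P := by omega
  set Y' := fun k => blk P M (h k) (r k) w'
  set T := univ.filter fun t : Fin M => r i * (t : ℕ) % M = r i * (w'.2 : ℕ) % M
  set E : Fin n × Fin n × Bool → Finset (Wnd d P M) := fun x =>
    S.filter fun w => x.1 ≠ i ∧
      blk P M (h x.1) (r x.1) w = if x.2.2 then Y' x.2.1 else 2 * H - Y' x.2.1
  have hblk : ∀ w ∈ S, blk P M (h i) (r i) w = Y' i := fun w hw => by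
    simp only [Y', blk, hz w hw]
  have hsub : S ⊆ univ.biUnion E := by
    intro w hw
    obtain ⟨j, k, hj, e⟩ := hS w hw
    simp only [mem_biUnion, mem_univ, true_and, E, mem_filter]
    rcases halfIdx_eq_cases (hPH ▸ (blk_spec hP hM (h j) (r j) w).2.1)
      (hPH ▸ (blk_spec hP hM (h k) (r k) w').2.1) e with e' | e'
    · exact ⟨(j, k, true), hw, hj, by simpa [Y'] using e'⟩
    · exact ⟨(j, k, false), hw, hj, by simp [Y']; omega⟩
  have hT : ∀ w ∈ S, w.2 ∈ T := fun w hw => by
    simp only [T, mem_filter, mem_univ, true_and]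
    have e := hz w hw
    rw [(blk_spec hP hM (h i) (r i) w).1, (blk_spec hP hM (h i) (r i) w').1, hblk w hw] at e
    exact_mod_cast add_left_cancel e
  have bE : ∀ x, (E x).card ≤ r i * P ^ (d - 2) := by
    rintro ⟨j, k, s⟩
    rcases eq_or_ne j i with rfl | hj
    · simp [E]
    obtain ⟨l, m, hlm, hdet⟩ := h4 i j (Ne.symm hj)
    refine le_trans (card_window_le (E (j, k, s)) T (fun w hw => hT w (mem_filter.1 hw).1)
      (fun t A => gridForm (modVec P (h i)) A
          = ((Y' i : ℕ) : ZMod P) - ((r i * (t : ℕ) / M : ℕ) : ZMod P) ∧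
        gridForm (modVec P (h j)) A
          = (((if s then Y' k else 2 * H - Y' k : ℕ)) : ZMod P)
            - ((r j * (t : ℕ) / M : ℕ) : ZMod P))
      (fun w hw => ?_) (fun t _ => card_form₂_le _ _ l m hlm hdet _ _))
      (Nat.mul_le_mul_right _ (card_rem_le (hr0 i) _))
    simp only [E, mem_filter] at hw
    constructor
    · rw [← hblk w hw.1]
      exact eq_sub_of_add_eq (blk_spec hP hM (h i) (r i) w).2.2.symm
    · rw [← hw.2.2]
      exact eq_sub_of_add_eq (blk_spec hP hM (h j) (r j) w).2.2.symm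
  have hcard := (card_le_card hsub).trans (card_biUnion_le_card_mul univ E _ fun x _ => bE x)
  simp only [card_univ, Fintype.card_prod, Fintype.card_fin, Fintype.card_bool] at hcard
  calc (S.card : ℝ) ≤ ((n * (n * 2) * (r i * P ^ (d - 2)) : ℕ) : ℝ) := Nat.cast_le.2 hcard
    _ = _ := by push_cast; ring

include hPH hM in
theorem fibre_excess_le [Fact P.Prime] (hd : 2 ≤ d) (hr0 : ∀ i, 0 < r i) {p : Fin n → ℝ}
    (hp : ∀ i, 0 < p i) (hp1 : 2 * ∑ i, p i = 1)
    (h1 : ∀ i, modVec P (h i) ≠ 0)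
    (h4 : ∀ i j, i ≠ j → ∃ l m, l ≠ m ∧
      modVec P (h i) l * modVec P (h j) m - modVec P (h i) m * modVec P (h j) l ≠ 0)
    (i : Fin n) (g : ℕ) (hg : (r i : ℝ) * (P : ℝ) ^ (d - 1) * (∏ j, p j) / p i ≤ (g : ℝ))
    (z : ℤ) {ε : ℝ} (hε : 0 < ε) :
    ∑ ω : Fin H → Fin n × Bool, cwt p ω *
        max (∑ w ∈ (goodSet h r P M H).filter (fun w => wpos P M (h i) (r i) w = z),
          admI h r ω w - g) 0
      ≤ ((n : ℝ) ^ 2 / (ε * P) + ε / 2) * ((r i : ℝ) * (P : ℝ) ^ (d - 1)) := by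
  classical
  have hP : 0 < P := by omega
  set F := (goodSet h r P M H).filter (fun w => wpos P M (h i) (r i) w = z) with hF
  set π := ∏ j, p j with hπ
  have hπ0 : 0 < π := prod_pos fun j _ => hp j
  set K := (r i : ℝ) * (P : ℝ) ^ (d - 1) with hK
  have hK0 : 0 < K := by have := hr0 i; positivity
  set ρ := (n : ℝ) ^ 2 / (ε * P) + ε / 2 with hρ
  rcases F.eq_empty_or_nonempty with hFe | ⟨w₀, hw₀⟩
  · have : ∀ ω : Fin H → Fin n × Bool, max (∑ w ∈ F, admI h r ω w - (g : ℝ)) 0 = 0 := fun ω => by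
      rw [hFe, sum_empty, max_eq_right]; simp
    simp only [this, mul_zero, sum_const_zero]
    positivity
  set Y := fun j (w : Wnd d P M) => blk P M (h j) (r j) w with hY
  have hmem : ∀ w ∈ F, (∀ j, halfIdx H (Y j w) < H) ∧
      (Function.Injective fun j => halfIdx H (Y j w)) ∧ wpos P M (h i) (r i) w = z := by
    intro w hw
    simp only [hF, mem_filter, goodSet, mem_univ, true_and] at hw
    exact ⟨hw.1.1, hw.1.2, hw.2⟩
  have hYi : ∀ w ∈ F, Y i w = Y i w₀ := fun w hw => by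
    simp only [hY, blk, (hmem w hw).2.2, (hmem w₀ hw₀).2.2]
  set I : (Fin H → Fin n × Bool) → ℝ := fun ω => if IsPlus ω i (Y i w₀) then 1 else 0 with hI
  set D : (Fin H → Fin n × Bool) → ℝ := fun ω => ∑ w ∈ F, admI h r ω w with hD
  set μ := (F.card : ℝ) * π / p i with hμ
  have hFK : (F.card : ℝ) ≤ K := by
    set T := univ.filter fun t : Fin M => r i * (t : ℕ) % M = r i * (w₀.2 : ℕ) % M
    have hT : ∀ w ∈ F, w.2 ∈ T := fun w hw => by
      simp only [T, mem_filter, mem_univ, true_and]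
      have e := (hmem w hw).2.2.trans (hmem w₀ hw₀).2.2.symm
      rw [(blk_spec hP hM (h i) (r i) w).1, (blk_spec hP hM (h i) (r i) w₀).1] at e
      simp only [hY] at hYi
      rw [hYi w hw] at e
      exact_mod_cast add_left_cancel e
    have := card_window_le F T hT
      (fun t A => gridForm (modVec P (h i)) A
        = ((Y i w₀ : ℕ) : ZMod P) - ((r i * (t : ℕ) / M : ℕ) : ZMod P))
      (fun w hw => by
        rw [← hYi w hw]
        exact eq_sub_of_add_eq (blk_spec hP hM (h i) (r i) w).2.2.symm)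
      (fun t _ => card_form_le _ (h1 i) _)
    have := this.trans (Nat.mul_le_mul_right _ (card_rem_le (hr0 i) _))
    calc (F.card : ℝ) ≤ ((r i * P ^ (d - 1) : ℕ) : ℝ) := Nat.cast_le.2 this
      _ = K := by push_cast; rfl
  have hμ0 : 0 ≤ μ := by have := hp i; positivity
  have hμg : μ ≤ g := by
    refine le_trans ?_ hg
    rw [hμ]
    gcongr
    exact (hp i).le
  have plus_iff : ∀ (ω : Fin H → Fin n × Bool) (j : Fin n) (w : Wnd d P M)
      (hh : halfIdx H (Y j w) < H),
      IsPlus ω j (Y j w) ↔ ω ⟨halfIdx H (Y j w), hh⟩ = (j, decide (Y j w < H)) :=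
    fun ω j w hh => ⟨fun ⟨_, e⟩ => e, fun e => ⟨hh, e⟩⟩
  have e0 : ∑ ω : Fin H → Fin n × Bool, cwt p ω * I ω = p i := by
    have hh := (hmem w₀ hw₀).1 i
    have := sum_cwt_ite (H := H) hp1 (κ := Unit) (fun _ => ⟨halfIdx H (Y i w₀), hh⟩)
      (fun a b _ => rfl) (fun _ => (i, decide (Y i w₀ < H)))
    simp only [forall_const, univ_unique, prod_singleton] at this
    simp only [hI, plus_iff _ i w₀ hh]
    exact this
  have e1 : ∀ w ∈ F, ∑ ω : Fin H → Fin n × Bool, cwt p ω * admI h r ω w = π := by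
    intro w hw
    obtain ⟨ha, hb, -⟩ := hmem w hw
    have := sum_cwt_ite (H := H) hp1 (fun j => (⟨halfIdx H (Y j w), ha j⟩ : Fin H))
      (fun a b e => hb (congrArg Fin.val e)) (fun j => (j, decide (Y j w < H)))
    rw [hπ, ← this]
    refine sum_congr rfl fun ω _ => ?_
    rw [admI_eq h r ω w ha]
    convert rfl using 3
  have e2 : ∀ w ∈ F, ∀ w' ∈ F, (¬ ∃ j k, j ≠ i ∧ halfIdx H (Y j w) = halfIdx H (Y k w')) →
      ∑ ω : Fin H → Fin n × Bool, cwt p ω * (admI h r ω w * admI h r ω w') = π ^ 2 / p i := by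
    intro w hw w' hw' hgen
    obtain ⟨ha, hb, -⟩ := hmem w hw
    obtain ⟨ha', hb', -⟩ := hmem w' hw'
    have hww : Y i w = Y i w' := (hYi w hw).trans (hYi w' hw').symm
    set f : Fin n ⊕ {j // j ≠ i} → Fin H :=
      Sum.elim (fun j => ⟨halfIdx H (Y j w), ha j⟩) (fun j => ⟨halfIdx H (Y j.1 w'), ha' j.1⟩)
      with hf
    have hfi : Function.Injective f := by
      rintro (a | a) (b | b) e <;> simp only [hf, Sum.elim_inl, Sum.elim_inr, Fin.mk.injEq] at e
      · exact congrArg Sum.inl (hb e)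
      · exfalso
        rcases eq_or_ne a i with rfl | hai
        · rw [hww] at e; exact b.2 (hb' e).symm
        · exact hgen ⟨a, b.1, hai, e⟩
      · exfalso
        rcases eq_or_ne b i with rfl | hbi
        · rw [hww] at e; exact a.2 (hb' e)
        · exact hgen ⟨b, a.1, hbi, e.symm⟩
      · exact congrArg Sum.inr (Subtype.ext (hb' e))
    have := sum_cwt_ite (H := H) hp1 f hfi
      (Sum.elim (fun j => (j, decide (Y j w < H))) (fun j => (j.1, decide (Y j.1 w' < H))))
    rw [Fintype.prod_sum_type] at this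
    simp only [Sum.elim_inl, Sum.elim_inr] at this
    have hprod : ∏ j : {j // j ≠ i}, p j.1 = π / p i := by
      rw [eq_div_iff (hp i).ne', hπ, mul_comm,
        ← Finset.prod_subtype (univ.erase i) (by simp) (fun j => p j), mul_prod_erase _ _ (mem_univ i)]
    rw [hprod, ← hπ, ← mul_div_assoc, ← sq] at this
    rw [← this]
    refine sum_congr rfl fun ω _ => ?_
    congr 1
    unfold admI
    rw [ite_zero_mul_ite_zero, one_mul]
    refine if_congr ?_ rfl rfl
    constructor
    · rintro ⟨ha1, ha2⟩ (j | j)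
      · exact (plus_iff ω j w (ha j)).1 (ha1 j)
      · exact (plus_iff ω j.1 w' (ha' j.1)).1 (ha2 j.1)
    · intro hall
      refine ⟨fun j => (plus_iff ω j w (ha j)).2 (hall (Sum.inl j)), fun j => ?_⟩
      rcases eq_or_ne j i with rfl | hji
      · have := (plus_iff ω j w (ha j)).2 (hall (Sum.inl j))
        simp only [hY] at hww this ⊢
        exact hww ▸ this
      · exact (plus_iff ω j w' (ha' j)).2 (hall (Sum.inr ⟨j, hji⟩))
  -- first and second moments
  have hsum1 : ∑ ω : Fin H → Fin n × Bool, cwt p ω * D ω = F.card * π := by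
    simp only [hD, mul_sum]
    rw [sum_comm, sum_congr rfl e1, sum_const, nsmul_eq_mul]
  set B := 2 * (n : ℝ) ^ 2 * ((r i : ℝ) * (P : ℝ) ^ (d - 2)) with hB
  have hsum2 : ∑ ω : Fin H → Fin n × Bool, cwt p ω * D ω ^ 2
      ≤ (F.card : ℝ) * ((F.card : ℝ) * (π ^ 2 / p i) + B) := by
    have : ∑ ω : Fin H → Fin n × Bool, cwt p ω * D ω ^ 2
        = ∑ w' ∈ F, ∑ w ∈ F, ∑ ω : Fin H → Fin n × Bool, cwt p ω * (admI h r ω w * admI h r ω w') := by
      simp only [hD, sq, sum_mul, mul_sum]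
      rw [sum_comm]
      refine sum_congr rfl fun a _ => ?_
      rw [sum_comm]
    rw [this]
    refine (sum_le_sum (g := fun _ => (F.card : ℝ) * (π ^ 2 / p i) + B) fun w' hw' => ?_).trans
      (by simp [mul_add])
    refine (sum_le_sum (g := fun w => π ^ 2 / p i +
      if ∃ j k, j ≠ i ∧ halfIdx H (Y j w) = halfIdx H (Y k w') then 1 else 0) fun w hw => ?_).trans ?_
    · split_ifs with hc
      · have hb : ∑ ω : Fin H → Fin n × Bool, cwt p ω * (admI h r ω w * admI h r ω w') ≤ 1 := by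
          rw [← sum_cwt (H := H) hp1]
          refine sum_le_sum fun ω _ => mul_le_of_le_one_right (cwt_nonneg hp ω) ?_
          unfold admI
          split_ifs <;> norm_num
        have : 0 ≤ π ^ 2 / p i := by have := hp i; positivity
        linarith
      · rw [add_zero]; exact (e2 w hw w' hw' hc).le
    · rw [sum_add_distrib, sum_const, nsmul_eq_mul, sum_boole]
      refine add_le_add le_rfl (card_coincide_le h r hPH hM hr0 h4 i w' _
        (fun w hw => ((hmem w (mem_filter.1 hw).1).2.2).trans (hmem w' hw').2.2.symm)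
        (fun w hw => (mem_filter.1 hw).2))
  have hDI : ∀ ω, D ω * I ω = D ω := by
    intro ω
    by_cases hc : IsPlus ω i (Y i w₀)
    · simp [hI, hc]
    · have : D ω = 0 := sum_eq_zero fun w hw => if_neg fun hall => hc (hYi w hw ▸ hall i)
      simp [this]
  have hII : ∀ ω, I ω * I ω = I ω := fun ω => by simp only [hI]; split_ifs <;> norm_num
  have hvar : ∑ ω : Fin H → Fin n × Bool, cwt p ω * (D ω - μ * I ω) ^ 2 ≤ (F.card : ℝ) * B := by
    have hexp : ∀ ω, cwt p ω * (D ω - μ * I ω) ^ 2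
        = cwt p ω * D ω ^ 2 - 2 * μ * (cwt p ω * D ω) + μ ^ 2 * (cwt p ω * I ω) := by
      intro ω
      linear_combination (-2 * μ * cwt p ω) * hDI ω + (μ ^ 2 * cwt p ω) * hII ω
    simp only [hexp, sum_add_distrib, sum_sub_distrib, ← mul_sum, e0, hsum1]
    have hcal : (F.card : ℝ) * ((F.card : ℝ) * (π ^ 2 / p i) + B) - 2 * μ * ((F.card : ℝ) * π)
        + μ ^ 2 * p i = (F.card : ℝ) * B := by
      have := (hp i).ne'
      rw [hμ]; field_simp; ring
    linarith
  have hpt : ∀ ω, max (D ω - g) 0 ≤ (D ω - μ * I ω) ^ 2 / (2 * (ε * K)) + ε * K / 2 := by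
    intro ω
    have hamgm : |D ω - μ * I ω| ≤ (D ω - μ * I ω) ^ 2 / (2 * (ε * K)) + ε * K / 2 := by
      rw [div_add_div _ _ (by positivity) two_ne_zero, le_div_iff₀ (by positivity)]
      nlinarith [sq_nonneg (|D ω - μ * I ω| - ε * K), sq_abs (D ω - μ * I ω)]
    refine le_trans (max_le ?_ (abs_nonneg _)) hamgm
    refine le_trans ?_ (le_abs_self _)
    have : I ω ≤ 1 := by simp only [hI]; split_ifs <;> norm_num
    nlinarith
  refine (sum_le_sum fun ω _ => mul_le_mul_of_nonneg_left (hpt ω) (cwt_nonneg hp ω)).trans ?_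
  have key : ∑ ω : Fin H → Fin n × Bool,
      cwt p ω * ((D ω - μ * I ω) ^ 2 / (2 * (ε * K)) + ε * K / 2)
      = (∑ ω : Fin H → Fin n × Bool, cwt p ω * (D ω - μ * I ω) ^ 2) / (2 * (ε * K))
        + ε * K / 2 := by
    simp only [mul_add, sum_add_distrib]
    rw [← Finset.sum_mul (a := ε * K / 2), sum_cwt hp1, one_mul, sum_div]
    exact congrArg (· + ε * K / 2) (sum_congr rfl fun ω _ => by ring)
  rw [key]
  refine (add_le_add (div_le_div_of_nonneg_right (hvar.trans
    (mul_le_mul_of_nonneg_right hFK (by positivity))) (by positivity)) le_rfl).trans (le_of_eq ?_)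
  have hpow : (P : ℝ) ^ (d - 1) = (P : ℝ) ^ (d - 2) * P := by
    rw [← pow_succ]; congr 1; omega
  rw [hρ, hB, hK, hpow]
  have : (P : ℝ) ≠ 0 := by exact_mod_cast hP.ne'
  have := (hr0 i).ne'
  field_simp

include hPH hM in
theorem card_image_wpos_le (hr0 : ∀ i, 0 < r i) (hr : ∀ i, r i ∣ M) (i : Fin n)
    (S : Finset (Wnd d P M)) :
    ((S.image (fun w => wpos P M (h i) (r i) w)).card : ℝ)
        * ((r i : ℝ) * (P : ℝ) ^ (d - 1)) ≤ (M : ℝ) * ((P : ℝ) * (P : ℝ) ^ (d - 1)) := by
  classical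
  have hP : 0 < P := by omega
  have hsub : S.image (fun w => wpos P M (h i) (r i) w) ⊆
      (range P ×ˢ range (M / r i)).image
        (fun x => (M : ℤ) * (x.1 : ℤ) + ((r i * x.2 : ℕ) : ℤ)) := by
    intro z hz
    obtain ⟨w, -, rfl⟩ := mem_image.1 hz
    refine mem_image.2 ⟨(blk P M (h i) (r i) w, (w.2 : ℕ) % (M / r i)), ?_, ?_⟩
    · simp only [mem_product, mem_range]
      exact ⟨(blk_spec hP hM (h i) (r i) w).2.1,
        Nat.mod_lt _ (Nat.div_pos (Nat.le_of_dvd hM (hr i)) (hr0 i))⟩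
    · rw [(blk_spec hP hM (h i) (r i) w).1, rem_mul (hr i)]
  have := (card_le_card hsub).trans card_image_le
  simp only [card_product, card_range] at this
  have h2 : (S.image (fun w => wpos P M (h i) (r i) w)).card * r i ≤ P * M := by
    calc _ ≤ P * (M / r i) * r i := Nat.mul_le_mul_right _ this
      _ = P * M := by rw [mul_assoc, Nat.div_mul_cancel (hr i)]
  have h3 : ((S.image (fun w => wpos P M (h i) (r i) w)).card : ℝ) * r i ≤ (P : ℝ) * M := by
    exact_mod_cast h2
  calc _ = ((S.image (fun w => wpos P M (h i) (r i) w)).card : ℝ) * r i * (P : ℝ) ^ (d - 1) := by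
        ring
    _ ≤ (P : ℝ) * M * (P : ℝ) ^ (d - 1) := mul_le_mul_of_nonneg_right h3 (by positivity)
    _ = _ := by ring

end core

/-- Module C. -/
theorem packing : PackingStatement := by
  classical
  intro d n h hd hind hne v r hr0 _ M hM hr p hp hp1 ξ hξ
  set π := ∏ j, p j with hπ
  have hπ0 : 0 < π := prod_pos fun j _ => hp j
  have hn : 0 < n := by
    rcases Nat.eq_zero_or_pos n with rfl | hn
    · simp at hp1
    · exact hn
  set C := ∑ i, ∑ l, (h i l).natAbs with hC
  have hCle : ∀ i l, (h i l).natAbs ≤ C := fun i l =>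
    le_trans (single_le_sum (f := fun l => (h i l).natAbs) (fun _ _ => Nat.zero_le _) (mem_univ l))
      (single_le_sum (f := fun i => ∑ l, (h i l).natAbs) (fun _ _ => Nat.zero_le _) (mem_univ i))
  set ε := ξ * π / n with hε
  have hn' : (0 : ℝ) < n := by exact_mod_cast hn
  have hε0 : 0 < ε := by positivity
  set need := (3 * (n : ℝ) ^ 2 * π + (n : ℝ) ^ 3 / ε) / (ξ * π / 2) with hneed
  refine ⟨max (⌈need⌉₊ + 3) (2 * C + 2 * C * C + 3), fun P hPp hP₀ g hg => ?_⟩
  haveI : Fact P.Prime := ⟨hPp⟩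
  have hP3 : 3 ≤ P := le_trans (le_add_left le_rfl) ((le_max_left _ _).trans hP₀)
  obtain ⟨H, hPH⟩ : ∃ H, P = 2 * H + 1 := hPp.odd_of_ne_two (by omega)
  obtain ⟨h1, h2, h3, h4⟩ := modVec_facts hind hne hCle (P := P)
    (by have := (le_max_right _ _).trans hP₀; omega)
  set G := goodSet h r P M H with hG
  set Z := fun i => G.image (fun w => wpos P M (h i) (r i) w) with hZ
  set Fz := fun (i : Fin n) (z : ℤ) => G.filter (fun w => wpos P M (h i) (r i) w = z) with hFz
  set X : (Fin H → Fin n × Bool) → ℝ := fun ω =>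
    ∑ w ∈ G, admI h r ω w - ∑ i, ∑ z ∈ Z i, max (∑ w ∈ Fz i z, admI h r ω w - g i) 0 with hX
  set T := (M : ℝ) * ((P : ℝ) * (P : ℝ) ^ (d - 1)) with hT
  have hTeq : (P : ℝ) ^ d * M = T := by
    rw [hT, ← pow_succ', show d - 1 + 1 = d by omega]; ring
  have hL : (1 - ξ) * π * T ≤ ∑ ω : Fin H → Fin n × Bool, cwt p ω * X ω := by
    have hfirst : ∑ ω : Fin H → Fin n × Bool, cwt p ω * ∑ w ∈ G, admI h r ω w = (G.card : ℝ) * π := by
      simp only [mul_sum]
      rw [sum_comm, sum_congr rfl (g := fun _ => π), sum_const, nsmul_eq_mul]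
      intro w hw
      obtain ⟨ha, hb⟩ : (∀ i, halfIdx H (blk P M (h i) (r i) w) < H) ∧
          Function.Injective fun i => halfIdx H (blk P M (h i) (r i) w) := by
        simpa [hG, goodSet] using hw
      have := sum_cwt_ite (H := H) hp1
        (fun j => (⟨halfIdx H (blk P M (h j) (r j) w), ha j⟩ : Fin H))
        (fun a b e => hb (congrArg Fin.val e))
        (fun j => (j, decide (blk P M (h j) (r j) w < H)))
      rw [hπ, ← this]
      refine sum_congr rfl fun ω _ => ?_
      rw [admI_eq h r ω w ha]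
      convert rfl using 3
    have hsecond : ∑ ω : Fin H → Fin n × Bool, cwt p ω * ∑ i, ∑ z ∈ Z i, max (∑ w ∈ Fz i z, admI h r ω w - g i) 0
        ≤ (n : ℝ) * (((n : ℝ) ^ 2 / (ε * P) + ε / 2) * T) := by
      simp only [mul_sum]
      rw [sum_comm]
      refine (sum_le_sum (g := fun _ : Fin n => ((n : ℝ) ^ 2 / (ε * P) + ε / 2) * T)
        fun i _ => ?_).trans (by simp)
      rw [sum_comm]
      refine (sum_le_sum fun z _ =>
        fibre_excess_le h r hPH hM hd hr0 hp hp1 h1 h4 i (g i) (hg i) z hε0).trans ?_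
      rw [sum_const, nsmul_eq_mul, mul_left_comm]
      refine mul_le_mul_of_nonneg_left ?_ (by positivity)
      exact card_image_wpos_le h r hPH hM hr0 hr i G
    have hbad := card_bad_le h r hPH hM h1 h2 h3
    simp only [card_univ, Fintype.card_prod, Fintype.card_fun, Fintype.card_fin] at hbad
    push_cast at hbad
    rw [hTeq, ← hG] at hbad
    have hP' : (0 : ℝ) < P := by exact_mod_cast (by omega : 0 < P)
    have hPneed : need ≤ P := by
      have : ⌈need⌉₊ ≤ P := le_trans (Nat.le_add_right _ _) ((le_max_left _ _).trans hP₀)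
      exact le_trans (Nat.le_ceil need) (by exact_mod_cast this)
    have hMP : (M : ℝ) * (P : ℝ) ^ (d - 1) = T / P := by rw [hT]; field_simp
    rw [hMP] at hbad
    have hsmall : (3 * (n : ℝ) ^ 2 * π + (n : ℝ) ^ 3 / ε) / P ≤ ξ * π / 2 := by
      rw [div_le_iff₀ hP']
      rw [hneed, div_le_iff₀ (by positivity)] at hPneed
      linarith
    have hT0 : 0 ≤ T := by positivity
    simp only [hX, mul_sub, sum_sub_distrib, hfirst]
    have hnε : (n : ℝ) * (ε / 2) = ξ * π / 2 := by rw [hε]; field_simp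
    have hbad' : π * (T - G.card) ≤ π * (3 * (n : ℝ) ^ 2 * (T / P)) :=
      mul_le_mul_of_nonneg_left hbad hπ0.le
    have hs' := mul_le_mul_of_nonneg_right hsmall hT0
    have e1 : (3 * (n : ℝ) ^ 2 * π + (n : ℝ) ^ 3 / ε) / P * T
        = π * (3 * (n : ℝ) ^ 2 * (T / P)) + (n : ℝ) * ((n : ℝ) ^ 2 / (ε * P) * T) := by
      field_simp
    have e2 : (n : ℝ) * (((n : ℝ) ^ 2 / (ε * P) + ε / 2) * T)
        = (n : ℝ) * ((n : ℝ) ^ 2 / (ε * P) * T) + ξ * π / 2 * T := by
      rw [← hnε]; ring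
    linarith
  obtain ⟨ω, -, hω⟩ := exists_le_of_sum_le (s := (univ : Finset (Fin H → Fin n × Bool)))
    (f := fun ω => cwt p ω * ((1 - ξ) * π * T)) (g := fun ω => cwt p ω * X ω)
    (by
      haveI : Nonempty (Fin n) := ⟨⟨0, hn⟩⟩
      exact univ_nonempty)
    (by rw [← sum_mul, sum_cwt hp1, one_mul]; exact hL)
  have hwpos : 0 < cwt p ω := prod_pos fun k _ => hp _
  have hXω := le_of_mul_le_mul_left hω hwpos
  set Adm := G.filter fun w => ∀ i, IsPlus ω i (blk P M (h i) (r i) w) with hAdm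
  have hcnt : ∀ S : Finset (Wnd d P M), ∑ w ∈ S, admI h r ω w
      = ((S.filter fun w => ∀ i, IsPlus ω i (blk P M (h i) (r i) w)).card : ℝ) := fun S => by
    unfold admI; rw [sum_boole]
  set Af := fun (i : Fin n) (z : ℤ) => Adm.filter (fun w => wpos P M (h i) (r i) w = z) with hAf
  have hsel : ∀ i z, ∃ S, S ⊆ Af i z ∧ S.card = (Af i z).card - g i := fun i z =>
    exists_subset_card_eq (Nat.sub_le _ _)
  choose Del hDel hDelcard using hsel
  set All := univ.biUnion fun i => (Z i).biUnion fun z => Del i z with hAll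
  refine ⟨Adm \ All, ?_, ?_, ?_, ?_⟩
  · have hle : Adm.card ≤ (Adm \ All).card + All.card := card_le_card_sdiff_add_card
    have hAllc : All.card ≤ ∑ i, ∑ z ∈ Z i, ((Af i z).card - g i) := by
      refine card_biUnion_le.trans (sum_le_sum fun i _ => card_biUnion_le.trans ?_)
      exact sum_le_sum fun z _ => (hDelcard i z).le
    have hexc : ((∑ i, ∑ z ∈ Z i, ((Af i z).card - g i) : ℕ) : ℝ)
        ≤ ∑ i, ∑ z ∈ Z i, max (∑ w ∈ Fz i z, admI h r ω w - g i) 0 := by
      push_cast
      refine sum_le_sum fun i _ => sum_le_sum fun z _ => ?_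
      rw [hcnt, show (Fz i z).filter (fun w => ∀ i, IsPlus ω i (blk P M (h i) (r i) w)) = Af i z by
        simp only [hFz, hAf, hAdm, filter_filter]
        exact filter_congr fun w _ => and_comm]
      rcases le_total (g i) (Af i z).card with hl | hl
      · rw [Nat.cast_sub hl]; exact le_max_left _ _
      · rw [Nat.sub_eq_zero_of_le hl]; simp
    have hle' := (Nat.cast_le (α := ℝ)).2 (hle.trans (Nat.add_le_add_left hAllc _))
    push_cast at hle' hexc
    simp only [hX, hcnt G, ← hAdm] at hXω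
    calc (1 - ξ) * π * (P : ℝ) ^ d * M = (1 - ξ) * π * T := by rw [← hTeq]; ring
      _ ≤ _ := by linarith
  · intro i j w hw w' hw' s hs s' hs'
    have a := (mem_filter.1 (mem_sdiff.1 hw).1).2 i
    have b := (mem_filter.1 (mem_sdiff.1 hw').1).2 j
    exact (plus_disjoint hPH hM h r hr0 hr ω i j w w' a b hs hs').1
  · intro i j w hw w' hw' s hs s' hs'
    have a := (mem_filter.1 (mem_sdiff.1 hw).1).2 i
    have b := (mem_filter.1 (mem_sdiff.1 hw').1).2 j
    exact (plus_disjoint hPH hM h r hr0 hr ω i j w w' a b hs hs').2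
  · intro i z
    rcases ((Adm \ All).filter (fun w => wpos P M (h i) (r i) w = z)).eq_empty_or_nonempty with
      he | ⟨w₀, hw₀⟩
    · simp [he]
    have hzZ : z ∈ Z i := by
      obtain ⟨hw1, hw2⟩ := mem_filter.1 hw₀
      exact mem_image.2 ⟨w₀, (mem_filter.1 (mem_sdiff.1 hw1).1).1, hw2⟩
    have hsub : (Adm \ All).filter (fun w => wpos P M (h i) (r i) w = z) ⊆ Af i z \ Del i z := by
      intro w hw
      obtain ⟨hw1, hw2⟩ := mem_filter.1 hw
      obtain ⟨hwA, hwAll⟩ := mem_sdiff.1 hw1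
      refine mem_sdiff.2 ⟨mem_filter.2 ⟨hwA, hw2⟩, fun hd' => hwAll ?_⟩
      exact mem_biUnion.2 ⟨i, mem_univ _, mem_biUnion.2 ⟨z, hzZ, hd'⟩⟩
    refine (card_le_card hsub).trans ?_
    rw [card_sdiff_of_subset (hDel i z), hDelcard]
    omega

end Vale.Agent.P110
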