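import Vale.Agent.P110.Defs

/-!
# P110, module C: counting windows with prescribed blocks, and the random colouring weights.
-/

namespace Vale.Agent.P110

open scoped BigOperators
open Finset

/-- An integer vector read modulo `P`. -/
def modVec (P : ℕ) {d : ℕ} (h : Fin d → ℤ) : Fin d → ZMod P := fun l => (h l : ZMod P)

/-- The linear form of `c` on the grid. -/
def gridForm {P d : ℕ} (c : Fin d → ZMod P) (A : Fin d → Fin P) : ZMod P :=
  ∑ l, c l * ((A l : ℕ) : ZMod P)

theorem natCast_fin_injective {P : ℕ} : Function.Injective fun a : Fin P => ((a : ℕ) : ZMod P) := by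
  intro a b h
  have h' := congrArg ZMod.val h
  simp only [ZMod.val_natCast_of_lt a.2, ZMod.val_natCast_of_lt b.2] at h'
  exact Fin.ext h'

theorem card_form_le {P d : ℕ} [Fact P.Prime] (c : Fin d → ZMod P) (hc : c ≠ 0) (b : ZMod P) :
    (univ.filter fun A : Fin d → Fin P => gridForm c A = b).card ≤ P ^ (d - 1) := by
  classical
  obtain ⟨l₀, hl⟩ := Function.ne_iff.1 hc
  refine le_trans (card_le_card_of_injOn
    (fun A (l : {l // l ≠ l₀}) => A l.1) (t := univ) (fun _ _ => mem_univ _) ?_) (by simp)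
  intro A hA B hB hAB
  simp only [coe_filter, mem_univ, true_and, Set.mem_ofPred_eq] at hA hB
  funext l
  rcases eq_or_ne l l₀ with rfl | hne
  · have h0 : gridForm c A - gridForm c B = 0 := by rw [hA, hB, sub_self]
    rw [gridForm, gridForm, ← sum_sub_distrib, Finset.sum_eq_single l] at h0
    · have : c l * (((A l : ℕ) : ZMod P) - ((B l : ℕ) : ZMod P)) = 0 := by rw [mul_sub]; exact h0
      exact natCast_fin_injective (sub_eq_zero.1 ((mul_eq_zero.1 this).resolve_left (by simpa using hl)))
    · intro m _ hm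
      rw [show A m = B m from congrFun hAB ⟨m, hm⟩, sub_self]
    · simp
  · exact congrFun hAB ⟨l, hne⟩

theorem card_form₂_le {P d : ℕ} [Fact P.Prime] (c e : Fin d → ZMod P) (l₀ l₁ : Fin d)
    (hne : l₀ ≠ l₁) (hdet : c l₀ * e l₁ - c l₁ * e l₀ ≠ 0) (b b' : ZMod P) :
    (univ.filter fun A : Fin d → Fin P => gridForm c A = b ∧ gridForm e A = b').card
      ≤ P ^ (d - 2) := by
  classical
  refine le_trans (card_le_card_of_injOn
    (fun A (l : {l // l ∈ ({l₀, l₁} : Finset (Fin d))ᶜ}) => A l.1) (t := univ)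
    (fun _ _ => mem_univ _) ?_) ?_
  · intro A hA B hB hAB
    simp only [coe_filter, mem_univ, true_and, Set.mem_ofPred_eq] at hA hB
    have hother : ∀ m, m ≠ l₀ → m ≠ l₁ → A m = B m := fun m h0 h1 =>
      congrFun hAB ⟨m, by simp [h0, h1]⟩
    have key : ∀ f : Fin d → ZMod P, gridForm f A = gridForm f B →
        f l₀ * (((A l₀ : ℕ) : ZMod P) - ((B l₀ : ℕ) : ZMod P))
          + f l₁ * (((A l₁ : ℕ) : ZMod P) - ((B l₁ : ℕ) : ZMod P)) = 0 := by
      intro f hf
      have h0 : gridForm f A - gridForm f B = 0 := by rw [hf, sub_self]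
      rw [gridForm, gridForm, ← sum_sub_distrib,
        Finset.sum_eq_add_of_mem l₀ l₁ (mem_univ _) (mem_univ _) hne] at h0
      · rw [← h0]; ring
      · intro m _ hm
        rw [hother m hm.1 hm.2, sub_self]
    have e1 := key c (hA.1.trans hB.1.symm)
    have e2 := key e (hA.2.trans hB.2.symm)
    have z0 : (c l₀ * e l₁ - c l₁ * e l₀)
        * (((A l₀ : ℕ) : ZMod P) - ((B l₀ : ℕ) : ZMod P)) = 0 := by
      linear_combination e l₁ * e1 - c l₁ * e2
    have z1 : (c l₀ * e l₁ - c l₁ * e l₀)
        * (((A l₁ : ℕ) : ZMod P) - ((B l₁ : ℕ) : ZMod P)) = 0 := by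
      linear_combination c l₀ * e2 - e l₀ * e1
    funext l
    rcases eq_or_ne l l₀ with rfl | h0
    · exact natCast_fin_injective (sub_eq_zero.1 ((mul_eq_zero.1 z0).resolve_left hdet))
    rcases eq_or_ne l l₁ with rfl | h1
    · exact natCast_fin_injective (sub_eq_zero.1 ((mul_eq_zero.1 z1).resolve_left hdet))
    exact hother l h0 h1
  · simp only [card_univ, Fintype.card_fun, Fintype.card_coe, card_compl, Fintype.card_fin,
      card_pair hne]
    exact le_rfl

/-- The weight of a colouring of `H` half blocks. -/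
def cwt {n H : ℕ} (p : Fin n → ℝ) (ω : Fin H → Fin n × Bool) : ℝ := ∏ k, p (ω k).1

theorem cwt_nonneg {n H : ℕ} {p : Fin n → ℝ} (hp : ∀ i, 0 < p i) (ω : Fin H → Fin n × Bool) :
    0 ≤ cwt p ω := prod_nonneg fun _ _ => (hp _).le

theorem sum_cwt_ite {n H : ℕ} {p : Fin n → ℝ} (hp1 : 2 * ∑ i, p i = 1) {κ : Type*} [Fintype κ]
    (f : κ → Fin H) (hf : Function.Injective f) (v : κ → Fin n × Bool) :
    ∑ ω : Fin H → Fin n × Bool, cwt p ω * (if ∀ x, ω (f x) = v x then 1 else 0)
      = ∏ x, p (v x).1 := by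
  classical
  have step : ∀ ω : Fin H → Fin n × Bool,
      cwt p ω * (if ∀ x, ω (f x) = v x then (1 : ℝ) else 0)
        = ∏ k, (if ∀ x, f x = k → ω k = v x then p (ω k).1 else 0) := by
    intro ω
    by_cases h : ∀ x, ω (f x) = v x
    · rw [if_pos h, mul_one]
      refine prod_congr rfl fun k _ => ?_
      rw [if_pos]
      rintro x rfl
      exact h x
    · rw [if_neg h, mul_zero]
      push Not at h
      obtain ⟨x, hx⟩ := h
      refine (prod_eq_zero (mem_univ (f x)) ?_).symm
      rw [if_neg]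
      exact fun hall => hx (hall x rfl)
  simp only [step]
  rw [← Fintype.prod_sum (f := fun k c => if ∀ x, f x = k → c = v x then p c.1 else 0)]
  have hval : ∀ k, (∑ c : Fin n × Bool, if ∀ x, f x = k → c = v x then p c.1 else 0)
      = if h : ∃ x, f x = k then p (v h.choose).1 else 1 := by
    intro k
    split_ifs with h
    · rw [Finset.sum_eq_single (v h.choose)]
      · rw [if_pos]
        intro x hx
        rw [hf (hx.trans h.choose_spec.symm)]
      · intro c _ hc
        rw [if_neg]
        exact fun hall => hc (hall _ h.choose_spec)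
      · simp
    · push Not at h
      rw [← hp1, Fintype.sum_prod_type, mul_sum]
      refine sum_congr rfl fun i _ => ?_
      simp [h, two_mul]
  simp only [hval]
  symm
  refine prod_of_injOn f hf.injOn (fun x _ => by simp) (fun k _ hk => ?_) (fun x _ => ?_)
  · rw [dif_neg]
    rintro ⟨x, rfl⟩
    exact hk ⟨x, by simp, rfl⟩
  · have h : ∃ y, f y = f x := ⟨x, rfl⟩
    rw [dif_pos h, hf h.choose_spec]

theorem sum_cwt {n H : ℕ} {p : Fin n → ℝ} (hp1 : 2 * ∑ i, p i = 1) :
    ∑ ω : Fin H → Fin n × Bool, cwt p ω = 1 := by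
  have h := sum_cwt_ite (H := H) hp1 (κ := Fin 0) Fin.elim0 (fun a => a.elim0) Fin.elim0
  simpa using h

end Vale.Agent.P110
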