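import Mathlib
import Vale.Agent.P110.Basic

/-!
# P110 module A, part 1: a one-variable odd-harmonic trigonometric polynomial, of sup norm at
most `1+δ` and square mean at least `1-δ`.
-/

namespace Vale.Agent.P110

open scoped BigOperators Real ComplexConjugate
open Complex

lemma cis_half : cis (1 / 2) = -1 := by
  unfold cis
  rw [show (2 * Real.pi * (1 / 2) : ℝ) = Real.pi by ring, Complex.exp_pi_mul_I]

lemma cis_add_half (x : ℝ) : cis (x + 1 / 2) = -cis x := by
  rw [cis_add, cis_half, mul_neg_one]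

lemma cis_int_half (m : ℤ) : cis ((m : ℝ) * (1 / 2)) = if Odd m then -1 else 1 := by
  rcases Int.even_or_odd m with ⟨t, rfl⟩ | ⟨t, rfl⟩
  · rw [if_neg (Int.not_odd_iff_even.mpr ⟨t, rfl⟩)]
    rw [show (((t + t : ℤ) : ℝ)) * (1 / 2) = (t : ℝ) by push_cast; ring, cis_intCast]
  · rw [if_pos ⟨t, rfl⟩]
    rw [show (((2 * t + 1 : ℤ) : ℝ)) * (1 / 2) = 1 / 2 + (t : ℝ) by push_cast; ring,
      cis_add_int, cis_half]

lemma cis_im (x : ℝ) : (cis x).im = Real.sin (2 * Real.pi * x) := by
  unfold cis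
  exact Complex.exp_ofReal_mul_I_im _

lemma fourier_eq_cis (n : ℤ) (y : ℝ) :
    fourier n (y : AddCircle (1 : ℝ)) = cis ((n : ℝ) * y) := by
  rw [fourier_coe_apply]
  unfold cis
  congr 1
  push_cast
  ring

lemma integral_phase_sq (K : Finset ℕ) (hK : ∀ k ∈ K, 0 < k) (z : ℕ → ℂ) :
    ∫ y in (0 : ℝ)..1, (2 * (∑ k ∈ K, z k * cis ((k : ℝ) * y)).re) ^ 2
      = 2 * ∑ k ∈ K, ‖z k‖ ^ 2 := by
  classical
  let A : ℝ → ℂ := fun y => ∑ p ∈ K ×ˢ K,
    (2 * (z p.1 * conj (z p.2)) * cis (((((p.1 : ℤ) - (p.2 : ℤ) : ℤ)) : ℝ) * y)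
      + 2 * (z p.1 * z p.2) * cis (((((p.1 : ℤ) + (p.2 : ℤ) : ℤ)) : ℝ) * y))
  have hpt : ∀ y : ℝ, (2 * (∑ k ∈ K, z k * cis ((k : ℝ) * y)).re) ^ 2 = (A y).re := by
    intro y
    set w := ∑ k ∈ K, z k * cis ((k : ℝ) * y) with hw
    have hA : A y = 2 * (w * conj w) + 2 * (w * w) := by
      rw [hw, map_sum, Finset.sum_mul_sum, Finset.sum_mul_sum]
      simp only [A, Finset.mul_sum, Finset.sum_product, ← Finset.sum_add_distrib]
      refine Finset.sum_congr rfl fun k _ => Finset.sum_congr rfl fun j _ => ?_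
      rw [map_mul, conj_cis]
      push_cast
      rw [sub_mul, add_mul, sub_eq_add_neg, cis_add, cis_add]
      ring
    rw [hA]
    simp [Complex.mul_re, Complex.add_re]
    ring
  simp only [hpt]
  have hcont : ∀ (a : ℂ) (m : ℤ), Continuous fun y : ℝ => a * cis ((m : ℝ) * y) := fun a m =>
    continuous_const.mul (continuous_cis.comp (by fun_prop))
  have hAc : Continuous A := continuous_finsetSum _ fun p _ => (hcont _ _).add (hcont _ _)
  have hint : ∫ y in (0 : ℝ)..1, (A y).re = (∫ y in (0 : ℝ)..1, A y).re :=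
    Complex.reCLM.intervalIntegral_comp_comm (hAc.intervalIntegrable 0 1)
  rw [hint]
  have hval : ∫ y in (0 : ℝ)..1, A y = ∑ k ∈ K, ((2 * ‖z k‖ ^ 2 : ℝ) : ℂ) := by
    have hAi : ∀ p : ℕ × ℕ, IntervalIntegrable (fun y : ℝ =>
        2 * (z p.1 * conj (z p.2)) * cis (((((p.1 : ℤ) - (p.2 : ℤ) : ℤ)) : ℝ) * y)
        + 2 * (z p.1 * z p.2) * cis (((((p.1 : ℤ) + (p.2 : ℤ) : ℤ)) : ℝ) * y))
        MeasureTheory.volume 0 1 := fun p =>
      ((hcont _ _).add (hcont _ _)).intervalIntegrable 0 1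
    simp only [A]
    rw [intervalIntegral.integral_finsetSum fun p _ => hAi p, Finset.sum_product]
    refine Finset.sum_congr rfl fun k hk => ?_
    rw [Finset.sum_eq_single k]
    · rw [intervalIntegral.integral_add ((hcont _ _).intervalIntegrable 0 1)
        ((hcont _ _).intervalIntegrable 0 1), intervalIntegral.integral_const_mul,
        intervalIntegral.integral_const_mul, integral_cis_int, integral_cis_int,
        if_pos (sub_self _), if_neg (by have := hK k hk; omega)]
      push_cast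
      rw [mul_zero, add_zero, mul_one, Complex.mul_conj']
    · intro j hj hjk
      rw [intervalIntegral.integral_add ((hcont _ _).intervalIntegrable 0 1)
        ((hcont _ _).intervalIntegrable 0 1), intervalIntegral.integral_const_mul,
        intervalIntegral.integral_const_mul, integral_cis_int, integral_cis_int,
        if_neg (sub_ne_zero.mpr fun h => hjk (by exact_mod_cast h.symm)),
        if_neg (by have := hK k hk; omega), mul_zero, mul_zero, add_zero]
    · exact fun h => absurd hk h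
  rw [hval, Complex.re_sum, Finset.mul_sum]
  simp only [Complex.ofReal_re]

theorem exists_phase_poly {δ : ℝ} (hδ : 0 < δ) :
    ∃ (K : Finset ℕ) (z : ℕ → ℂ), (∀ k ∈ K, Odd k) ∧
      (∀ y : ℝ, |2 * (∑ k ∈ K, z k * cis ((k : ℝ) * y)).re| ≤ 1 + δ) ∧
      1 - δ ≤ 2 * ∑ k ∈ K, ‖z k‖ ^ 2 := by
  classical
  -- parameters
  obtain ⟨t, ht0, ht4, htδ⟩ : ∃ t : ℝ, 0 < t ∧ t ≤ 1 / 8 ∧ 4 * t ≤ δ / 4 :=
    ⟨min (1 / 8) (δ / 16), lt_min (by norm_num) (by positivity), min_le_left _ _,
      by have := min_le_right (1 / 8 : ℝ) (δ / 16); linarith⟩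
  obtain ⟨ε, hε0, hεδ, hε1⟩ : ∃ ε : ℝ, 0 < ε ∧ ε ≤ δ / 16 ∧ ε ≤ 1 :=
    ⟨min (δ / 16) 1, lt_min (by positivity) one_pos, min_le_left _ _, min_le_right _ _⟩
  -- the lower bound of |sin| away from the zeros
  obtain ⟨σ, hσ0, hσ⟩ : ∃ σ : ℝ, 0 < σ ∧
      ∀ y ∈ Set.Icc t (1 / 2 - t), σ ≤ Real.sin (2 * Real.pi * y) := by
    obtain ⟨y₀, hy₀, hmin⟩ := (isCompact_Icc (a := t) (b := 1 / 2 - t)).exists_isMinOn
      (Set.nonempty_Icc.mpr (by linarith))
      (f := fun y => Real.sin (2 * Real.pi * y)) (by fun_prop)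
    refine ⟨_, Real.sin_pos_of_pos_of_lt_pi ?_ ?_, fun y hy => hmin hy⟩
    · exact mul_pos (by positivity) (lt_of_lt_of_le ht0 hy₀.1)
    · have h1 : y₀ < 1 / 2 := by linarith [hy₀.2]
      nlinarith [Real.pi_pos]
  let f : ℝ → ℝ := fun y => max (-1) (min 1 (Real.sin (2 * Real.pi * y) / σ))
  have hf_abs : ∀ y, |f y| ≤ 1 := fun y =>
    abs_le.mpr ⟨le_max_left _ _, max_le (by norm_num) (min_le_left _ _)⟩
  have hf_half : ∀ y, f (y + 1 / 2) = -f y := by
    intro y
    simp only [f]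
    rw [show 2 * Real.pi * (y + 1 / 2) = 2 * Real.pi * y + Real.pi by ring, Real.sin_add_pi,
      neg_div]
    simp only [max_def, min_def]
    split_ifs <;> linarith
  have hfc : Continuous f := by fun_prop
  let F : C(AddCircle (1 : ℝ), ℂ) :=
    ⟨fun x => ((max (-1) (min 1 ((fourier 1 x).im / σ)) : ℝ) : ℂ), by fun_prop⟩
  have hFf : ∀ y : ℝ, F (y : AddCircle (1 : ℝ)) = (f y : ℂ) := by
    intro y
    show ((max (-1) (min 1 ((fourier 1 (y : AddCircle (1 : ℝ))).im / σ)) : ℝ) : ℂ) = _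
    rw [fourier_eq_cis, Int.cast_one, one_mul, cis_im]
  have hFmem : F ∈ closure
      ((Submodule.span ℂ (Set.range (fourier (T := (1 : ℝ)))) : Set C(AddCircle (1 : ℝ), ℂ))) := by
    rw [← Submodule.topologicalClosure_coe, span_fourier_closure_eq_top]
    exact Submodule.mem_top
  obtain ⟨p, hp, hpd⟩ := Metric.mem_closure_iff.mp hFmem ε hε0
  obtain ⟨l, hl⟩ := Finsupp.mem_span_range_iff_exists_finsupp.mp hp
  let P : ℝ → ℂ := fun y => ∑ n ∈ l.support, l n * cis ((n : ℝ) * y)
  have hP : ∀ y : ℝ, ‖(f y : ℂ) - P y‖ ≤ ε := by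
    intro y
    have h1 := ContinuousMap.dist_apply_le_dist (f := F) (g := p) (y : AddCircle (1 : ℝ))
    rw [dist_eq_norm, hFf] at h1
    have h2 : p (y : AddCircle (1 : ℝ)) = P y := by
      rw [← hl]
      simp only [Finsupp.sum, ContinuousMap.coe_sum, Finset.sum_apply, ContinuousMap.coe_smul,
        Pi.smul_apply, smul_eq_mul, fourier_eq_cis, P]
    rw [h2] at h1
    exact h1.trans hpd.le
  let K : Finset ℕ := (l.support.image Int.natAbs).filter Odd
  let z : ℕ → ℂ := fun k => (l (k : ℤ) + conj (l (-(k : ℤ)))) / 2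
  have hKodd : ∀ k ∈ K, Odd k := fun k hk => (Finset.mem_filter.mp hk).2
  have hKpos : ∀ k ∈ K, 0 < k := fun k hk => (hKodd k hk).pos
  let S' : Finset ℤ := K.image (fun k : ℕ => (k : ℤ)) ∪ K.image (fun k : ℕ => -(k : ℤ))
  have hphi : ∀ y : ℝ, 2 * (∑ k ∈ K, z k * cis ((k : ℝ) * y)).re
      = ((P y - P (y + 1 / 2)) / 2).re := by
    intro y
    have h1 : (P y - P (y + 1 / 2)) / 2
        = ∑ n ∈ l.support.filter Odd, l n * cis ((n : ℝ) * y) := by
      simp only [P, ← Finset.sum_sub_distrib, Finset.sum_filter, Finset.sum_div]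
      refine Finset.sum_congr rfl fun n _ => ?_
      rw [mul_add, cis_add, cis_int_half]
      split_ifs <;> ring
    have h2 : ∑ n ∈ l.support.filter Odd, l n * cis ((n : ℝ) * y)
        = ∑ n ∈ S', l n * cis ((n : ℝ) * y) := by
      refine Finset.sum_subset (fun n hn => ?_) (fun n hn hn' => ?_)
      · obtain ⟨hns, hno⟩ := Finset.mem_filter.mp hn
        have hk : n.natAbs ∈ K :=
          Finset.mem_filter.mpr ⟨Finset.mem_image_of_mem _ hns, Int.natAbs_odd.mpr hno⟩
        rcases Int.natAbs_eq n with h | h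
        · exact Finset.mem_union_left _ (Finset.mem_image.mpr ⟨_, hk, h.symm⟩)
        · exact Finset.mem_union_right _ (Finset.mem_image.mpr ⟨_, hk, h.symm⟩)
      · have hodd : Odd n := by
          rcases Finset.mem_union.mp hn with h | h <;> obtain ⟨k, hk, rfl⟩ := Finset.mem_image.mp h
          · exact (Int.odd_coe_nat k).mpr (hKodd k hk)
          · exact ((Int.odd_coe_nat k).mpr (hKodd k hk)).neg
        have : n ∉ l.support := fun h => hn' (Finset.mem_filter.mpr ⟨h, hodd⟩)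
        rw [Finsupp.notMem_support_iff.mp this, zero_mul]
    have h3 : ∑ n ∈ S', l n * cis ((n : ℝ) * y) = ∑ k ∈ K,
        (l (k : ℤ) * cis ((k : ℝ) * y) + l (-(k : ℤ)) * cis (-((k : ℝ) * y))) := by
      rw [Finset.sum_union, Finset.sum_image (fun a _ b _ h => by exact_mod_cast h),
        Finset.sum_image (fun a _ b _ h => by simpa using h), ← Finset.sum_add_distrib]
      · refine Finset.sum_congr rfl fun k _ => ?_
        push_cast
        rw [neg_mul]
      · rw [Finset.disjoint_left]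
        intro n hn hn'
        obtain ⟨k, hk, rfl⟩ := Finset.mem_image.mp hn
        obtain ⟨j, hj, hjk⟩ := Finset.mem_image.mp hn'
        have := hKpos k hk
        omega
    rw [h1, h2, h3, Complex.re_sum, Complex.re_sum, Finset.mul_sum]
    refine Finset.sum_congr rfl fun k _ => ?_
    rw [← conj_cis]
    simp [z, Complex.mul_re, Complex.add_re, Complex.add_im]
    ring
  have hclose : ∀ y : ℝ, |2 * (∑ k ∈ K, z k * cis ((k : ℝ) * y)).re - f y| ≤ ε := by
    intro y
    rw [hphi]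
    have h1 : ((P y - P (y + 1 / 2)) / 2).re - f y
        = ((P y - (f y : ℂ)) / 2).re + (((f (y + 1 / 2) : ℝ) : ℂ) - P (y + 1 / 2)).re / 2 := by
      simp only [Complex.div_ofNat_re, Complex.sub_re, Complex.ofReal_re, hf_half]
      ring
    rw [h1]
    have h2 : |((P y - (f y : ℂ)) / 2).re| ≤ ε / 2 := by
      refine (Complex.abs_re_le_norm _).trans ?_
      rw [norm_div, norm_sub_rev, Complex.norm_two]
      linarith [hP y]
    have h3 : |(((f (y + 1 / 2) : ℝ) : ℂ) - P (y + 1 / 2)).re / 2| ≤ ε / 2 := by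
      rw [abs_div, abs_two]
      linarith [(Complex.abs_re_le_norm _).trans (hP (y + 1 / 2))]
    linarith [abs_add_le ((P y - (f y : ℂ)) / 2).re
      ((((f (y + 1 / 2) : ℝ) : ℂ) - P (y + 1 / 2)).re / 2)]
  refine ⟨K, z, hKodd, fun y => ?_, ?_⟩
  · have h1 := hclose y
    have h2 := hf_abs y
    have h3 : ε ≤ δ := by linarith
    rw [abs_le] at h1 h2 ⊢
    constructor <;> linarith
  · rw [← integral_phase_sq K hKpos z]
    set φ : ℝ → ℝ := fun y => (2 * (∑ k ∈ K, z k * cis ((k : ℝ) * y)).re) ^ 2 with hφdef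
    have hφc : Continuous φ := by
      simp only [hφdef]
      fun_prop
    have hφi : ∀ a b : ℝ, IntervalIntegrable φ MeasureTheory.volume a b := fun a b =>
      hφc.intervalIntegrable a b
    have hpos : ∀ y, 0 ≤ φ y := fun y => sq_nonneg _
    have hbig : ∀ y, (y ∈ Set.Icc t (1 / 2 - t) ∨ y ∈ Set.Icc (1 / 2 + t) (1 - t)) →
        1 - 2 * ε ≤ φ y := by
      intro y hy
      have hf2 : |f y| = 1 := by
        have hone : ∀ x ∈ Set.Icc t (1 / 2 - t), f x = 1 := by
          intro x hx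
          have h1 : 1 ≤ Real.sin (2 * Real.pi * x) / σ := (one_le_div hσ0).mpr (hσ x hx)
          simp only [f, min_eq_left h1]
          norm_num
        rcases hy with hy | hy
        · rw [hone y hy]; norm_num
        · have hx : y - 1 / 2 ∈ Set.Icc t (1 / 2 - t) :=
            ⟨by linarith [hy.1], by linarith [hy.2]⟩
          have := hf_half (y - 1 / 2)
          rw [sub_add_cancel, hone _ hx] at this
          rw [this]; norm_num
      have h1 := hclose y
      set u := 2 * (∑ k ∈ K, z k * cis ((k : ℝ) * y)).re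
      have h2 : 1 - ε ≤ |u| := by
        have := abs_sub_abs_le_abs_sub (f y) u
        rw [abs_sub_comm] at h1
        linarith
      show 1 - 2 * ε ≤ u ^ 2
      have h3 : (1 - ε) ^ 2 ≤ |u| ^ 2 := pow_le_pow_left₀ (by linarith) h2 2
      rw [sq_abs] at h3
      nlinarith [sq_nonneg ε]
    have e1 : ∫ y in (0 : ℝ)..1, φ y = (∫ y in (0 : ℝ)..t, φ y)
        + (∫ y in t..(1 / 2 - t), φ y) + (∫ y in (1 / 2 - t)..(1 / 2 + t), φ y)
        + (∫ y in (1 / 2 + t)..(1 - t), φ y) + (∫ y in (1 - t)..1, φ y) := by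
      rw [intervalIntegral.integral_add_adjacent_intervals (hφi _ _) (hφi _ _),
        intervalIntegral.integral_add_adjacent_intervals (hφi _ _) (hφi _ _),
        intervalIntegral.integral_add_adjacent_intervals (hφi _ _) (hφi _ _),
        intervalIntegral.integral_add_adjacent_intervals (hφi _ _) (hφi _ _)]
    have e2 : ∀ a b : ℝ, a ≤ b → (∀ y ∈ Set.Icc a b, 1 - 2 * ε ≤ φ y) →
        (b - a) * (1 - 2 * ε) ≤ ∫ y in a..b, φ y := by
      intro a b hab h
      have := intervalIntegral.integral_mono_on hab intervalIntegrable_const (hφi a b) h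
      rw [intervalIntegral.integral_const, smul_eq_mul] at this
      exact this
    have e3 : ∀ a b : ℝ, a ≤ b → 0 ≤ ∫ y in a..b, φ y := fun a b hab =>
      intervalIntegral.integral_nonneg hab fun y _ => hpos y
    have i1 := e3 0 t ht0.le
    have i2 := e2 t (1 / 2 - t) (by linarith) fun y hy => hbig y (Or.inl hy)
    have i3 := e3 (1 / 2 - t) (1 / 2 + t) (by linarith)
    have i4 := e2 (1 / 2 + t) (1 - t) (by linarith) fun y hy => hbig y (Or.inr hy)
    have i5 := e3 (1 - t) 1 (by linarith)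
    show 1 - δ ≤ ∫ y in (0 : ℝ)..1, φ y
    rw [e1]
    nlinarith

end Vale.Agent.P110
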