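import Mathlib

/-!
# Incomplete colouring by moments and pigeonhole
-/

namespace Vale.Agent.P110

open Finset

/-- Fourth root. -/
noncomputable def qr (x : ℝ) : ℝ := √√x

theorem qr_nonneg (x : ℝ) : 0 ≤ qr x := Real.sqrt_nonneg _

theorem qr_pow_four {x : ℝ} (hx : 0 ≤ x) : qr x ^ 4 = x := by
  rw [qr, show 4 = 2 * 2 from rfl, pow_mul, Real.sq_sqrt (Real.sqrt_nonneg _), Real.sq_sqrt hx]

theorem qr_mul {x : ℝ} (hx : 0 ≤ x) (y : ℝ) : qr (x * y) = qr x * qr y := by
  rw [qr, qr, qr, Real.sqrt_mul hx, Real.sqrt_mul (Real.sqrt_nonneg _)]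

theorem qr_mono {x y : ℝ} (h : x ≤ y) : qr x ≤ qr y := Real.sqrt_le_sqrt (Real.sqrt_le_sqrt h)

theorem qr_le {x a : ℝ} (ha : 0 ≤ a) (h : x ≤ a ^ 4) : qr x ≤ a := by
  refine (qr_mono h).trans (le_of_eq ?_)
  rw [qr, show a ^ 4 = (a ^ 2) ^ 2 by ring, Real.sqrt_sq (sq_nonneg _), Real.sqrt_sq ha]

theorem one_le_qr {x : ℝ} (h : 1 ≤ x) : 1 ≤ qr x := Real.one_le_sqrt.2 (Real.one_le_sqrt.2 h)

/-- The sign of a bit. -/
def sgB (b : Bool) : ℝ := if b then 1 else -1

/-- The signed sum of a row. -/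
def rowSum {n : ℕ} (a : Fin n → ℝ) (x : Fin n → Bool) : ℝ := ∑ k, sgB (x k) * a k

theorem sum_cons_bool {n : ℕ} (F : (Fin (n + 1) → Bool) → ℝ) :
    ∑ x, F x = ∑ y : Fin n → Bool, (F (Fin.cons true y) + F (Fin.cons false y)) := by
  rw [← (Fin.consEquiv fun _ : Fin (n + 1) => Bool).sum_comp, Fintype.sum_prod_type, sum_comm]
  simp [Fin.consEquiv, add_comm]

theorem rowSum_cons {n : ℕ} (a : Fin (n + 1) → ℝ) (b : Bool) (y : Fin n → Bool) :
    rowSum a (Fin.cons b y) = sgB b * a 0 + rowSum (Fin.tail a) y := by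
  simp [rowSum, Fin.sum_univ_succ, Fin.tail]

theorem rowSum_moments : ∀ {n : ℕ} (a : Fin n → ℝ), (∀ k, |a k| ≤ 1) →
    ∑ x, rowSum a x ^ 2 ≤ 2 ^ n * n ∧ ∑ x, rowSum a x ^ 4 ≤ 2 ^ n * (3 * n ^ 2) ∧
      ∑ x, rowSum a x ^ 6 ≤ 2 ^ n * (15 * n ^ 3) ∧ ∑ x, rowSum a x ^ 8 ≤ 2 ^ n * (105 * n ^ 4) := by
  intro n
  induction n with
  | zero => intro a _; simp [rowSum]
  | succ n ih =>
    intro a ha
    obtain ⟨h2, h4, h6, h8⟩ := ih (Fin.tail a) fun k => ha _
    have hc : (∑ _y : Fin n → Bool, (1 : ℝ)) = 2 ^ n := by simp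
    have hu : a 0 ^ 2 ≤ 1 := (sq_le_one_iff_abs_le_one (a := a 0)).2 (ha 0)
    have hu4 : (a 0 ^ 2) ^ 2 ≤ 1 := pow_le_one₀ (sq_nonneg _) hu
    have hu6 : (a 0 ^ 2) ^ 3 ≤ 1 := pow_le_one₀ (sq_nonneg _) hu
    have hu8 : (a 0 ^ 2) ^ 4 ≤ 1 := pow_le_one₀ (sq_nonneg _) hu
    have hn : (0 : ℝ) ≤ n := Nat.cast_nonneg n
    have hp : (0 : ℝ) < 2 ^ n := by positivity
    have hs2 : 0 ≤ ∑ y, rowSum (Fin.tail a) y ^ 2 := sum_nonneg fun y _ => sq_nonneg _
    have hs4 : 0 ≤ ∑ y, rowSum (Fin.tail a) y ^ 4 :=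
      sum_nonneg fun y _ => (Even.pow_nonneg (by decide) _)
    have hs6 : 0 ≤ ∑ y, rowSum (Fin.tail a) y ^ 6 :=
      sum_nonneg fun y _ => (Even.pow_nonneg (by decide) _)
    simp only [sum_cons_bool, rowSum_cons, sgB, if_true, Bool.false_eq_true, if_false]
    set u := a 0
    refine ⟨?_, ?_, ?_, ?_⟩
    · rw [sum_congr rfl fun y _ => show _ =
        2 * rowSum (Fin.tail a) y ^ 2 + 2 * u ^ 2 * (1 : ℝ) by ring]
      simp only [sum_add_distrib, ← mul_sum, hc]
      push_cast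
      rw [pow_succ (2 : ℝ) n]
      nlinarith
    · rw [sum_congr rfl fun y _ => show _ = 2 * rowSum (Fin.tail a) y ^ 4
        + 12 * u ^ 2 * rowSum (Fin.tail a) y ^ 2 + 2 * (u ^ 2) ^ 2 * (1 : ℝ) by ring]
      simp only [sum_add_distrib, ← mul_sum, hc]
      push_cast
      rw [pow_succ (2 : ℝ) n]
      nlinarith [mul_le_mul_of_nonneg_right hu hs2, mul_le_mul_of_nonneg_right hu4 hp.le,
        mul_nonneg hp.le hn]
    · rw [sum_congr rfl fun y _ => show _ = 2 * rowSum (Fin.tail a) y ^ 6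
        + 30 * u ^ 2 * rowSum (Fin.tail a) y ^ 4 + 30 * (u ^ 2) ^ 2 * rowSum (Fin.tail a) y ^ 2
        + 2 * (u ^ 2) ^ 3 * (1 : ℝ) by ring]
      simp only [sum_add_distrib, ← mul_sum, hc]
      push_cast
      rw [pow_succ (2 : ℝ) n]
      nlinarith [mul_le_mul_of_nonneg_right hu hs4, mul_le_mul_of_nonneg_right hu4 hs2,
        mul_le_mul_of_nonneg_right hu6 hp.le, mul_nonneg hp.le hn, mul_nonneg hp.le (sq_nonneg (n : ℝ))]
    · rw [sum_congr rfl fun y _ => show _ = 2 * rowSum (Fin.tail a) y ^ 8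
        + 56 * u ^ 2 * rowSum (Fin.tail a) y ^ 6 + 140 * (u ^ 2) ^ 2 * rowSum (Fin.tail a) y ^ 4
        + 56 * (u ^ 2) ^ 3 * rowSum (Fin.tail a) y ^ 2
        + 2 * (u ^ 2) ^ 4 * (1 : ℝ) by ring]
      simp only [sum_add_distrib, ← mul_sum, hc]
      push_cast
      rw [pow_succ (2 : ℝ) n]
      nlinarith [mul_le_mul_of_nonneg_right hu hs6, mul_le_mul_of_nonneg_right hu4 hs4,
        mul_le_mul_of_nonneg_right hu6 hs2, mul_le_mul_of_nonneg_right hu8 hp.le,
        mul_nonneg hp.le hn, mul_nonneg hp.le (sq_nonneg (n : ℝ)),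
        mul_nonneg hp.le (pow_nonneg hn 3)]

theorem abs_round_le (u : ℝ) : |((round u : ℤ) : ℝ)| ≤ (2 * u) ^ 8 := by
  by_cases h : round u = 0
  · rw [h, Int.cast_zero, abs_zero]
    exact Even.pow_nonneg (by decide) _
  · have h1 : (1 : ℝ) ≤ |((round u : ℤ) : ℝ)| := by exact_mod_cast Int.one_le_abs h
    have h2 := abs_sub_round u
    have h3 : |((round u : ℤ) : ℝ)| ≤ |u| + |u - round u| := by
      have := abs_sub u (u - round u)
      simpa using this
    have h4 : (1 : ℝ) ≤ 2 * |u| := by linarith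
    calc |((round u : ℤ) : ℝ)| ≤ 2 * |u| := by linarith
      _ ≤ (2 * |u|) ^ 8 := le_self_pow₀ h4 (by norm_num)
      _ = (2 * u) ^ 8 := by rw [mul_pow, mul_pow, Even.pow_abs (by decide)]

theorem card_weight {ι : Type*} [Fintype ι] (B : Finset (ι → ℤ)) {s K : ℝ} (hs : 0 ≤ s)
    (ht : Real.exp (-s) ≤ 1 / 2) (hK : ∀ b ∈ B, ∑ j, |(b j : ℝ)| ≤ K) :
    (B.card : ℝ) ≤ Real.exp (s * K + 4 * Real.exp (-s) * Fintype.card ι) := by
  classical
  set t := Real.exp (-s) with ht'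
  have ht0 : 0 < t := Real.exp_pos _
  obtain ⟨R, hR⟩ : ∃ R : ℕ, K ≤ R := exists_nat_ge K
  let I : Finset ℤ := Icc (-(R : ℤ)) R
  have hsub : B ⊆ Fintype.piFinset fun _ : ι => I := by
    intro b hb
    refine Fintype.mem_piFinset.2 fun j => ?_
    have h1 : |(b j : ℝ)| ≤ R := ((single_le_sum (fun i _ => abs_nonneg (b i : ℝ))
      (mem_univ j)).trans (hK b hb)).trans hR
    rw [← Int.cast_abs, ← Int.cast_natCast, Int.cast_le, abs_le] at h1
    exact mem_Icc.2 h1
  have hI : ∑ v ∈ I, t ^ v.natAbs ≤ 1 + 4 * t := by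
    have : ∀ S : ℕ, ∑ v ∈ Icc (-(S : ℤ)) S, t ^ v.natAbs =
        1 + 2 * ∑ i ∈ range S, t ^ (i + 1) := by
      intro S
      induction S with
      | zero => simp
      | succ S ih =>
        have e : Icc (-((S + 1 : ℕ) : ℤ)) ((S + 1 : ℕ) : ℤ) =
            insert (-((S + 1 : ℕ) : ℤ)) (insert ((S + 1 : ℕ) : ℤ) (Icc (-(S : ℤ)) S)) := by
          ext v; simp only [mem_Icc, mem_insert]; omega
        rw [e, sum_insert (by simp only [mem_Icc, mem_insert]; omega),
          sum_insert (by simp only [mem_Icc]; omega), ih, sum_range_succ]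
        simp only [Int.natAbs_neg, Int.natAbs_natCast]
        ring
    rw [this]
    have hg : ∀ S : ℕ, ∑ i ∈ range S, t ^ (i + 1) + 2 * t ^ (S + 1) ≤ 2 * t := by
      intro S
      induction S with
      | zero => simp
      | succ S ih =>
        rw [sum_range_succ, pow_succ t (S + 1)]
        nlinarith [pow_pos ht0 (S + 1)]
    have := hg R
    nlinarith [pow_pos ht0 (R + 1)]
  have hlow : ∀ b ∈ B, Real.exp (-(s * K)) ≤ ∏ j, t ^ (b j).natAbs := by
    intro b hb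
    rw [prod_pow_eq_pow_sum, ht', ← Real.exp_nat_mul, Real.exp_le_exp]
    have h := hK b hb
    push_cast [Nat.cast_natAbs]
    nlinarith
  have h1 : (B.card : ℝ) * Real.exp (-(s * K)) ≤ (1 + 4 * t) ^ Fintype.card ι := by
    calc (B.card : ℝ) * Real.exp (-(s * K)) ≤ ∑ b ∈ B, ∏ j, t ^ (b j).natAbs := by
          rw [← nsmul_eq_mul]; exact card_nsmul_le_sum _ _ _ hlow
      _ ≤ ∑ b ∈ Fintype.piFinset fun _ : ι => I, ∏ j, t ^ (b j).natAbs :=
          sum_le_sum_of_subset_of_nonneg hsub fun _ _ _ => prod_nonneg fun _ _ => by positivity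
      _ = ∏ _j : ι, ∑ v ∈ I, t ^ v.natAbs :=
          (prod_univ_sum (fun _ : ι => I) fun _ v => t ^ v.natAbs).symm
      _ ≤ _ := by
          rw [prod_const, card_univ]
          exact pow_le_pow_left₀ (sum_nonneg fun _ _ => by positivity) hI _
  rw [Real.exp_add]
  calc (B.card : ℝ) = B.card * Real.exp (-(s * K)) * Real.exp (s * K) := by
        rw [mul_assoc, ← Real.exp_add]; simp
    _ ≤ (1 + 4 * t) ^ Fintype.card ι * Real.exp (s * K) :=
        mul_le_mul_of_nonneg_right h1 (Real.exp_pos _).le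
    _ ≤ Real.exp (4 * t * Fintype.card ι) * Real.exp (s * K) := by
        refine mul_le_mul_of_nonneg_right ?_ (Real.exp_pos _).le
        rw [mul_comm (4 * t), Real.exp_nat_mul]
        exact pow_le_pow_left₀ (by positivity) (by linarith [Real.add_one_le_exp (4 * t)]) _
    _ = _ := mul_comm _ _

theorem card_ball {n : ℕ} (x : Fin n → Bool) (G : Finset (Fin n → Bool))
    (hG : ∀ y ∈ G, 10 * (univ.filter fun k => y k ≠ x k).card ≤ n) :
    (G.card : ℝ) ^ 10 ≤ (26 : ℝ) ^ n := by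
  classical
  set d := n / 10
  have h1 : (G.card : ℝ) * (1 / 9 : ℝ) ^ d ≤ (10 / 9 : ℝ) ^ n := by
    calc (G.card : ℝ) * (1 / 9 : ℝ) ^ d
        ≤ ∑ y ∈ G, ∏ k, if y k ≠ x k then (1 / 9 : ℝ) else 1 := by
          rw [← nsmul_eq_mul]
          refine card_nsmul_le_sum _ _ _ fun y hy => ?_
          rw [← prod_filter, prod_const]
          exact pow_le_pow_of_le_one (by norm_num) (by norm_num)
            ((Nat.le_div_iff_mul_le (by norm_num)).2 (by linarith [hG y hy]))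
      _ ≤ ∑ y : Fin n → Bool, ∏ k, if y k ≠ x k then (1 / 9 : ℝ) else 1 :=
          sum_le_sum_of_subset_of_nonneg (subset_univ _) fun _ _ _ =>
            prod_nonneg fun _ _ => by split_ifs <;> norm_num
      _ = ∏ k, ∑ b : Bool, if b ≠ x k then (1 / 9 : ℝ) else 1 := by
          rw [prod_univ_sum, Fintype.piFinset_univ]
      _ = (10 / 9 : ℝ) ^ n := by
          rw [prod_congr rfl fun k _ => show _ = (10 / 9 : ℝ) by cases x k <;> simp <;> norm_num]
          rw [prod_const, card_univ, Fintype.card_fin]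
  have h2 : (9 : ℝ) ^ (10 * d) ≤ 9 ^ n := pow_le_pow_right₀ (by norm_num) (Nat.mul_div_le n 10)
  have h3 : (G.card : ℝ) ≤ (10 / 9 : ℝ) ^ n * 9 ^ d := by
    rwa [one_div, inv_pow, ← div_eq_mul_inv, div_le_iff₀ (by positivity)] at h1
  calc (G.card : ℝ) ^ 10 ≤ ((10 / 9 : ℝ) ^ n * 9 ^ d) ^ 10 :=
        pow_le_pow_left₀ (by positivity) h3 _
    _ = ((10 / 9 : ℝ) ^ 10) ^ n * 9 ^ (10 * d) := by
        rw [mul_pow, ← pow_mul, ← pow_mul, ← pow_mul, mul_comm n, mul_comm d]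
    _ ≤ ((10 / 9 : ℝ) ^ 10) ^ n * 9 ^ n := mul_le_mul_of_nonneg_left h2 (by positivity)
    _ = ((10 / 9 : ℝ) ^ 10 * 9) ^ n := (mul_pow _ _ _).symm
    _ ≤ 26 ^ n := pow_le_pow_left₀ (by positivity) (by norm_num) _

/-- An incomplete colouring: a tenth of the points are coloured, every row sum is small. -/
theorem partial_colouring_fin {ι : Type*} [Fintype ι] {n N : ℕ} (hn : 3 ≤ n) (hnN : n ≤ N)
    (hm : Fintype.card ι ≤ 8 * N) (A : ι → Fin n → ℝ) (hA : ∀ j k, |A j k| ≤ 1) :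
    ∃ χ : Fin n → ℝ, (∀ k, χ k = 0 ∨ χ k = 1 ∨ χ k = -1) ∧
      n < 10 * (univ.filter fun k => χ k ≠ 0).card ∧
      ∀ j, |∑ k, χ k * A j k| ≤ 10 * qr ((n : ℝ) * N) := by
  classical
  have hn' : (3 : ℝ) ≤ n := by exact_mod_cast hn
  have hN' : (n : ℝ) ≤ N := by exact_mod_cast hnN
  have hm' : (Fintype.card ι : ℝ) ≤ 8 * N := by exact_mod_cast hm
  set Δ : ℝ := 20 * qr ((n : ℝ) * N) with hΔ
  have hnN0 : (0 : ℝ) < (n : ℝ) * N := by nlinarith
  have hΔ8 : Δ ^ 8 = 20 ^ 8 * ((n : ℝ) * N) ^ 2 := by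
    rw [hΔ, mul_pow, show qr ((n : ℝ) * N) ^ 8 = (qr ((n : ℝ) * N) ^ 4) ^ 2 by ring,
      qr_pow_four hnN0.le]
  have hΔ0 : 0 < Δ := mul_pos (by norm_num) (Real.sqrt_pos.2 (Real.sqrt_pos.2 hnN0))
  let bk : (Fin n → Bool) → ι → ℤ := fun x j => round (rowSum (A j) x / Δ)
  let wt : (Fin n → Bool) → ℝ := fun x => ∑ j, |(bk x j : ℝ)|
  set m : ℝ := (Fintype.card ι : ℝ)
  set T : ℝ := m * (256 * (105 * (n : ℝ) ^ 4) / Δ ^ 8)
  have htot : ∑ x, wt x ≤ 2 ^ n * T := by
    simp only [wt]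
    rw [sum_comm]
    refine (sum_le_sum fun j _ => show _ ≤ 2 ^ n * (256 * (105 * (n : ℝ) ^ 4) / Δ ^ 8) from ?_).trans ?_
    · calc ∑ x, |(bk x j : ℝ)| ≤ ∑ x, (2 * (rowSum (A j) x / Δ)) ^ 8 :=
            sum_le_sum fun x _ => abs_round_le _
        _ = 256 / Δ ^ 8 * ∑ x, rowSum (A j) x ^ 8 := by
            rw [mul_sum]; exact sum_congr rfl fun x _ => by ring
        _ ≤ 256 / Δ ^ 8 * (2 ^ n * (105 * (n : ℝ) ^ 4)) :=
            mul_le_mul_of_nonneg_left (rowSum_moments _ (hA j)).2.2.2 (by positivity)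
        _ = _ := by ring
    · simp only [sum_const, card_univ, nsmul_eq_mul, T, m]
      exact le_of_eq (by ring)
  let K := 2 * T
  let G : Finset (Fin n → Bool) := univ.filter fun x => wt x ≤ K
  have hT0 : 0 ≤ T := by positivity
  have hG : (2 : ℝ) ^ n ≤ 2 * (G.card : ℝ) := by
    rcases hT0.eq_or_lt with hT | hT
    · have : G = univ := by
        refine filter_true_of_mem fun x _ => ?_
        have h := single_le_sum (f := wt) (fun y _ => sum_nonneg fun j _ => abs_nonneg _)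
          (mem_univ x)
        linarith [mul_zero ((2 : ℝ) ^ n), hT ▸ htot]
      rw [this]
      simp only [card_univ, Fintype.card_fun, Fintype.card_bool, Fintype.card_fin]
      push_cast
      nlinarith [pow_pos (two_pos : (0 : ℝ) < 2) n]
    · have h1 : ((Gᶜ).card : ℝ) * K ≤ ∑ x, wt x := by
        rw [← nsmul_eq_mul]
        refine (card_nsmul_le_sum _ _ _ fun x hx => ?_).trans (sum_le_sum_of_subset_of_nonneg
          (subset_univ _) fun y _ _ => sum_nonneg fun j _ => abs_nonneg _)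
        simp only [G, mem_compl, mem_filter, mem_univ, true_and, not_le] at hx
        exact hx.le
      have h2 : ((Gᶜ).card : ℝ) = 2 ^ n - (G.card : ℝ) := by
        rw [card_compl, Nat.cast_sub (card_le_univ _)]
        simp
      simp only [K, h2] at h1
      nlinarith
  set s : ℝ := Real.log (640 * N / n)
  have hq : (640 : ℝ) ≤ 640 * N / n := by rw [le_div_iff₀ (by linarith)]; linarith
  have hs : 0 ≤ s := Real.log_nonneg (by linarith)
  have hexp : Real.exp (-s) = n / (640 * N) := by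
    rw [Real.exp_neg, Real.exp_log (by linarith), inv_div]
  have ht : Real.exp (-s) ≤ 1 / 2 := by
    rw [hexp, div_le_iff₀ (by linarith)]; linarith
  have hB := card_weight (G.image bk) hs ht (K := K) fun b hb => by
    obtain ⟨x, hx, rfl⟩ := mem_image.1 hb
    exact (mem_filter.1 hx).2
  have hexpo : s * K + 4 * Real.exp (-s) * m ≤ (n : ℝ) / 10 := by
    have h1 : s ≤ 640 * N / n := Real.log_le_self (by linarith)
    have h2 : K ≤ 16 * N * (256 * (105 * (n : ℝ) ^ 4) / Δ ^ 8) := by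
      simp only [K, T]
      nlinarith [show 0 ≤ 256 * (105 * (n : ℝ) ^ 4) / Δ ^ 8 by positivity]
    calc s * K + 4 * Real.exp (-s) * m
        ≤ 640 * N / n * (16 * N * (256 * (105 * (n : ℝ) ^ 4) / Δ ^ 8)) +
          4 * (n / (640 * N)) * (8 * N) := by
          rw [hexp]
          gcongr
      _ = n * (640 * 16 * 256 * 105 / 20 ^ 8 + 4 * 8 / 640) := by
          rw [hΔ8]
          field_simp [show (N : ℝ) ≠ 0 by linarith, show (n : ℝ) ≠ 0 by linarith]
      _ ≤ n * (1 / 10) := mul_le_mul_of_nonneg_left (by norm_num) (by linarith)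
      _ = n / 10 := by ring
  by_contra hcon
  push Not at hcon
  have hfib : ∀ b ∈ G.image bk, ((G.filter fun x => bk x = b).card : ℝ) ^ 10 ≤ (26 : ℝ) ^ n := by
    intro b hb
    obtain ⟨x, hx, hxb⟩ := mem_image.1 hb
    refine card_ball x _ fun y hy => ?_
    have hyb := (mem_filter.1 hy).2
    by_contra hbig
    let χ : Fin n → ℝ := fun k => (sgB (y k) - sgB (x k)) / 2
    have hsupp : (univ.filter fun k => χ k ≠ 0) = univ.filter fun k => y k ≠ x k := by
      refine filter_congr fun k _ => ?_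
      rcases hxk : x k with _ | _ <;> rcases hyk : y k with _ | _ <;>
        simp [χ, sgB, hxk, hyk] <;> norm_num
    obtain ⟨j, hj⟩ := hcon χ (fun k => by
      rcases hxk : x k with _ | _ <;> rcases hyk : y k with _ | _ <;>
        simp [χ, sgB, hxk, hyk] <;> norm_num) (by rw [hsupp]; omega)
    have e : ∑ k, χ k * A j k = (rowSum (A j) y - rowSum (A j) x) / 2 := by
      simp only [rowSum, ← sum_sub_distrib, sum_div, χ]
      exact sum_congr rfl fun k _ => by ring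
    have e2 : bk y j = bk x j := by rw [hyb, hxb]
    have h1 : |rowSum (A j) y / Δ - rowSum (A j) x / Δ| ≤ 1 := by
      have a1 := abs_sub_round (rowSum (A j) y / Δ)
      have a2 := abs_sub_round (rowSum (A j) x / Δ)
      simp only [bk] at e2
      rw [e2] at a1
      rw [abs_le] at *
      constructor <;> linarith
    rw [← sub_div, abs_div, abs_of_pos hΔ0, div_le_one hΔ0] at h1
    rw [e, abs_div, abs_two] at hj
    linarith
  obtain ⟨b, hb, hbmax⟩ := (G.image bk).exists_max_image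
    (fun b => (G.filter fun x => bk x = b).card) (by
      rw [image_nonempty, ← card_pos]
      exact_mod_cast (show (0 : ℝ) < G.card by nlinarith [pow_pos (two_pos : (0 : ℝ) < 2) n]))
  have hcard : (G.card : ℝ) ≤ ((G.image bk).card : ℝ) * (G.filter fun x => bk x = b).card := by
    rw [card_eq_sum_card_image bk G, Nat.cast_sum]
    refine (sum_le_card_nsmul _ _ ((G.filter fun x => bk x = b).card : ℝ) fun c hc => ?_).trans
      (le_of_eq (nsmul_eq_mul _ _))
    exact Nat.cast_le.2 (hbmax c hc)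
  have h10 : ((2 : ℝ) ^ n) ^ 10 ≤ 2 ^ 10 * (Real.exp ((n : ℝ) / 10) ^ 10 * 26 ^ n) := by
    calc ((2 : ℝ) ^ n) ^ 10 ≤ (2 * G.card) ^ 10 := pow_le_pow_left₀ (by positivity) hG _
      _ ≤ (2 * (Real.exp ((n : ℝ) / 10) * (G.filter fun x => bk x = b).card)) ^ 10 := by
          gcongr
          exact hcard.trans (mul_le_mul_of_nonneg_right
            (hB.trans (Real.exp_le_exp.2 hexpo)) (Nat.cast_nonneg _))
      _ ≤ _ := by
          rw [mul_pow, mul_pow]
          gcongr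
          exact hfib b hb
  rw [← Real.exp_nat_mul, show ((10 : ℕ) : ℝ) * ((n : ℝ) / 10) = (n : ℝ) * 1 by push_cast; ring,
    Real.exp_nat_mul, ← mul_pow, ← pow_mul, mul_comm n 10, pow_mul] at h10
  have he : Real.exp 1 * 26 ≤ (71 : ℝ) := by nlinarith [Real.exp_one_lt_d9]
  have h71 : ((2 : ℝ) ^ 10) ^ n ≤ 2 ^ 10 * 71 ^ n :=
    h10.trans (mul_le_mul_of_nonneg_left (pow_le_pow_left₀ (by positivity) he _) (by positivity))
  have hge : (14 : ℝ) ^ 3 ≤ 14 ^ n := pow_le_pow_right₀ (by norm_num) hn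
  have h14 : (14 : ℝ) ^ n * 71 ^ n ≤ ((2 : ℝ) ^ 10) ^ n := by
    rw [← mul_pow]
    exact pow_le_pow_left₀ (by norm_num) (by norm_num) _
  nlinarith [pow_pos (show (0 : ℝ) < 71 by norm_num) n]

end Vale.Agent.P110
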