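import Mathlib

/-!
# A trigonometric polynomial is bounded by three times its largest sample

The samples are taken at the `4 N`-th roots of unity; the kernel is of de la Vallée Poussin type.
-/

namespace Vale.Agent.P110

open Finset

/-- The primitive `M`-th root of unity used for sampling. -/
noncomputable def rootW (M : ℕ) : ℂ := Complex.exp (2 * Real.pi * Complex.I / M)

theorem isPrimitiveRoot_rootW {M : ℕ} (hM : M ≠ 0) : IsPrimitiveRoot (rootW M) M :=
  Complex.isPrimitiveRoot_exp M hM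

theorem norm_rootW {M : ℕ} (hM : M ≠ 0) : ‖rootW M‖ = 1 :=
  Complex.norm_eq_one_of_pow_eq_one (isPrimitiveRoot_rootW hM).pow_eq_one hM

theorem sum_rootW_pow {M a b : ℕ} (hM : M ≠ 0) (ha : a < M) (hb : b < M) :
    ∑ j ∈ range M, (rootW M ^ b) ^ j * (starRingEnd ℂ) ((rootW M ^ a) ^ j) =
      if a = b then (M : ℂ) else 0 := by
  have hw := isPrimitiveRoot_rootW hM
  have hne : rootW M ≠ 0 := hw.ne_zero hM
  have hc : ∀ j : ℕ, (starRingEnd ℂ) ((rootW M ^ a) ^ j) = ((rootW M ^ a) ^ j)⁻¹ := fun j =>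
    (Complex.inv_eq_conj (by simp [norm_rootW hM])).symm
  have : ∀ j : ℕ, (rootW M ^ b) ^ j * (starRingEnd ℂ) ((rootW M ^ a) ^ j) =
      (rootW M ^ b / rootW M ^ a) ^ j := fun j => by rw [hc, div_pow, div_eq_mul_inv]
  simp only [this]
  split_ifs with h
  · subst h
    simp [hne]
  · have h1 : rootW M ^ b / rootW M ^ a ≠ 1 := by
      rw [ne_eq, div_eq_one_iff_eq (pow_ne_zero _ hne)]
      exact fun e => h (hw.pow_inj hb ha e).symm
    have h2 : (rootW M ^ b / rootW M ^ a) ^ M = 1 := by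
      rw [div_pow, ← pow_mul, ← pow_mul, mul_comm b, mul_comm a, pow_mul, pow_mul, hw.pow_eq_one]
      simp
    rw [geom_sum_eq h1, h2]
    simp

/-- `|∑_{a < L} (z conj(w^j))^a|^2` as a real number. -/
noncomputable def kerL (M L : ℕ) (z : ℂ) (j : ℕ) : ℝ :=
  ‖∑ a ∈ range L, (z * (starRingEnd ℂ) (rootW M ^ j)) ^ a‖ ^ 2

theorem kerL_nonneg (M L : ℕ) (z : ℂ) (j : ℕ) : 0 ≤ kerL M L z j := sq_nonneg _

theorem sum_mul_kerL {N L K : ℕ} (hN : 1 ≤ N) (hL : L ≤ 2 * N) (hK : K ≤ N) (c : ℕ → ℂ) {z : ℂ}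
    (hz : ‖z‖ = 1) :
    ∑ j ∈ range (4 * N), (∑ k ∈ range K, c k * (rootW (4 * N) ^ j) ^ k) * (kerL (4 * N) L z j : ℂ) =
      (4 * N : ℕ) * ∑ k ∈ range K, c k * ((L - k : ℕ) : ℂ) * z ^ k := by
  set M := 4 * N with hMdef
  have hM : M ≠ 0 := by omega
  set w := rootW M
  have hzz : z * (starRingEnd ℂ) z = 1 := by
    rw [Complex.mul_conj']; simp [hz]
  have hker : ∀ j, (kerL M L z j : ℂ) = ∑ a ∈ range L, ∑ b ∈ range L,
      (z ^ a * (starRingEnd ℂ) z ^ b) * ((starRingEnd ℂ) ((w ^ a) ^ j) * (w ^ b) ^ j) := by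
    intro j
    rw [kerL, Complex.ofReal_pow, ← Complex.mul_conj', map_sum, sum_mul_sum]
    refine sum_congr rfl fun a _ => sum_congr rfl fun b _ => ?_
    simp only [map_pow, map_mul, Complex.conj_conj, mul_pow, ← pow_mul]
    ring
  calc ∑ j ∈ range M, (∑ k ∈ range K, c k * (w ^ j) ^ k) * (kerL M L z j : ℂ)
      = ∑ k ∈ range K, ∑ b ∈ range L, ∑ a ∈ range L, c k * (z ^ a * (starRingEnd ℂ) z ^ b) *
          ∑ j ∈ range M, (w ^ (k + b)) ^ j * (starRingEnd ℂ) ((w ^ a) ^ j) := by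
        simp only [hker, sum_mul, mul_sum]
        conv_rhs =>
          rw [sum_congr rfl fun k _ => sum_comm]
          rw [sum_comm]
        rw [sum_comm]
        refine sum_congr rfl fun a _ => ?_
        rw [sum_comm]
        conv_rhs => rw [sum_comm]
        refine sum_congr rfl fun b _ => ?_
        rw [sum_comm]
        refine sum_congr rfl fun k _ => sum_congr rfl fun j _ => ?_
        rw [← pow_mul w, mul_comm j k, pow_mul, pow_add, mul_pow]
        ring
    _ = ∑ k ∈ range K, ∑ b ∈ range L, if k + b < L then c k * z ^ k * (M : ℂ) else 0 := by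
        refine sum_congr rfl fun k hk => sum_congr rfl fun b hb => ?_
        rw [mem_range] at hk hb
        rw [sum_congr rfl fun a ha => show _ = if a = k + b then
          c k * z ^ k * (M : ℂ) else 0 from ?_]
        · rw [sum_ite_eq']
          simp only [mem_range]
        · rw [mem_range] at ha
          rw [sum_rootW_pow hM (by omega) (by omega)]
          split_ifs with h
          · subst h
            rw [pow_add, mul_assoc (z ^ k), ← mul_pow, hzz, one_pow, mul_one]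
          · rw [mul_zero]
    _ = (M : ℕ) * ∑ k ∈ range K, c k * ((L - k : ℕ) : ℂ) * z ^ k := by
        rw [mul_sum]
        refine sum_congr rfl fun k _ => ?_
        rw [← sum_filter, sum_const, show (range L).filter (fun b => k + b < L) = range (L - k) by
          ext b; simp only [mem_filter, mem_range]; omega, card_range, nsmul_eq_mul]
        ring

theorem sum_kerL {N L : ℕ} (hN : 1 ≤ N) (hL : L ≤ 2 * N) {z : ℂ} (hz : ‖z‖ = 1) :
    ∑ j ∈ range (4 * N), kerL (4 * N) L z j = (4 * N : ℕ) * L := by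
  have h := sum_mul_kerL hN hL (K := 1) hN (fun _ => 1) hz
  simp only [sum_range_one, pow_zero, mul_one, one_mul, Nat.sub_zero] at h
  exact_mod_cast h

/-- The sampling inequality. -/
theorem norm_le_three_mul_sample {N : ℕ} (c : ℕ → ℂ) {B : ℝ}
    (hB : ∀ j < 4 * N, ‖∑ k ∈ range N, c k * (rootW (4 * N) ^ j) ^ k‖ ≤ B) (hB0 : 0 ≤ B)
    {z : ℂ} (hz : ‖z‖ = 1) : ‖∑ k ∈ range N, c k * z ^ k‖ ≤ 3 * B := by
  rcases Nat.eq_zero_or_pos N with rfl | hN
  · simpa using by linarith
  set P : ℕ → ℂ := fun j => ∑ k ∈ range N, c k * (rootW (4 * N) ^ j) ^ k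
  have h1 := sum_mul_kerL hN (L := 2 * N) le_rfl le_rfl c hz
  have h2 := sum_mul_kerL hN (L := N) (by omega) le_rfl c hz
  have key : ∑ j ∈ range (4 * N), P j * ((kerL (4 * N) (2 * N) z j - kerL (4 * N) N z j : ℝ) : ℂ) =
      ((4 * N : ℕ) * (N : ℕ) : ℂ) * ∑ k ∈ range N, c k * z ^ k := by
    simp only [P, Complex.ofReal_sub, mul_sub, sum_sub_distrib, h1, h2]
    rw [mul_assoc, mul_sum (a := (N : ℂ)), ← mul_sub, ← sum_sub_distrib]
    congr 1
    refine sum_congr rfl fun k hk => ?_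
    rw [mem_range] at hk
    rw [← sub_mul, ← mul_sub, Nat.cast_sub (by omega : k ≤ 2 * N), Nat.cast_sub (by omega : k ≤ N)]
    push_cast
    ring
  have hbound : ‖∑ j ∈ range (4 * N),
      P j * ((kerL (4 * N) (2 * N) z j - kerL (4 * N) N z j : ℝ) : ℂ)‖ ≤
      B * ((4 * N : ℕ) * (2 * N : ℕ) + (4 * N : ℕ) * (N : ℕ)) := by
    refine (norm_sum_le _ _).trans ?_
    rw [← sum_kerL hN le_rfl hz, ← sum_kerL hN (by omega : N ≤ 2 * N) hz, ← sum_add_distrib,
      mul_sum]
    refine sum_le_sum fun j hj => ?_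
    rw [norm_mul, Complex.norm_real]
    refine mul_le_mul (hB j (mem_range.1 hj)) ?_ (norm_nonneg _) hB0
    refine (norm_sub_le _ _).trans ?_
    simp [abs_of_nonneg (kerL_nonneg _ _ _ _)]
  rw [key, norm_mul, norm_mul, Complex.norm_natCast, Complex.norm_natCast] at hbound
  have hN' : (0 : ℝ) < N := by exact_mod_cast hN
  push_cast at hbound
  nlinarith [mul_pos hN' hN']

end Vale.Agent.P110
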