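import Vale.Agent.P110.Basic
import Vale.Agent.P110.RoundSampling
import Vale.Agent.P110.RoundColouring

/-!
# P110, module F: rounding a vector which is mostly near `±1` to signs
-/

namespace Vale.Agent.P110

open Finset

theorem partial_colouring_set {ι : Type*} [Fintype ι] {N : ℕ} (S : Finset ℕ) (h3 : 3 ≤ S.card)
    (hS : S.card ≤ N) (hm : Fintype.card ι ≤ 8 * N) (A : ι → ℕ → ℝ) (hA : ∀ j k, |A j k| ≤ 1) :
    ∃ T, T ⊆ S ∧ S.card < 10 * T.card ∧ ∃ χ : ℕ → ℝ, (∀ k ∈ T, χ k = 1 ∨ χ k = -1) ∧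
      ∀ j, |∑ k ∈ T, χ k * A j k| ≤ 10 * qr ((S.card : ℝ) * N) := by
  classical
  set e := S.equivFin
  obtain ⟨χ, hv, hc, hb⟩ := partial_colouring_fin h3 hS hm (fun j k => A j (e.symm k : ℕ))
    fun j k => hA _ _
  have inj : Function.Injective fun i : Fin S.card => (e.symm i : ℕ) :=
    Subtype.val_injective.comp e.symm.injective
  have hext : ∀ i : Fin S.card,
      Function.extend (fun i => (e.symm i : ℕ)) χ 0 (e.symm i : ℕ) = χ i :=
    fun i => inj.extend_apply χ 0 i
  refine ⟨(univ.filter fun k => χ k ≠ 0).image fun i => (e.symm i : ℕ), ?_, ?_,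
    Function.extend (fun i => (e.symm i : ℕ)) χ 0, ?_, fun j => ?_⟩
  · intro k hk
    obtain ⟨i, _, rfl⟩ := mem_image.1 hk
    exact (e.symm i).2
  · rw [card_image_of_injective _ inj]
    exact hc
  · intro k hk
    obtain ⟨i, hi, rfl⟩ := mem_image.1 hk
    rw [hext]
    exact (hv i).resolve_left (mem_filter.1 hi).2
  · rw [sum_image fun a _ b _ h => inj h]
    simp only [hext]
    rw [sum_filter_of_ne fun i _ h => left_ne_zero_of_mul h]
    exact hb j

/-- Full colouring of a set with at most `N` points under `8 N` constraints. -/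
theorem colouring_set {ι : Type*} [Fintype ι] {N : ℕ} (hm : Fintype.card ι ≤ 8 * N)
    (A : ι → ℕ → ℝ) (hA : ∀ j k, |A j k| ≤ 1) :
    ∀ (n : ℕ) (S : Finset ℕ), S.card = n → n ≤ N → ∃ χ : ℕ → ℝ,
      (∀ k ∈ S, χ k = 1 ∨ χ k = -1) ∧ ∀ j, |∑ k ∈ S, χ k * A j k| ≤ 400 * qr ((n : ℝ) * N) := by
  classical
  intro n
  induction n using Nat.strong_induction_on with
  | _ n ih =>
    intro S hS hn
    rcases lt_or_ge n 3 with h | h
    · refine ⟨fun _ => 1, fun _ _ => Or.inl rfl, fun j => ?_⟩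
      rcases Nat.eq_zero_or_pos n with rfl | hn0
      · rw [card_eq_zero.1 hS, sum_empty, abs_zero]
        exact mul_nonneg (by norm_num) (qr_nonneg _)
      · have h1 : (1 : ℝ) ≤ (n : ℝ) * N := one_le_mul_of_one_le_of_one_le
          (by exact_mod_cast hn0) (by exact_mod_cast (by omega : 1 ≤ N))
        calc |∑ k ∈ S, (1 : ℝ) * A j k| ≤ ∑ k ∈ S, |(1 : ℝ) * A j k| := abs_sum_le_sum_abs _ _
          _ ≤ S.card • (1 : ℝ) := sum_le_card_nsmul _ _ _ fun k _ => by simpa using hA j k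
          _ ≤ 400 * qr ((n : ℝ) * N) := by
              rw [nsmul_eq_mul, mul_one, hS]
              have : (n : ℝ) ≤ 2 := by exact_mod_cast (by omega : n ≤ 2)
              linarith [one_le_qr h1]
    · subst hS
      obtain ⟨T, hT, hc, χ, hχ, hb⟩ := partial_colouring_set S h hn hm A hA
      have hcard : (S \ T).card = S.card - T.card := card_sdiff_of_subset hT
      have hTle := card_le_card hT
      obtain ⟨χ', hχ', hb'⟩ := ih _ (by omega) (S \ T) hcard (by omega)
      refine ⟨fun k => if k ∈ T then χ k else χ' k, fun k hk => ?_, fun j => ?_⟩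
      · by_cases hk' : k ∈ T
        · simpa [hk'] using hχ k hk'
        · simpa [hk'] using hχ' k (mem_sdiff.2 ⟨hk, hk'⟩)
      · rw [← sum_sdiff hT,
          sum_congr rfl (fun k hk => by rw [if_neg (mem_sdiff.1 hk).2] :
            ∀ k ∈ S \ T, (if k ∈ T then χ k else χ' k) * A j k = χ' k * A j k),
          sum_congr rfl (fun k hk => by rw [if_pos hk] :
            ∀ k ∈ T, (if k ∈ T then χ k else χ' k) * A j k = χ k * A j k)]
        refine (abs_add_le _ _).trans ?_
        have hr : qr ((S.card - T.card : ℕ) * (N : ℝ)) ≤ 975 / 1000 * qr ((S.card : ℝ) * N) := by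
          have h9 : ((S.card - T.card : ℕ) : ℝ) ≤ 9 / 10 * S.card := by
            rw [Nat.cast_sub hTle]
            have : (S.card : ℝ) ≤ 10 * T.card := by exact_mod_cast hc.le
            linarith
          calc qr ((S.card - T.card : ℕ) * (N : ℝ))
              ≤ qr (9 / 10 * ((S.card : ℝ) * N)) := qr_mono (by
                rw [← mul_assoc]; exact mul_le_mul_of_nonneg_right h9 (Nat.cast_nonneg _))
            _ = qr (9 / 10) * qr ((S.card : ℝ) * N) := qr_mul (by norm_num) _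
            _ ≤ _ := mul_le_mul_of_nonneg_right (qr_le (by norm_num) (by norm_num)) (qr_nonneg _)
        linarith [hb j, hb' j]

/-- Colouring of a subset of `range N` with a small polynomial on the circle. -/
theorem colouring_circle {N : ℕ} (S : Finset ℕ) (hS : S ⊆ range N) :
    ∃ χ : ℕ → ℝ, (∀ k ∈ S, χ k = 1 ∨ χ k = -1) ∧ (∀ k, k ∉ S → χ k = 0) ∧
      ∀ z : ℂ, ‖z‖ = 1 →
        ‖∑ k ∈ range N, (χ k : ℂ) * z ^ k‖ ≤ 2400 * qr ((S.card : ℝ) * N) := by
  classical
  rcases Nat.eq_zero_or_pos N with rfl | hN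
  · refine ⟨fun _ => 0, fun k hk => absurd (hS hk) (by simp), fun _ _ => rfl, fun z _ => ?_⟩
    simpa using qr_nonneg _
  set w := rootW (4 * N)
  let A : Fin (4 * N) × Bool → ℕ → ℝ := fun j k =>
    if j.2 then ((w ^ (j.1 : ℕ)) ^ k).re else ((w ^ (j.1 : ℕ)) ^ k).im
  have hw : ‖w‖ = 1 := norm_rootW (by omega)
  have hA : ∀ j k, |A j k| ≤ 1 := fun j k => by
    have : ‖(w ^ (j.1 : ℕ)) ^ k‖ = 1 := by simp [hw]
    simp only [A]
    split_ifs
    · exact (Complex.abs_re_le_norm _).trans this.le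
    · exact (Complex.abs_im_le_norm _).trans this.le
  obtain ⟨χ, hχ, hb⟩ := colouring_set (N := N) (by simp; omega) A hA S.card S rfl
    ((card_le_card hS).trans (card_range N).le)
  refine ⟨fun k => if k ∈ S then χ k else 0, fun k hk => by simpa [hk] using hχ k hk,
    fun k hk => if_neg hk, fun z hz => ?_⟩
  refine (norm_le_three_mul_sample _ (B := 800 * qr ((S.card : ℝ) * N)) (fun j hj => ?_)
    (mul_nonneg (by norm_num) (qr_nonneg _)) hz).trans (le_of_eq (by ring))
  have e : ∑ k ∈ range N, ((if k ∈ S then χ k else 0 : ℝ) : ℂ) * (w ^ j) ^ k =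
      ∑ k ∈ S, (χ k : ℂ) * (w ^ j) ^ k := by
    rw [← sum_subset hS fun k _ hk => by simp [hk]]
    exact sum_congr rfl fun k hk => by rw [if_pos hk]
  rw [e]
  refine (Complex.norm_le_abs_re_add_abs_im _).trans ?_
  have h1 := hb (⟨j, hj⟩, true)
  have h2 := hb (⟨j, hj⟩, false)
  simp only [A, if_true, Bool.false_eq_true, if_false] at h1 h2
  rw [Complex.re_sum, Complex.im_sum]
  simp only [Complex.re_ofReal_mul, Complex.im_ofReal_mul]
  linarith

/-- Rounding dyadic numbers bit by bit, the total never growing. -/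
theorem round_dyadic {N : ℕ} {H : ℝ} (s : ℕ → ℝ) (hs : ∀ k, s k = 1 ∨ s k = -1) :
    ∀ (L : ℕ) (p : ℕ → ℕ), (∀ k, p k ≤ 2 ^ L) →
      (∑ k ∈ range N, (p k : ℝ)) ≤ H * 2 ^ L →
      ∃ e : ℕ → ℝ, (∀ k, e k = 0 ∨ e k = 1) ∧ ∀ z : ℂ, ‖z‖ = 1 →
        ‖∑ k ∈ range N, ((s k * (e k - (p k : ℝ) / 2 ^ L) : ℝ) : ℂ) * z ^ k‖ ≤
          3600 * qr (H * N) * (1 - (3 / 5 : ℝ) ^ L) := by
  classical
  intro L
  induction L with
  | zero =>
    intro p hp _
    refine ⟨fun k => (p k : ℝ), fun k => ?_, fun z _ => by simp⟩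
    have := hp k
    rw [pow_zero] at this
    rcases Nat.le_one_iff_eq_zero_or_eq_one.1 this with h | h <;> simp [h]
  | succ L ih =>
    intro p hp hsum
    set S := (range N).filter fun k => p k % 2 = 1 with hSdef
    obtain ⟨c, hc, hc0, hcb⟩ := colouring_circle S (filter_subset _ (range N))
    obtain ⟨σ, hσ, hσsum⟩ :
        ∃ σ : ℝ, (σ = 1 ∨ σ = -1) ∧ σ * ∑ k ∈ range N, s k * c k ≤ 0 := by
      rcases le_total (∑ k ∈ range N, s k * c k) 0 with h | h
      · exact ⟨1, Or.inl rfl, by linarith⟩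
      · exact ⟨-1, Or.inr rfl, by linarith⟩
    let p' : ℕ → ℕ := fun k => if k ∈ S ∧ σ * (s k * c k) = 1 then (p k + 1) / 2 else p k / 2
    have hp2 : ∀ k, 2 * (p' k : ℝ) = (p k : ℝ) + σ * (s k * c k) ∨ N ≤ k := by
      intro k
      by_cases hk : k < N
      swap
      · exact Or.inr (by omega)
      left
      by_cases hkS : k ∈ S
      · have hodd : p k % 2 = 1 := (mem_filter.1 hkS).2
        have hpm : σ * (s k * c k) = 1 ∨ σ * (s k * c k) = -1 := by
          rcases hσ with rfl | rfl <;> rcases hs k with h | h <;> rcases hc k hkS with h' | h' <;>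
            simp [h, h']
        rcases hpm with h | h <;> simp only [p', h, hkS, true_and] <;> norm_num
        · have : 2 * ((p k + 1) / 2) = p k + 1 := by omega
          exact_mod_cast this
        · have : 2 * (p k / 2) + 1 = p k := by omega
          have : 2 * ((p k / 2 : ℕ) : ℝ) + 1 = p k := by exact_mod_cast this
          linarith
      · have heven : p k % 2 = 0 := by
          have : ¬p k % 2 = 1 := fun h => hkS (mem_filter.2 ⟨mem_range.2 hk, h⟩)
          omega
        simp only [p', hkS, false_and, if_false, hc0 k hkS, mul_zero, add_zero]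
        have : 2 * (p k / 2) = p k := by omega
        exact_mod_cast this
    have hp' : ∀ k, p' k ≤ 2 ^ L := fun k => by
      have := hp k
      rw [pow_succ] at this
      simp only [p']
      split_ifs <;> omega
    have hsum' : ∑ k ∈ range N, (p' k : ℝ) ≤ H * 2 ^ L := by
      have e : 2 * ∑ k ∈ range N, (p' k : ℝ) =
          (∑ k ∈ range N, (p k : ℝ)) + σ * ∑ k ∈ range N, s k * c k := by
        rw [mul_sum, mul_sum, ← sum_add_distrib]
        exact sum_congr rfl fun k hk => (hp2 k).resolve_right (by simp at hk; omega)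
      rw [pow_succ] at hsum
      linarith
    obtain ⟨e, he, heb⟩ := ih p' hp' hsum'
    refine ⟨e, he, fun z hz => ?_⟩
    have hsplit : ∑ k ∈ range N, ((s k * (e k - (p k : ℝ) / 2 ^ (L + 1)) : ℝ) : ℂ) * z ^ k =
        ∑ k ∈ range N, ((s k * (e k - (p' k : ℝ) / 2 ^ L) : ℝ) : ℂ) * z ^ k +
          ((σ / 2 ^ (L + 1) : ℝ) : ℂ) * ∑ k ∈ range N, (c k : ℂ) * z ^ k := by
      rw [mul_sum, ← sum_add_distrib]
      refine sum_congr rfl fun k hk => ?_
      have h2 := (hp2 k).resolve_right (by simp at hk; omega)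
      have hss : s k * s k = 1 := by rcases hs k with h | h <;> rw [h] <;> norm_num
      rw [← mul_assoc, ← Complex.ofReal_mul, ← add_mul, ← Complex.ofReal_add]
      congr 2
      rw [show (p' k : ℝ) = ((p k : ℝ) + σ * (s k * c k)) / 2 by linarith, pow_succ]
      field_simp
      linear_combination (σ * c k) * hss
    have hcard : qr ((S.card : ℝ) * N) ≤ (6 / 5) ^ (L + 1) * qr (H * N) := by
      have h1 : (S.card : ℝ) ≤ H * 2 ^ (L + 1) := by
        refine le_trans ?_ hsum
        rw [← mul_one (S.card : ℝ), ← nsmul_eq_mul]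
        refine (card_nsmul_le_sum S (fun k => (p k : ℝ)) 1 fun k hk => ?_).trans
          (sum_le_sum_of_subset_of_nonneg (filter_subset _ _) fun k _ _ => Nat.cast_nonneg _)
        have := (mem_filter.1 hk).2
        exact Nat.one_le_cast.2 (by omega)
      calc qr ((S.card : ℝ) * N) ≤ qr ((2 : ℝ) ^ (L + 1) * (H * N)) := qr_mono (by
            rw [mul_left_comm, ← mul_assoc, mul_comm]
            nlinarith [(Nat.cast_nonneg N : (0 : ℝ) ≤ N)])
        _ = qr ((2 : ℝ) ^ (L + 1)) * qr (H * N) := qr_mul (by positivity) _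
        _ ≤ _ := mul_le_mul_of_nonneg_right (qr_le (by positivity) (by
            rw [← pow_mul, mul_comm (L + 1), pow_mul]
            exact pow_le_pow_left₀ (by norm_num) (by norm_num) _)) (qr_nonneg _)
    rw [hsplit]
    refine (norm_add_le _ _).trans ?_
    rw [norm_mul, Complex.norm_real, Real.norm_eq_abs, abs_div,
      abs_of_pos (by positivity : (0 : ℝ) < 2 ^ (L + 1))]
    have hσ1 : |σ| = 1 := by rcases hσ with rfl | rfl <;> simp
    rw [hσ1]
    have h35 : (6 / 5 : ℝ) ^ (L + 1) / 2 ^ (L + 1) = (3 / 5) ^ (L + 1) := by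
      rw [← div_pow]; norm_num
    calc _ ≤ 3600 * qr (H * N) * (1 - (3 / 5) ^ L) +
          1 / 2 ^ (L + 1) * (2400 * ((6 / 5) ^ (L + 1) * qr (H * N))) := by
          gcongr
          · exact heb z hz
          · exact (hcb z hz).trans (by linarith)
      _ = 3600 * qr (H * N) * (1 - (3 / 5) ^ L) +
          2400 * qr (H * N) * ((6 / 5) ^ (L + 1) / 2 ^ (L + 1)) := by ring
      _ = _ := by rw [h35, pow_succ]; ring

/-- Rounding with an explicit error. -/
theorem exists_rounding {N : ℕ} (a : ℕ → ℝ) (ha : ∀ k, |a k| ≤ 1) {H : ℝ}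
    (hH : ∑ k ∈ range N, (1 - |a k|) ≤ 2 * H) :
    ∃ x : ℕ → ℝ, (∀ k, x k = 1 ∨ x k = -1) ∧ ∀ z : ℂ, ‖z‖ = 1 →
      ‖∑ k ∈ range N, ((x k - a k : ℝ) : ℂ) * z ^ k‖ ≤ 7200 * qr (H * N) + 2 := by
  classical
  obtain ⟨L, hL⟩ : ∃ L : ℕ, N ≤ 2 ^ L := ⟨N, Nat.lt_two_pow_self.le⟩
  let s : ℕ → ℝ := fun k => if 0 ≤ a k then 1 else -1
  have hs : ∀ k, s k = 1 ∨ s k = -1 := fun k => by
    simp only [s]; split_ifs <;> simp
  have hsa : ∀ k, a k = s k * |a k| := fun k => by
    simp only [s]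
    split_ifs with h
    · rw [abs_of_nonneg h, one_mul]
    · rw [abs_of_neg (lt_of_not_ge h)]; ring
  let q : ℕ → ℝ := fun k => (1 - |a k|) / 2
  have hq : ∀ k, 0 ≤ q k * 2 ^ L ∧ q k * 2 ^ L ≤ 2 ^ L := fun k => by
    have := ha k
    have := abs_nonneg (a k)
    have h2 : (0 : ℝ) < 2 ^ L := by positivity
    simp only [q]
    constructor <;> nlinarith
  let p : ℕ → ℕ := fun k => ⌊q k * 2 ^ L⌋₊
  have hp : ∀ k, p k ≤ 2 ^ L := fun k => Nat.floor_le_of_le (by push_cast; exact (hq k).2)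
  have hsum : ∑ k ∈ range N, (p k : ℝ) ≤ H * 2 ^ L := by
    calc ∑ k ∈ range N, (p k : ℝ) ≤ ∑ k ∈ range N, q k * 2 ^ L :=
          sum_le_sum fun k _ => Nat.floor_le (hq k).1
      _ ≤ H * 2 ^ L := by
          rw [← sum_mul]
          refine mul_le_mul_of_nonneg_right ?_ (by positivity)
          simp only [q, ← sum_div]
          linarith
  obtain ⟨e, he, heb⟩ := round_dyadic s hs L p hp hsum
  refine ⟨fun k => s k * (1 - 2 * e k), fun k => ?_, fun z hz => ?_⟩
  · rcases hs k with h | h <;> rcases he k with h' | h' <;> simp [h, h'] <;> norm_num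
  have hsplit : ∑ k ∈ range N, ((s k * (1 - 2 * e k) - a k : ℝ) : ℂ) * z ^ k =
      -2 * ∑ k ∈ range N, ((s k * (e k - (p k : ℝ) / 2 ^ L) : ℝ) : ℂ) * z ^ k +
        2 * ∑ k ∈ range N, ((s k * (q k - (p k : ℝ) / 2 ^ L) : ℝ) : ℂ) * z ^ k := by
    rw [mul_sum, mul_sum, ← sum_add_distrib]
    refine sum_congr rfl fun k _ => ?_
    conv_lhs => rw [hsa k]
    simp only [q]
    push_cast
    ring
  have herr : ‖∑ k ∈ range N, ((s k * (q k - (p k : ℝ) / 2 ^ L) : ℝ) : ℂ) * z ^ k‖ ≤ 1 := by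
    refine (norm_sum_le _ _).trans ?_
    calc ∑ k ∈ range N, ‖((s k * (q k - (p k : ℝ) / 2 ^ L) : ℝ) : ℂ) * z ^ k‖
        ≤ ∑ _k ∈ range N, 1 / (2 : ℝ) ^ L := sum_le_sum fun k _ => by
          rw [norm_mul, norm_pow, hz, one_pow, mul_one, Complex.norm_real, Real.norm_eq_abs,
            abs_mul, show |s k| = 1 by rcases hs k with h | h <;> rw [h] <;> simp, one_mul]
          have h1 := Nat.floor_le (hq k).1
          have h2 := Nat.lt_floor_add_one (q k * 2 ^ L)
          have h3 : (0 : ℝ) < 2 ^ L := by positivity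
          rw [sub_div' h3.ne', abs_div, abs_of_pos h3, div_le_div_iff_of_pos_right h3, abs_le]
          simp only [p]
          constructor <;> linarith
      _ ≤ 1 := by
          rw [sum_const, card_range, nsmul_eq_mul, mul_one_div, div_le_one (by positivity)]
          exact_mod_cast hL
  rw [hsplit]
  refine (norm_add_le _ _).trans ?_
  rw [norm_mul, norm_mul, norm_neg, Complex.norm_two]
  have h1 : 3600 * qr (H * N) * (1 - (3 / 5 : ℝ) ^ L) ≤ 3600 * qr (H * N) :=
    mul_le_of_le_one_right (mul_nonneg (by norm_num) (qr_nonneg _))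
      (by linarith [pow_nonneg (show (0 : ℝ) ≤ 3 / 5 by norm_num) L])
  linarith [heb z hz]

theorem rounding : RoundingStatement := by
  intro δ hδ
  refine ⟨2 * (δ / 14400) ^ 4, by positivity, ⌈(4 / δ) ^ 2⌉₊, fun N hN a ha hsum => ?_⟩
  let a' : ℕ → ℝ := fun k => if h : k < N then a ⟨k, h⟩ else 1
  have ha' : ∀ k, |a' k| ≤ 1 := fun k => by
    simp only [a']; split_ifs with h
    · exact ha _
    · simp
  have hH : ∑ k ∈ range N, (1 - |a' k|) ≤ 2 * ((δ / 14400) ^ 4 * N) := by
    rw [← Fin.sum_univ_eq_sum_range (fun k => 1 - |a' k|) N]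
    refine le_trans (sum_le_sum fun k _ => ?_) (hsum.trans (le_of_eq (by ring)))
    simp only [a', k.isLt, dite_true, Fin.eta]
    have := ha k
    have := abs_nonneg (a k)
    nlinarith [sq_abs (a k)]
  obtain ⟨x, hx, hb⟩ := exists_rounding a' ha' hH
  refine ⟨fun k => x k, fun k => hx k, fun t => ?_⟩
  have hpow : ∀ k : ℕ, cis t ^ k = cis ((k : ℝ) * t) := fun k => by
    simp only [cis, ← Complex.exp_nat_mul]
    congr 1; push_cast; ring
  have h := hb (cis t) (norm_cis t)
  rw [← Fin.sum_univ_eq_sum_range (fun k => ((x k - a' k : ℝ) : ℂ) * cis t ^ k) N] at h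
  simp only [hpow, a', Fin.is_lt, dite_true, Fin.eta] at h
  refine h.trans ?_
  have hN0 : (0 : ℝ) ≤ N := Nat.cast_nonneg N
  have hsq : qr ((δ / 14400) ^ 4 * N * N) = δ / 14400 * Real.sqrt N := by
    have hd : (0 : ℝ) ≤ δ / 14400 := by positivity
    rw [qr, show (δ / 14400) ^ 4 * (N : ℝ) * N = ((δ / 14400) ^ 2 * N) ^ 2 by ring,
      Real.sqrt_sq (by positivity), Real.sqrt_mul (sq_nonneg _), Real.sqrt_sq hd]
  rw [hsq]
  have h4 : 4 ≤ δ * Real.sqrt N := by
    have h1 : 4 / δ ≤ Real.sqrt N := by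
      rw [← Real.sqrt_sq (show (0 : ℝ) ≤ 4 / δ by positivity)]
      exact Real.sqrt_le_sqrt ((Nat.le_ceil _).trans (by exact_mod_cast hN))
    rwa [div_le_iff₀ hδ, mul_comm] at h1
  linarith

end Vale.Agent.P110
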