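import Vale.Agent.P110.SmoothingPhase

/-!
# P110, module E: `smoothing : SmoothingStatement`
-/

namespace Vale.Agent.P110

open scoped BigOperators Real
open Complex MeasureTheory

namespace Smoothing

lemma lip_arith {t C N : ℝ} (ht : 1 ≤ t) (hC : 0 ≤ C) (hN : t ^ 16 = N) :
    C * N + (N / 2 + 1) * (6 / (1 / t ^ 12))
      + 2 * (6 / (1 / t ^ 12) ^ 2 * (1 + (N / 2 + 1) * (1 / t ^ 12))
        + 2 / (1 / t ^ 12) * (N / 2 + 1)) ≤ (C + 100) * t ^ 28 := by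
  have hp : ∀ a : ℕ, a ≤ 28 → t ^ a ≤ t ^ 28 := fun a ha => pow_le_pow_right₀ ht ha
  have e : C * N + (N / 2 + 1) * (6 / (1 / t ^ 12))
      + 2 * (6 / (1 / t ^ 12) ^ 2 * (1 + (N / 2 + 1) * (1 / t ^ 12))
        + 2 / (1 / t ^ 12) * (N / 2 + 1))
      = C * t ^ 16 + 11 * t ^ 28 + 22 * t ^ 12 + 12 * t ^ 24 := by
    rw [← hN]
    field_simp
    ring
  rw [e]
  have h1 := hp 12 (by norm_num)
  have h2 := hp 24 (by norm_num)
  have h3 := mul_le_mul_of_nonneg_left (hp 16 (by norm_num)) hC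
  have h4 : 0 ≤ t ^ 28 := by positivity
  linarith

lemma bound_arith {t ε K N n₁ Δ : ℝ} (ht : 0 < t) (hε : 0 < ε) (hK : 0 < K)
    (hN : 0 < N) (htN : t ^ 16 = N) (hΔ : 0 < Δ) (hΔa : ε * N / 16 ≤ Δ)
    (hn : n₁ + (n₁ + Δ) ≤ 4 * N) (hbig : 64 * K / ε + 32 / ε ≤ t * ε) :
    ((n₁ + (n₁ + Δ)) * (K / t) + 2 / (1 / t ^ 15)) / Δ ≤ ε := by
  rw [div_le_iff₀ hΔ]
  have e3 : 2 / (1 / t ^ 15) = 2 * N / t := by rw [← htN]; field_simp
  have e2 : (n₁ + (n₁ + Δ)) * (K / t) ≤ 4 * N * (K / t) :=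
    mul_le_mul_of_nonneg_right hn (by positivity)
  have e4 : ε * (ε * N / 16) ≤ ε * Δ := mul_le_mul_of_nonneg_left hΔa hε.le
  have hk : 64 * K + 32 ≤ t * ε * ε := by
    have h := mul_le_mul_of_nonneg_right hbig hε.le
    rwa [add_mul, div_mul_cancel₀ _ hε.ne', div_mul_cancel₀ _ hε.ne'] at h
  have e5 : 4 * N * (K / t) + 2 * N / t ≤ ε * (ε * N / 16) := by
    rw [mul_div_assoc', ← add_div, div_le_iff₀ ht]
    have h := mul_le_mul_of_nonneg_right hk hN.le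
    linarith
  linarith

lemma freq_arith {M m₀ N m n₁ t C ε : ℝ} (hM : |M - m₀| ≤ N / 2 + 1 + 2 * t ^ 12 * (1 + C))
    (hr : |M - m| ≤ 1 / 2) (hn : (1 / 2 + ε / 8) * N ≤ n₁)
    (hεN : 16 * (C + 10) * t ^ 12 ≤ ε * N) (ht : 1 ≤ t ^ 12) : |m - m₀| ≤ n₁ := by
  obtain ⟨a, b⟩ := abs_le.1 hM
  obtain ⟨c, d⟩ := abs_le.1 hr
  rw [abs_le]
  constructor <;> linarith

/-- The local approximation by one frequency. -/
lemma local_bound (p : Phase) {θ s δ L : ℝ} {m : ℤ} (hs : |s| ≤ δ) (hδ : δ ≤ 1 / 4)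
    (hm : |p.phi1 θ - m| ≤ 1 / 2)
    (hL : p.L + p.B * (6 / p.w) + 2 * (6 / p.w ^ 2 * (1 + p.B * p.w) + 2 / p.w * p.B) ≤ L)
    (hL0 : 0 ≤ L) :
    ‖p.u (θ - s) - p.u θ * cis (-((m : ℝ) * s))‖ ≤ 2 * π * (4 * p.H * L * δ ^ 2 + δ) := by
  rw [Phase.u, Phase.u, ← cis_add]
  refine (norm_cis_sub_cis_le _ _).trans (mul_le_mul_of_nonneg_left ?_ Real.two_pi_pos.le)
  have hδ0 : 0 ≤ δ := (abs_nonneg s).trans hs
  have h2 : |(p.phi1 θ - m) * s| ≤ 1 / 2 * δ := by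
    rw [abs_mul]; exact mul_le_mul hm hs (abs_nonneg _) (by norm_num)
  have h3 : s ^ 2 ≤ δ ^ 2 := by rw [← sq_abs s]; exact pow_le_pow_left₀ (abs_nonneg s) hs 2
  calc |p.phi (θ - s) - (p.phi θ + -((m : ℝ) * s))|
      = |(p.phi (θ - s) - p.phi θ + p.phi1 θ * s) - (p.phi1 θ - m) * s| := by congr 1; ring
    _ ≤ 4 * (p.H : ℝ) * L * δ ^ 2 + 1 / 2 * δ := by
      refine (abs_sub _ _).trans (add_le_add ((p.phi_taylor θ s (hs.trans hδ)).trans ?_) h2)
      exact mul_le_mul (mul_le_mul_of_nonneg_left hL (by positivity)) h3 (sq_nonneg _)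
        (by positivity)
    _ ≤ _ := by linarith

/-- The core statement, for `N = t^16` with `t` large. -/
lemma smoothing_core (H : ℕ) (hH : 0 < H) (C : ℝ) (hC : 0 ≤ C) (ε : ℝ) (hε : 0 < ε) (hε1 : ε ≤ 1) :
    ∃ t₀ : ℝ, ∀ N : ℕ, ∀ t : ℝ, t₀ ≤ t → t ^ 16 = (N : ℝ) →
    ∀ ψ ψ1 ψ2 : Fin H → ℝ → ℝ,
      (∀ n θ, HasDerivAt (ψ n) (ψ1 n θ) θ) → (∀ n θ, HasDerivAt (ψ1 n) (ψ2 n θ) θ) →
      (∀ n : Fin H, ∀ θ ∈ Set.Icc (((n : ℕ) : ℝ) / (2 * (H : ℝ)))
          ((((n : ℕ) : ℝ) + 1) / (2 * (H : ℝ))),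
        0 ≤ ψ1 n θ ∧ ψ1 n θ ≤ (N : ℝ) ∧ |ψ2 n θ| ≤ C * (N : ℝ)) →
      ∃ (D : ℕ) (s : ℤ) (b : Fin D → ℝ),
        N ≤ D ∧ (D : ℝ) ≤ (1 + ε) * (N : ℝ) ∧
        (∀ k : Fin D, |b k| ≤ |halfCoeff H ψ (((k : ℕ) : ℤ) + s)| + ε / t ^ 8) ∧
        ∀ θ : ℝ, |‖∑ k : Fin D, (b k : ℂ) * cis (((k : ℕ) : ℝ) * θ)‖ - 1| ≤ ε := by
  set K : ℝ := 2 * π * (4 * H * (C + 100) + 1) with hKdef
  have hK : 0 < K := by rw [hKdef]; positivity
  refine ⟨(8 * H + 16 * (C + 10) + 64 * K / ε + 32 / ε + 8) / ε + 8, ?_⟩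
  intro N t ht htN ψ ψ1 ψ2 hψ hψ1 hbd
  -- elementary facts on `t`
  have hbig : (8 * H + 16 * (C + 10) + 64 * K / ε + 32 / ε + 8) ≤ t * ε := by
    have h : (8 * H + 16 * (C + 10) + 64 * K / ε + 32 / ε + 8) / ε ≤ t := by linarith
    rwa [div_le_iff₀ hε] at h
  have hp1 : 0 ≤ 64 * K / ε := by positivity
  have hp2 : 0 ≤ 32 / ε := by positivity
  have ht8 : 8 ≤ t := by
    have : 0 ≤ (8 * H + 16 * (C + 10) + 64 * K / ε + 32 / ε + 8) / ε := by positivity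
    linarith
  have ht1 : 1 ≤ t := by linarith
  have ht0 : 0 < t := by linarith
  have htp : ∀ a b : ℕ, a ≤ b → t ^ a ≤ t ^ b := fun a b h => pow_le_pow_right₀ ht1 h
  have ht4 : t ≤ t ^ 4 := by simpa using htp 1 4 (by norm_num)
  have hH8 : 8 * (H : ℝ) ≤ t ^ 4 * ε := by
    have h1 := mul_le_mul_of_nonneg_right ht4 hε.le
    linarith
  have h4H : 4 * (H : ℝ) ≤ t ^ 4 := by
    have h1 := mul_le_of_le_one_right (pow_nonneg ht0.le 4) hε1
    linarith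
  have hN0 : (0 : ℝ) < N := by rw [← htN]; positivity
  -- parameters
  set w : ℝ := 1 / t ^ 12 with hwdef
  have hw0 : 0 < w := by rw [hwdef]; positivity
  set m₀ : ℤ := ((N / 2 : ℕ) : ℤ) with hm0
  have hm0a : (m₀ : ℝ) ≤ N / 2 := by
    rw [hm0, Int.cast_natCast]
    have h := Nat.div_mul_le_self N 2
    have h' : (((N / 2) * 2 : ℕ) : ℝ) ≤ N := by exact_mod_cast h
    push_cast at h'
    linarith
  have hm0b : (N : ℝ) / 2 - 1 ≤ m₀ := by
    rw [hm0, Int.cast_natCast]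
    have h : N ≤ (N / 2) * 2 + 2 := by omega
    have h' : (N : ℝ) ≤ (((N / 2) * 2 + 2 : ℕ) : ℝ) := by exact_mod_cast h
    push_cast at h'
    linarith
  have hab : ∀ n : Fin H, ((n : ℕ) : ℝ) / (2 * (H : ℝ)) + 2 * w
      ≤ (((n : ℕ) : ℝ) + 1) / (2 * (H : ℝ)) := by
    intro n
    have hHpos : (0 : ℝ) < H := Nat.cast_pos.2 hH
    rw [add_div]
    have : 2 * w ≤ 1 / (2 * (H : ℝ)) := by
      rw [hwdef, mul_one_div, div_le_div_iff₀ (by positivity) (by positivity)]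
      nlinarith [htp 4 12 (by norm_num)]
    linarith
  let p : Phase :=
    { H := H
      hH := hH
      m₀ := m₀
      cell := fun n =>
        { a := ((n : ℕ) : ℝ) / (2 * (H : ℝ))
          b := (((n : ℕ) : ℝ) + 1) / (2 * (H : ℝ))
          w := w
          q := fun x => ψ n x - (m₀ : ℝ) * x
          q1 := fun x => ψ1 n x - (m₀ : ℝ)
          q2 := ψ2 n
          B := (N : ℝ) / 2 + 1
          L := C * N
          hw := hw0
          hab := hab n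
          hq := fun x => ((hψ n x).sub ((hasDerivAt_id x).const_mul (m₀ : ℝ))).congr_deriv
            (by rw [mul_one])
          hq1 := fun x => (hψ1 n x).sub_const _
          hB := fun x hx => by
            obtain ⟨h1, h2, -⟩ := hbd n x hx
            rw [abs_le]; constructor <;> linarith
          hL := fun x hx => (hbd n x hx).2.2 }
      w := w
      B := (N : ℝ) / 2 + 1
      L := C * N
      ha := fun _ => rfl
      hb := fun _ => rfl
      hw := fun _ => rfl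
      hB := fun _ => rfl
      hL := fun _ => rfl }
  -- degrees
  set n₁ : ℕ := ⌈(1 / 2 + ε / 8) * (N : ℝ)⌉₊ with hn1
  set Δ : ℕ := ⌈ε * (N : ℝ) / 16⌉₊ with hΔdef
  have hn1a : (1 / 2 + ε / 8) * (N : ℝ) ≤ n₁ := Nat.le_ceil _
  have hn1b : (n₁ : ℝ) < (1 / 2 + ε / 8) * (N : ℝ) + 1 := Nat.ceil_lt_add_one (by positivity)
  have hΔa : ε * (N : ℝ) / 16 ≤ Δ := Nat.le_ceil _
  have hΔb : (Δ : ℝ) < ε * (N : ℝ) / 16 + 1 := Nat.ceil_lt_add_one (by positivity)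
  have hΔ0 : 0 < Δ := Nat.ceil_pos.2 (by positivity)
  have hεN : 16 * (C + 10) * t ^ 12 ≤ ε * N := by
    have e : t ^ 12 * t ≤ t ^ 16 := by rw [← pow_succ]; exact htp 13 16 (by norm_num)
    have hH0 : 0 ≤ 8 * (H : ℝ) := by positivity
    calc 16 * (C + 10) * t ^ 12 ≤ (t * ε) * t ^ 12 :=
          mul_le_mul_of_nonneg_right (by linarith) (by positivity)
      _ = ε * (t ^ 12 * t) := by ring
      _ ≤ ε * N := by rw [← htN]; exact mul_le_mul_of_nonneg_left e hε.le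
  have ht12 : 1 ≤ t ^ 12 := one_le_pow₀ ht1
  have hεN8 : 32 ≤ ε * N := by nlinarith
  set P : ℕ := n₁ + Δ - 1 with hPdef
  have hP : P + 1 = n₁ + Δ := by omega
  have hPr : (P : ℝ) + 1 = (n₁ : ℝ) + Δ := by exact_mod_cast hP
  have hεN1 : ε * (N : ℝ) ≤ N := mul_le_of_le_one_left hN0.le hε1
  have hsize : (n₁ : ℝ) + (n₁ + Δ) ≤ 4 * N := by linarith
  refine ⟨2 * P + 1, m₀ - P, fun i =>
    ((((Finset.Ico n₁ (P + 1)).filter
        (fun k : ℕ => |((i : ℕ) : ℤ) - P| ≤ (k : ℤ))).card : ℕ) : ℝ) / (Δ : ℝ)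
      * (coef p.u (((i : ℕ) : ℤ) + (m₀ - P))).re, ?_, ?_, ?_, ?_⟩
  · have : (N : ℝ) ≤ ((2 * P + 1 : ℕ) : ℝ) := by
      push_cast; linarith
    exact_mod_cast this
  · push_cast; linarith
  · intro i
    set k : ℤ := ((i : ℕ) : ℤ) + (m₀ - P)
    have hΔr : (0 : ℝ) < Δ := Nat.cast_pos.2 hΔ0
    have hlam : ((((Finset.Ico n₁ (P + 1)).filter
        (fun k : ℕ => |((i : ℕ) : ℤ) - P| ≤ (k : ℤ))).card : ℕ) : ℝ) / (Δ : ℝ) ≤ 1 := by
      rw [div_le_one hΔr]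
      have := Finset.card_filter_le (Finset.Ico n₁ (P + 1))
        (fun k : ℕ => |((i : ℕ) : ℤ) - P| ≤ (k : ℤ))
      rw [Nat.card_Ico] at this
      exact_mod_cast le_trans this (by omega)
    rw [abs_mul, abs_of_nonneg (by positivity)]
    refine (mul_le_of_le_one_left (abs_nonneg _) hlam).trans ?_
    have hdiff : |(coef p.u k).re - halfCoeff H ψ k| ≤ 8 * H * w := by
      rw [p.coef_u k, Complex.ofReal_re, halfCoeff, ← mul_sub, abs_mul, abs_two, ← Complex.sub_re]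
      have hu := p.continuous_u
      have hsplit : ∫ x in (0 : ℝ)..(1 / 2), p.u x * cis (-((k : ℝ) * x))
          = ∑ n : Fin H, ∫ x in (((n : ℕ) : ℝ) / (2 * (H : ℝ)))..
              ((((n : ℕ) : ℝ) + 1) / (2 * (H : ℝ))), p.u x * cis (-((k : ℝ) * x)) := by
        have h := intervalIntegral.sum_integral_adjacent_intervals (μ := volume)
          (a := fun j : ℕ => (j : ℝ) / (2 * (H : ℝ))) (n := H)
          (f := fun x => p.u x * cis (-((k : ℝ) * x)))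
          (fun j _ => Continuous.intervalIntegrable (by fun_prop) _ _)
        rw [Finset.sum_range] at h
        push_cast at h
        rw [h, zero_div, show (H : ℝ) / (2 * (H : ℝ)) = 1 / 2 by field_simp]
      rw [hsplit, ← Finset.sum_sub_distrib]
      refine le_trans (mul_le_mul_of_nonneg_left
        ((Complex.abs_re_le_norm _).trans ((norm_sum_le _ _).trans
          (Finset.sum_le_card_nsmul _ _ (4 * w) fun n _ => ?_))) zero_le_two) ?_
      · exact p.cell_diff n k (ψ n)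
          (continuous_iff_continuousAt.2 fun x => (hψ n x).continuousAt) (fun x => rfl)
      · simp only [Finset.card_univ, Fintype.card_fin, nsmul_eq_mul]
        exact le_of_eq (by ring)
    have hw8 : 8 * H * w ≤ ε / t ^ 8 := by
      rw [hwdef, mul_one_div, div_le_div_iff₀ (by positivity) (by positivity)]
      calc 8 * (H : ℝ) * t ^ 8 ≤ t ^ 4 * ε * t ^ 8 :=
            mul_le_mul_of_nonneg_right hH8 (by positivity)
        _ = ε * t ^ 12 := by ring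
    have := abs_sub_abs_le_abs_sub (coef p.u k).re (halfCoeff H ψ k)
    linarith
  · intro θ
    -- the integer frequency near the local one
    set m : ℤ := round (p.phi1 θ)
    have hround := abs_le.1 (abs_sub_round (p.phi1 θ))
    have hwinv : 2 / w = 2 * t ^ 12 := by rw [hwdef]; field_simp
    have hLw : p.L * p.w ^ 2 ≤ C := by
      show C * N * w ^ 2 ≤ C
      rw [hwdef, ← htN, mul_assoc]
      refine mul_le_of_le_one_right hC ?_
      rw [div_pow, one_pow, mul_one_div, div_le_one (by positivity), ← pow_mul]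
      exact htp _ _ (by norm_num)
    have hM : |p.phi1 θ - m₀| ≤ N / 2 + 1 + 2 * t ^ 12 * (1 + C) := by
      refine (p.phi1_sub_le θ).trans ?_
      show (N : ℝ) / 2 + 1 + 2 / w * (1 + p.L * p.w ^ 2) ≤ _
      rw [hwinv]
      gcongr
    have hm : |m - m₀| ≤ (n₁ : ℤ) := by
      have : |((m : ℝ) - m₀)| ≤ (n₁ : ℝ) :=
        freq_arith hM (abs_sub_round _) hn1a hεN ht12
      exact_mod_cast this
    set δ : ℝ := 1 / t ^ 15 with hδdef
    have hδ0 : 0 < δ := by rw [hδdef]; positivity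
    have hδ4 : δ ≤ 1 / 4 := by
      rw [hδdef, div_le_div_iff₀ (by positivity) (by norm_num)]
      linarith [htp 1 15 (by norm_num), pow_one t]
    have hlip : p.L + p.B * (6 / p.w) + 2 * (6 / p.w ^ 2 * (1 + p.B * p.w) + 2 / p.w * p.B)
        ≤ (C + 100) * t ^ 28 := lip_arith ht1 hC htN
    have hloc : ∀ s, |s| ≤ δ → ‖p.u (θ - s) - p.u θ * cis (-((m : ℝ) * s))‖ ≤ K / t := by
      intro s hs
      refine (local_bound p hs hδ4 (abs_sub_round _) hlip (by positivity)).trans ?_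
      rw [hKdef, mul_div_assoc]
      refine mul_le_mul_of_nonneg_left ?_ Real.two_pi_pos.le
      show 4 * (H : ℝ) * ((C + 100) * t ^ 28) * δ ^ 2 + δ ≤ _
      have e1 : 4 * (H : ℝ) * ((C + 100) * t ^ 28) * δ ^ 2
          = 4 * H * (C + 100) * (1 / t ^ 2) := by rw [hδdef]; field_simp
      have e2 : (1 : ℝ) / t ^ 2 ≤ 1 / t := by
        apply one_div_le_one_div_of_le ht0
        simpa using htp 1 2 (by norm_num)
      have e3 : δ ≤ 1 / t := by
        rw [hδdef]; apply one_div_le_one_div_of_le ht0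
        simpa using htp 1 15 (by norm_num)
      rw [e1, add_div, ← mul_one_div (4 * (H : ℝ) * (C + 100))]
      exact add_le_add (mul_le_mul_of_nonneg_left e2 (by positivity)) e3
    have hnear := smoothPoly_near p.continuous_u p.periodic_u (fun s => norm_cis _)
      (n₁ := n₁) (n₂ := P + 1) (by omega) hm θ hδ0 (by linarith) hloc
    have hden : (((P + 1 : ℕ) : ℝ) - n₁) = Δ := by push_cast; linarith
    rw [hden, smoothPoly_eq_sum] at hnear
    set z : ℂ := ∑ i : Fin (2 * P + 1),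
      ((((((Finset.Ico n₁ (P + 1)).filter
        (fun k : ℕ => |((i : ℕ) : ℤ) - P| ≤ (k : ℤ))).card : ℕ) : ℝ) / (Δ : ℝ)
        * (coef p.u (((i : ℕ) : ℤ) + (m₀ - P))).re : ℝ) : ℂ) * cis (((i : ℕ) : ℝ) * θ)
    have hz : z * cis (((m₀ - P : ℤ) : ℝ) * θ) = (∑ i : Fin (2 * P + 1),
      ((((Finset.Ico n₁ (P + 1)).filter (fun k : ℕ => |((i : ℕ) : ℤ) - P| ≤ (k : ℤ))).card : ℕ) : ℂ)
        * coef p.u (((i : ℕ) : ℤ) + (m₀ - P))
        * cis ((((i : ℕ) : ℤ) + (m₀ - P) : ℤ) * θ)) / ((Δ : ℝ) : ℂ) := by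
      rw [Finset.sum_mul, Finset.sum_div]
      refine Finset.sum_congr rfl fun i _ => ?_
      rw [p.coef_u, Complex.ofReal_re, Complex.ofReal_mul, Complex.ofReal_div,
        Complex.ofReal_natCast, mul_assoc, ← cis_add, Int.cast_add, Int.cast_natCast,
        add_mul (((i : ℕ) : ℝ))]
      ring
    rw [← hz] at hnear
    have hbound : ((((n₁ : ℕ) : ℝ) + ((P + 1 : ℕ) : ℝ)) * (K / t) + 2 / δ) / (Δ : ℝ) ≤ ε := by
      rw [Nat.cast_add, Nat.cast_one, hPr, hδdef]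
      exact bound_arith ht0 hε hK hN0 htN (Nat.cast_pos.2 hΔ0) hΔa hsize (by linarith)
    have hzn : ‖z * cis (((m₀ - P : ℤ) : ℝ) * θ)‖ = ‖z‖ := by rw [norm_mul, norm_cis, mul_one]
    have hun : ‖p.u θ‖ = 1 := norm_cis _
    calc |‖z‖ - 1| = |‖z * cis (((m₀ - P : ℤ) : ℝ) * θ)‖ - ‖p.u θ‖| := by rw [hzn, hun]
      _ ≤ ‖z * cis (((m₀ - P : ℤ) : ℝ) * θ) - p.u θ‖ := abs_norm_sub_norm_le _ _
      _ ≤ ε := hnear.trans hbound

end Smoothing

/-- Module E. -/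
theorem smoothing : SmoothingStatement := by
  intro H hH C ε hε
  obtain ⟨t₀, h⟩ := Smoothing.smoothing_core H hH |C| (abs_nonneg C) (min ε 1) (lt_min hε one_pos)
    (min_le_right _ _)
  refine ⟨⌈(max t₀ 0) ^ 16⌉₊, fun N hN ψ ψ1 ψ2 hψ hψ1 hbd => ?_⟩
  set t : ℝ := (N : ℝ) ^ ((16 : ℕ) : ℝ)⁻¹ with ht
  have ht16 : t ^ 16 = (N : ℝ) := Real.rpow_inv_natCast_pow (Nat.cast_nonneg N) (by norm_num)
  have ht0 : 0 ≤ t := Real.rpow_nonneg (Nat.cast_nonneg N) _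
  have htt : t₀ ≤ t := by
    refine (le_max_left t₀ 0).trans ((pow_le_pow_iff_left₀ (le_max_right _ _) ht0 (n := 16)
      (by norm_num)).1 ?_)
    rw [ht16]
    exact (Nat.le_ceil _).trans (Nat.cast_le.2 hN)
  have hsqrt : Real.sqrt (N : ℝ) = t ^ 8 := by
    rw [← ht16, show t ^ 16 = (t ^ 8) ^ 2 by ring, Real.sqrt_sq (by positivity)]
  obtain ⟨D, s, b, h1, h2, h3, h4⟩ := h N t htt ht16 ψ ψ1 ψ2 hψ hψ1 fun n θ hθ => by
    obtain ⟨a, b, c⟩ := hbd n θ hθ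
    exact ⟨a, b, c.trans (mul_le_mul_of_nonneg_right (le_abs_self C) (Nat.cast_nonneg N))⟩
  refine ⟨D, s, b, h1, h2.trans ?_, fun k => (h3 k).trans ?_, fun θ => (h4 θ).trans (min_le_left _ _)⟩
  · gcongr; exact min_le_left _ _
  · rw [hsqrt]; gcongr; exact min_le_left _ _

end Vale.Agent.P110
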