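import Vale.Agent.P110.Basic

/-!
# P110, module E: the phase on one cell

Inside the cell the phase `q` is followed, at both ends it is blended by a clamped cubic step
into an integer constant, without enlarging the range of the derivative by more than `o(N)`.
-/

namespace Vale.Agent.P110.Smoothing

open scoped BigOperators Real

/-- Positive part. -/
noncomputable def pos' (x : ℝ) : ℝ := max x 0

lemma pos'_of_nonpos {x : ℝ} (h : x ≤ 0) : pos' x = 0 := max_eq_right h

lemma pos'_of_nonneg {x : ℝ} (h : 0 ≤ x) : pos' x = x := max_eq_left h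

lemma hasDerivAt_pos'_sq (x : ℝ) : HasDerivAt (fun y => pos' y ^ 2) (2 * pos' x) x := by
  rcases lt_trichotomy x 0 with h | rfl | h
  · rw [pos'_of_nonpos h.le, mul_zero]
    refine (hasDerivAt_const x (0 : ℝ)).congr_of_eventuallyEq ?_
    filter_upwards [Iio_mem_nhds h] with y hy
    simp [pos'_of_nonpos (le_of_lt hy)]
  · rw [pos'_of_nonpos le_rfl, mul_zero, hasDerivAt_iff_isLittleO]
    simp only [pos'_of_nonpos le_rfl, sub_zero, smul_zero, ne_eq, OfNat.ofNat_ne_zero,
      not_false_eq_true, zero_pow]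
    refine Asymptotics.IsBigO.trans_isLittleO ?_ (Asymptotics.isLittleO_pow_id (n := 2) one_lt_two)
    refine Asymptotics.IsBigO.of_bound 1 (Filter.Eventually.of_forall fun y => ?_)
    rw [one_mul, norm_pow, norm_pow]
    gcongr
    rw [Real.norm_eq_abs, Real.norm_eq_abs, pos']
    rw [abs_of_nonneg (le_max_right _ _)]
    exact max_le (le_abs_self _) (abs_nonneg _)
  · rw [pos'_of_nonneg h.le]
    refine ((hasDerivAt_pow 2 x).congr_deriv (by simp)).congr_of_eventuallyEq ?_
    filter_upwards [Ioi_mem_nhds h] with y hy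
    simp [pos'_of_nonneg (le_of_lt hy)]

/-- Clamp to `[0,1]`. -/
noncomputable def clamp (s : ℝ) : ℝ := max 0 (min 1 s)

lemma clamp_mem (s : ℝ) : 0 ≤ clamp s ∧ clamp s ≤ 1 :=
  ⟨le_max_left _ _, max_le zero_le_one (min_le_left _ _)⟩

lemma abs_clamp_sub_le (s t : ℝ) : |clamp s - clamp t| ≤ |s - t| := by
  unfold clamp
  refine (abs_max_sub_max_le_max _ _ _ _).trans ?_
  rw [sub_self, abs_zero, max_eq_right (abs_nonneg _)]
  refine (abs_min_sub_min_le_max _ _ _ _).trans ?_
  rw [sub_self, abs_zero, max_eq_right (abs_nonneg _)]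

lemma clamp_of_mem {s : ℝ} (h₀ : 0 ≤ s) (h₁ : s ≤ 1) : clamp s = s := by
  rw [clamp, min_eq_right h₁, max_eq_right h₀]

lemma clamp_of_nonpos {s : ℝ} (h : s ≤ 0) : clamp s = 0 :=
  max_eq_left ((min_le_right _ _).trans h)

lemma clamp_of_one_le {s : ℝ} (h : 1 ≤ s) : clamp s = 1 := by
  rw [clamp, min_eq_left h, max_eq_right zero_le_one]

/-- The clamped cubic step. -/
noncomputable def step (s : ℝ) : ℝ := 3 * clamp s ^ 2 - 2 * clamp s ^ 3

/-- Its derivative. -/
noncomputable def step1 (s : ℝ) : ℝ := 6 * clamp s * (1 - clamp s)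

lemma hasDerivAt_step (s : ℝ) : HasDerivAt step (step1 s) s := by
  have key : ∀ u : ℝ, step u = 3 * pos' u ^ 2 - 2 * (pos' u ^ 2 * u)
      + 3 * pos' (u - 1) ^ 2 + 2 * (pos' (u - 1) ^ 2 * (u - 1)) := by
    intro u
    unfold step
    rcases le_total u 0 with h | h
    · rw [clamp_of_nonpos h, pos'_of_nonpos h, pos'_of_nonpos (by linarith)]; ring
    rcases le_total u 1 with h1 | h1
    · rw [clamp_of_mem h h1, pos'_of_nonneg h, pos'_of_nonpos (by linarith)]; ring
    · rw [clamp_of_one_le h1, pos'_of_nonneg h, pos'_of_nonneg (by linarith)]; ring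
  have h1 := hasDerivAt_pos'_sq s
  have h2 : HasDerivAt (fun u => pos' (u - 1) ^ 2) (2 * pos' (s - 1)) s := by
    have := (hasDerivAt_pos'_sq (s - 1)).comp s ((hasDerivAt_id s).sub_const 1)
    rw [mul_one] at this
    exact this
  have h3 := (((h1.const_mul 3).sub ((h1.mul (hasDerivAt_id s)).const_mul 2)).add
    (h2.const_mul 3)).add ((h2.mul ((hasDerivAt_id s).sub_const 1)).const_mul 2)
  rw [show step = _ from funext key]
  refine h3.congr_deriv ?_
  simp only [id_eq]
  unfold step1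
  rcases le_total s 0 with h | h
  · rw [clamp_of_nonpos h, pos'_of_nonpos h, pos'_of_nonpos (by linarith)]; ring
  rcases le_total s 1 with h1 | h1
  · rw [clamp_of_mem h h1, pos'_of_nonneg h, pos'_of_nonpos (by linarith)]; ring
  · rw [clamp_of_one_le h1, pos'_of_nonneg h, pos'_of_nonneg (by linarith)]; ring

lemma step_of_nonpos {s : ℝ} (h : s ≤ 0) : step s = 0 ∧ step1 s = 0 := by
  simp [step, step1, clamp_of_nonpos h]

lemma step_of_one_le {s : ℝ} (h : 1 ≤ s) : step s = 1 ∧ step1 s = 0 := by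
  simp [step, step1, clamp_of_one_le h]; norm_num

lemma step_mem (s : ℝ) : 0 ≤ step s ∧ step s ≤ 1 := by
  obtain ⟨h0, h1⟩ := clamp_mem s
  unfold step
  constructor <;> nlinarith [sq_nonneg (clamp s - 1), sq_nonneg (clamp s),
    mul_nonneg (sq_nonneg (clamp s)) (sub_nonneg.2 h1),
    mul_nonneg (sq_nonneg (clamp s - 1)) h0]

lemma step1_abs_le (s : ℝ) : |step1 s| ≤ 2 := by
  obtain ⟨h0, h1⟩ := clamp_mem s
  unfold step1
  rw [abs_le]; constructor <;> nlinarith [sq_nonneg (2 * clamp s - 1)]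

lemma step_lip (s t : ℝ) : |step s - step t| ≤ 3 * |s - t| := by
  obtain ⟨a0, a1⟩ := clamp_mem s
  obtain ⟨b0, b1⟩ := clamp_mem t
  have hd := abs_clamp_sub_le s t
  unfold step
  rw [show 3 * clamp s ^ 2 - 2 * clamp s ^ 3 - (3 * clamp t ^ 2 - 2 * clamp t ^ 3)
    = (clamp s - clamp t) * (3 * (clamp s + clamp t)
      - 2 * (clamp s ^ 2 + clamp s * clamp t + clamp t ^ 2)) by ring, abs_mul]
  refine le_trans (mul_le_mul hd (?_ : |_| ≤ (3 : ℝ)) (abs_nonneg _) (abs_nonneg _)) (le_of_eq (by ring))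
  rw [abs_le]; constructor <;> nlinarith [sq_nonneg (clamp s - clamp t),
    sq_nonneg (clamp s + clamp t - 1)]

lemma step1_lip (s t : ℝ) : |step1 s - step1 t| ≤ 6 * |s - t| := by
  obtain ⟨a0, a1⟩ := clamp_mem s
  obtain ⟨b0, b1⟩ := clamp_mem t
  have hd := abs_clamp_sub_le s t
  unfold step1
  rw [show 6 * clamp s * (1 - clamp s) - 6 * clamp t * (1 - clamp t)
    = (clamp s - clamp t) * (6 * (1 - clamp s - clamp t)) by ring, abs_mul]
  refine le_trans (mul_le_mul hd (?_ : |_| ≤ (6 : ℝ)) (abs_nonneg _) (abs_nonneg _)) (le_of_eq (by ring))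
  rw [abs_le]; constructor <;> linarith

/-- The combination governing the derivative in a blending strip. -/
lemma blend_abs_le (s : ℝ) : |step s + step1 s * (clamp s - 1)| ≤ 1 := by
  obtain ⟨h0, h1⟩ := clamp_mem s
  unfold step step1
  rw [abs_le]
  constructor <;> nlinarith [sq_nonneg (clamp s - 1), sq_nonneg (4 * clamp s - 1),
    mul_nonneg (sq_nonneg (clamp s - 1)) h0,
    mul_nonneg (sq_nonneg (4 * clamp s - 1)) h0,
    mul_nonneg (sq_nonneg (4 * clamp s - 1)) (sub_nonneg.2 h1),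
    mul_nonneg h0 (sub_nonneg.2 h1)]

/-- A cell `[a,b]`, strip width `w`, phase `q` with two derivatives. -/
structure Cell where
  a : ℝ
  b : ℝ
  w : ℝ
  q : ℝ → ℝ
  q1 : ℝ → ℝ
  q2 : ℝ → ℝ
  B : ℝ
  L : ℝ
  hw : 0 < w
  hab : a + 2 * w ≤ b
  hq : ∀ x, HasDerivAt q (q1 x) x
  hq1 : ∀ x, HasDerivAt q1 (q2 x) x
  hB : ∀ x ∈ Set.Icc a b, |q1 x| ≤ B
  hL : ∀ x ∈ Set.Icc a b, |q2 x| ≤ L

namespace Cell

variable (c : Cell)

/-- Integer value to the left. -/
noncomputable def el : ℤ := round (c.q (c.a + c.w))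

/-- Integer value to the right. -/
noncomputable def er : ℤ := round (c.q (c.b - c.w))

/-- The blended phase. -/
noncomputable def G (x : ℝ) : ℝ :=
  c.q x * (step ((x - c.a) / c.w) + step ((c.b - x) / c.w) - 1)
    + c.el * (1 - step ((x - c.a) / c.w)) + c.er * (1 - step ((c.b - x) / c.w))

/-- The derivative of the blended phase. -/
noncomputable def G1 (x : ℝ) : ℝ :=
  c.q1 x * (step ((x - c.a) / c.w) + step ((c.b - x) / c.w) - 1)
    + step1 ((x - c.a) / c.w) / c.w * (c.q x - c.el)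
    + -(step1 ((c.b - x) / c.w) / c.w) * (c.q x - c.er)

lemma hasDerivAt_G (x : ℝ) : HasDerivAt c.G (c.G1 x) x := by
  have hA : HasDerivAt (fun y => step ((y - c.a) / c.w)) (step1 ((x - c.a) / c.w) * (1 / c.w)) x :=
    (hasDerivAt_step _).comp x (((hasDerivAt_id x).sub_const c.a).div_const c.w)
  have hB : HasDerivAt (fun y => step ((c.b - y) / c.w))
      (step1 ((c.b - x) / c.w) * (-1 / c.w)) x :=
    (hasDerivAt_step _).comp x (((hasDerivAt_id x).const_sub c.b).div_const c.w)
  refine ((((c.hq x).mul ((hA.add hB).sub_const 1)).add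
    ((hA.const_sub 1).const_mul (c.el : ℝ))).add
    ((hB.const_sub 1).const_mul (c.er : ℝ))).congr_deriv ?_
  simp only [G1, Pi.add_apply]
  ring

lemma G_left {x : ℝ} (h : x ≤ c.a) : c.G x = c.el ∧ c.G1 x = 0 := by
  have hw := c.hw
  have hab := c.hab
  have h1 := step_of_nonpos (s := (x - c.a) / c.w)
    (div_nonpos_of_nonpos_of_nonneg (by linarith) hw.le)
  have h2 := step_of_one_le (s := (c.b - x) / c.w) (by rw [le_div_iff₀ hw]; linarith)
  simp [G, G1, h1.1, h1.2, h2.1, h2.2]

lemma G_right {x : ℝ} (h : c.b ≤ x) : c.G x = c.er ∧ c.G1 x = 0 := by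
  have hw := c.hw
  have hab := c.hab
  have h1 := step_of_one_le (s := (x - c.a) / c.w) (by rw [le_div_iff₀ hw]; linarith)
  have h2 := step_of_nonpos (s := (c.b - x) / c.w)
    (div_nonpos_of_nonpos_of_nonneg (by linarith) hw.le)
  simp [G, G1, h1.1, h1.2, h2.1, h2.2]

lemma G_mid {x : ℝ} (h : c.a + c.w ≤ x) (h' : x ≤ c.b - c.w) :
    c.G x = c.q x ∧ c.G1 x = c.q1 x := by
  have hw := c.hw
  have h1 := step_of_one_le (s := (x - c.a) / c.w) (by rw [le_div_iff₀ hw]; linarith)
  have h2 := step_of_one_le (s := (c.b - x) / c.w) (by rw [le_div_iff₀ hw]; linarith)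
  simp [G, G1, h1.1, h1.2, h2.1, h2.2]

lemma B_nonneg : 0 ≤ c.B :=
  (abs_nonneg _).trans (c.hB c.a ⟨le_rfl, by linarith [c.hw, c.hab]⟩)

lemma L_nonneg : 0 ≤ c.L :=
  (abs_nonneg _).trans (c.hL c.a ⟨le_rfl, by linarith [c.hw, c.hab]⟩)

lemma q1_lip {x y : ℝ} (hx : x ∈ Set.Icc c.a c.b) (hy : y ∈ Set.Icc c.a c.b) :
    |c.q1 y - c.q1 x| ≤ c.L * |y - x| := by
  simpa [Real.norm_eq_abs] using (convex_Icc c.a c.b).norm_image_sub_le_of_norm_hasDerivWithin_le
    (fun z _ => (c.hq1 z).hasDerivWithinAt) (fun z hz => by simpa using c.hL z hz) hx hy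

lemma q_lip {x y : ℝ} (hx : x ∈ Set.Icc c.a c.b) (hy : y ∈ Set.Icc c.a c.b) :
    |c.q y - c.q x| ≤ c.B * |y - x| := by
  simpa [Real.norm_eq_abs] using (convex_Icc c.a c.b).norm_image_sub_le_of_norm_hasDerivWithin_le
    (fun z _ => (c.hq z).hasDerivWithinAt) (fun z hz => by simpa using c.hB z hz) hx hy

lemma taylor {x y : ℝ} (hx : x ∈ Set.Icc c.a c.b) (hy : y ∈ Set.Icc c.a c.b) :
    |c.q y - c.q x - c.q1 x * (y - x)| ≤ c.L * (y - x) ^ 2 := by
  have hsub : Set.uIcc x y ⊆ Set.Icc c.a c.b := Set.uIcc_subset_Icc hx hy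
  have h := (convex_uIcc x y).norm_image_sub_le_of_norm_hasDerivWithin_le
    (f := fun z => c.q z - c.q1 x * z) (C := c.L * |y - x|)
    (fun z _ => ((c.hq z).sub ((hasDerivAt_id z).const_mul (c.q1 x))).hasDerivWithinAt)
    (fun z hz => by
      have hz' := c.q1_lip hx (hsub hz)
      have hzx : |z - x| ≤ |y - x| := Set.abs_sub_left_of_mem_uIcc hz
      rw [mul_one, Real.norm_eq_abs]
      exact hz'.trans (mul_le_mul_of_nonneg_left hzx c.L_nonneg))
    Set.left_mem_uIcc Set.right_mem_uIcc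
  simp only [Real.norm_eq_abs] at h
  calc |c.q y - c.q x - c.q1 x * (y - x)| = |c.q y - c.q1 x * y - (c.q x - c.q1 x * x)| := by
        congr 1; ring
    _ ≤ c.L * |y - x| * |y - x| := h
    _ = c.L * (y - x) ^ 2 := by rw [mul_assoc, abs_mul_abs_self, sq]

/-- The range of the derivative is enlarged only a little. -/
lemma G1_abs_le (x : ℝ) : |c.G1 x| ≤ c.B + 2 / c.w * (1 + c.L * c.w ^ 2) := by
  have hw := c.hw
  have hab := c.hab
  have hB0 := c.B_nonneg
  have hL0 := c.L_nonneg
  have hnn : 0 ≤ c.B + 2 / c.w * (1 + c.L * c.w ^ 2) := by positivity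
  rcases le_total x c.a with h | ha
  · simpa [(c.G_left h).2] using hnn
  rcases le_total c.b x with h | hb
  · simpa [(c.G_right h).2] using hnn
  have strip : ∀ (p : ℝ) (e : ℤ) (s : ℝ), e = round (c.q p) → p ∈ Set.Icc c.a c.b →
      (p - x) ^ 2 ≤ c.w ^ 2 → ∀ σ : ℝ, |σ| = 1 → x - p = σ * (c.w * (clamp s - 1)) →
      |c.q1 x * step s + σ * (step1 s / c.w) * (c.q x - e)|
        ≤ c.B + 2 / c.w * (1 + c.L * c.w ^ 2) := by
    intro p e s he hp hsq σ hσ hs
    have hr : |c.q p - e| ≤ 1 := by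
      rw [he]; exact (abs_sub_round _).trans (by norm_num)
    have ht := c.taylor ⟨ha, hb⟩ hp
    have hσ2 : σ * σ = 1 := by
      rcases abs_eq (zero_le_one) |>.1 hσ with rfl | rfl <;> norm_num
    have hid : c.q1 x * step s + σ * (step1 s / c.w) * (c.q x - e)
        = c.q1 x * (step s + step1 s * (clamp s - 1))
          + σ * (step1 s / c.w) * ((c.q p - e) - (c.q p - c.q x - c.q1 x * (p - x))) := by
      have : step1 s * (clamp s - 1) = σ * (step1 s / c.w) * (x - p) := by
        rw [hs, show σ * (step1 s / c.w) * (σ * (c.w * (clamp s - 1)))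
          = σ * σ * (step1 s / c.w * c.w) * (clamp s - 1) by ring, hσ2,
          div_mul_cancel₀ _ hw.ne']
        ring
      rw [mul_add, this]; ring
    rw [hid]
    refine (abs_add_le _ _).trans (add_le_add ?_ ?_)
    · rw [abs_mul]
      calc _ ≤ c.B * 1 := mul_le_mul (c.hB x ⟨ha, hb⟩) (blend_abs_le s) (abs_nonneg _) hB0
        _ = c.B := mul_one _
    · rw [abs_mul, abs_mul, hσ, one_mul, abs_div, abs_of_pos hw]
      refine mul_le_mul (div_le_div_of_nonneg_right (step1_abs_le s) hw.le) ?_ (abs_nonneg _)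
        (by positivity)
      calc _ ≤ |c.q p - e| + |c.q p - c.q x - c.q1 x * (p - x)| := abs_sub _ _
        _ ≤ 1 + c.L * c.w ^ 2 := add_le_add hr (ht.trans (mul_le_mul_of_nonneg_left hsq hL0))
  rcases le_total x (c.a + c.w) with h | h
  · have h2 := step_of_one_le (s := (c.b - x) / c.w) (by rw [le_div_iff₀ hw]; linarith)
    have hcl : clamp ((x - c.a) / c.w) = (x - c.a) / c.w :=
      clamp_of_mem (div_nonneg (by linarith) hw.le) (by rw [div_le_iff₀ hw]; linarith)
    have := strip (c.a + c.w) c.el ((x - c.a) / c.w) rfl ⟨by linarith, by linarith⟩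
      (pow_le_pow_left₀ (by linarith) (by linarith) 2) 1 abs_one
      (by rw [hcl]; field_simp; ring)
    simpa [G1, h2.1, h2.2] using this
  rcases le_total x (c.b - c.w) with h' | h'
  · rw [(c.G_mid h h').2]
    linarith [c.hB x ⟨ha, hb⟩, mul_nonneg (div_nonneg zero_le_two hw.le)
      (add_nonneg zero_le_one (mul_nonneg hL0 (sq_nonneg c.w)))]
  · have h1 := step_of_one_le (s := (x - c.a) / c.w) (by rw [le_div_iff₀ hw]; linarith)
    have hcl : clamp ((c.b - x) / c.w) = (c.b - x) / c.w :=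
      clamp_of_mem (div_nonneg (by linarith) hw.le) (by rw [div_le_iff₀ hw]; linarith)
    have hsq : (c.b - c.w - x) ^ 2 ≤ c.w ^ 2 := by
      nlinarith
    have := strip (c.b - c.w) c.er ((c.b - x) / c.w) rfl ⟨by linarith, by linarith⟩
      hsq (-1) (by simp) (by rw [hcl]; field_simp; ring)
    simpa [G1, h1.1, h1.2, neg_mul, mul_assoc] using this

/-- A Lipschitz constant for the derivative. -/
noncomputable def lip : ℝ :=
  c.L + c.B * (6 / c.w) + 2 * (6 / c.w ^ 2 * (1 + c.B * c.w) + 2 / c.w * c.B)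

lemma lip_nonneg : 0 ≤ c.lip := by
  have := c.B_nonneg
  have := c.L_nonneg
  have := c.hw
  unfold lip; positivity

lemma abs_mul_sub_le {f g f' g' F F' G G' : ℝ} (hf : |f - f'| ≤ F') (hg : |g| ≤ G)
    (hf' : |f'| ≤ F) (hg' : |g - g'| ≤ G') : |f * g - f' * g'| ≤ F' * G + F * G' := by
  rw [show f * g - f' * g' = (f - f') * g + f' * (g - g') by ring]
  refine (abs_add_le _ _).trans (add_le_add ?_ ?_) <;> rw [abs_mul] <;> gcongr
  · exact (abs_nonneg _).trans hf
  · exact (abs_nonneg _).trans hf'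

lemma G1_lip (x y : ℝ) : |c.G1 x - c.G1 y| ≤ c.lip * |x - y| := by
  have hw := c.hw
  have hab := c.hab
  have hB0 := c.B_nonneg
  have inside : ∀ u ∈ Set.Icc c.a c.b, ∀ v ∈ Set.Icc c.a c.b,
      |c.G1 u - c.G1 v| ≤ c.lip * |u - v| := by
    intro u hu v hv
    set p : ℝ → ℝ := fun t => min t (c.a + c.w)
    set r : ℝ → ℝ := fun t => max t (c.b - c.w)
    have pm : ∀ t ∈ Set.Icc c.a c.b, p t ∈ Set.Icc c.a c.b := fun t ht =>
      ⟨le_min ht.1 (by linarith), (min_le_left _ _).trans ht.2⟩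
    have rm : ∀ t ∈ Set.Icc c.a c.b, r t ∈ Set.Icc c.a c.b := fun t ht =>
      ⟨ht.1.trans (le_max_left _ _), max_le ht.2 (by linarith)⟩
    have pb : ∀ t ∈ Set.Icc c.a c.b, |c.q (p t) - c.el| ≤ 1 + c.B * c.w := by
      intro t ht
      have h1 := c.q_lip (x := c.a + c.w) ⟨by linarith, by linarith⟩ (pm t ht)
      have h2 : |p t - (c.a + c.w)| ≤ c.w := by
        have := (pm t ht).1
        have := min_le_right t (c.a + c.w)
        rw [abs_le]; constructor <;> linarith
      calc _ ≤ |c.q (p t) - c.q (c.a + c.w)| + |c.q (c.a + c.w) - c.el| := abs_sub_le _ _ _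
        _ ≤ c.B * c.w + 1 := add_le_add (h1.trans (mul_le_mul_of_nonneg_left h2 hB0))
            ((abs_sub_round _).trans (by norm_num))
        _ = 1 + c.B * c.w := add_comm _ _
    have rb : ∀ t ∈ Set.Icc c.a c.b, |c.q (r t) - c.er| ≤ 1 + c.B * c.w := by
      intro t ht
      have h1 := c.q_lip (x := c.b - c.w) ⟨by linarith, by linarith⟩ (rm t ht)
      have h2 : |r t - (c.b - c.w)| ≤ c.w := by
        have := (rm t ht).2
        have := le_max_right t (c.b - c.w)
        rw [abs_le]; constructor <;> linarith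
      calc _ ≤ |c.q (r t) - c.q (c.b - c.w)| + |c.q (c.b - c.w) - c.er| := abs_sub_le _ _ _
        _ ≤ c.B * c.w + 1 := add_le_add (h1.trans (mul_le_mul_of_nonneg_left h2 hB0))
            ((abs_sub_round _).trans (by norm_num))
        _ = 1 + c.B * c.w := add_comm _ _
    have e1 : ∀ t, step1 ((t - c.a) / c.w) / c.w * (c.q t - c.el)
        = step1 ((t - c.a) / c.w) / c.w * (c.q (p t) - c.el) := by
      intro t
      rcases le_total t (c.a + c.w) with h | h
      · rw [show p t = t from min_eq_left h]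
      · rw [(step_of_one_le (s := (t - c.a) / c.w) (by rw [le_div_iff₀ hw]; linarith)).2]; simp
    have e2 : ∀ t, step1 ((c.b - t) / c.w) / c.w * (c.q t - c.er)
        = step1 ((c.b - t) / c.w) / c.w * (c.q (r t) - c.er) := by
      intro t
      rcases le_total (c.b - c.w) t with h | h
      · rw [show r t = t from max_eq_left h]
      · rw [(step_of_one_le (s := (c.b - t) / c.w) (by rw [le_div_iff₀ hw]; linarith)).2]; simp
    have d1 : |(u - c.a) / c.w - (v - c.a) / c.w| = |u - v| / c.w := by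
      rw [← sub_div, abs_div, abs_of_pos hw]; congr 2; ring
    have d2 : |(c.b - u) / c.w - (c.b - v) / c.w| = |u - v| / c.w := by
      rw [← sub_div, abs_div, abs_of_pos hw, abs_sub_comm u v]; congr 2; ring
    have t1 : |c.q1 u * (step ((u - c.a) / c.w) + step ((c.b - u) / c.w) - 1)
        - c.q1 v * (step ((v - c.a) / c.w) + step ((c.b - v) / c.w) - 1)|
        ≤ c.L * |u - v| * 1 + c.B * (6 / c.w * |u - v|) := by
      refine abs_mul_sub_le (c.q1_lip hv hu) ?_ (c.hB v hv) ?_
      · have := step_mem ((u - c.a) / c.w)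
        have := step_mem ((c.b - u) / c.w)
        rw [abs_le]; constructor <;> linarith
      · have s1 := step_lip ((u - c.a) / c.w) ((v - c.a) / c.w)
        have s2 := step_lip ((c.b - u) / c.w) ((c.b - v) / c.w)
        rw [d1] at s1
        rw [d2] at s2
        rw [show ∀ A B A' B' : ℝ, A + B - 1 - (A' + B' - 1) = (A - A') + (B - B') from
          fun A B A' B' => by ring]
        refine (abs_add_le _ _).trans ((add_le_add s1 s2).trans (le_of_eq ?_))
        ring
    have t2 : |step1 ((u - c.a) / c.w) / c.w * (c.q (p u) - c.el)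
        - step1 ((v - c.a) / c.w) / c.w * (c.q (p v) - c.el)|
        ≤ 6 / c.w ^ 2 * |u - v| * (1 + c.B * c.w) + 2 / c.w * (c.B * |u - v|) := by
      refine abs_mul_sub_le ?_ (pb u hu) ?_ ?_
      · rw [← sub_div, abs_div, abs_of_pos hw]
        have s1 := step1_lip ((u - c.a) / c.w) ((v - c.a) / c.w)
        rw [d1] at s1
        refine (div_le_div_of_nonneg_right s1 hw.le).trans (le_of_eq ?_)
        field_simp
      · rw [abs_div, abs_of_pos hw]
        exact div_le_div_of_nonneg_right (step1_abs_le _) hw.le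
      · rw [sub_sub_sub_cancel_right]
        refine (c.q_lip (pm v hv) (pm u hu)).trans (mul_le_mul_of_nonneg_left ?_ hB0)
        exact (abs_min_sub_min_le_max _ _ _ _).trans (by simp)
    have t3 : |step1 ((c.b - u) / c.w) / c.w * (c.q (r u) - c.er)
        - step1 ((c.b - v) / c.w) / c.w * (c.q (r v) - c.er)|
        ≤ 6 / c.w ^ 2 * |u - v| * (1 + c.B * c.w) + 2 / c.w * (c.B * |u - v|) := by
      refine abs_mul_sub_le ?_ (rb u hu) ?_ ?_
      · rw [← sub_div, abs_div, abs_of_pos hw]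
        have s1 := step1_lip ((c.b - u) / c.w) ((c.b - v) / c.w)
        rw [d2] at s1
        refine (div_le_div_of_nonneg_right s1 hw.le).trans (le_of_eq ?_)
        field_simp
      · rw [abs_div, abs_of_pos hw]
        exact div_le_div_of_nonneg_right (step1_abs_le _) hw.le
      · rw [sub_sub_sub_cancel_right]
        refine (c.q_lip (rm v hv) (rm u hu)).trans (mul_le_mul_of_nonneg_left ?_ hB0)
        exact (abs_max_sub_max_le_max _ _ _ _).trans (by simp)
    simp only [G1, neg_mul]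
    rw [e1 u, e1 v, e2 u, e2 v]
    rw [show ∀ A P Q A' P' Q' : ℝ, A + P + -Q - (A' + P' + -Q')
      = (A - A') + (P - P') - (Q - Q') from fun _ _ _ _ _ _ => by ring]
    refine (abs_sub _ _).trans ((add_le_add ((abs_add_le _ _).trans (add_le_add t1 t2)) t3).trans
      (le_of_eq ?_))
    unfold lip; ring
  set K : ℝ → ℝ := fun t => max c.a (min c.b t)
  have Kmem : ∀ t, K t ∈ Set.Icc c.a c.b := fun t =>
    ⟨le_max_left _ _, max_le (by linarith) (min_le_left _ _)⟩
  have Keq : ∀ t, c.G1 t = c.G1 (K t) := by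
    intro t
    rcases le_total t c.a with h | h
    · rw [show K t = c.a by simp [K, min_eq_right (show t ≤ c.b by linarith), max_eq_left h],
        (c.G_left h).2, (c.G_left le_rfl).2]
    rcases le_total c.b t with h' | h'
    · rw [show K t = c.b by simp [K, min_eq_left h', max_eq_right (show c.a ≤ c.b by linarith)],
        (c.G_right h').2, (c.G_right le_rfl).2]
    · rw [show K t = t by simp [K, min_eq_right h', max_eq_right h]]
  rw [Keq x, Keq y]
  refine (inside _ (Kmem x) _ (Kmem y)).trans (mul_le_mul_of_nonneg_left ?_ c.lip_nonneg)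
  refine (abs_max_sub_max_le_max _ _ _ _).trans ?_
  rw [sub_self, abs_zero, max_eq_right (abs_nonneg _)]
  exact (abs_min_sub_min_le_max _ _ _ _).trans (by simp)

end Cell

end Vale.Agent.P110.Smoothing
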