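import Vale.Agent.P110.Basic

/-!
# P110, module E: an averaged Dirichlet kernel (de la Vallée Poussin type)
-/

namespace Vale.Agent.P110.Smoothing

open scoped BigOperators Real
open Complex MeasureTheory intervalIntegral

/-- `n` times the Fejér kernel. -/
noncomputable def fejer (n : ℕ) (s : ℝ) : ℝ :=
  ‖∑ a ∈ Finset.range n, cis ((a : ℝ) * s)‖ ^ 2

/-- The Dirichlet kernel. -/
noncomputable def dirich (k : ℕ) (s : ℝ) : ℂ :=
  ∑ j ∈ Finset.Icc (-(k : ℤ)) k, cis ((j : ℝ) * s)

lemma dirich_succ (k : ℕ) (s : ℝ) : dirich (k + 1) s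
    = dirich k s + (cis (((k : ℝ) + 1) * s) + cis (-(((k : ℝ) + 1) * s))) := by
  have hset : Finset.Icc (-((k + 1 : ℕ) : ℤ)) ((k + 1 : ℕ) : ℤ)
      = insert ((k : ℤ) + 1) (insert (-((k : ℤ) + 1)) (Finset.Icc (-(k : ℤ)) k)) := by
    ext j; simp only [Finset.mem_Icc, Finset.mem_insert]; omega
  unfold dirich
  rw [hset, Finset.sum_insert (by simp only [Finset.mem_Icc, Finset.mem_insert]; omega),
    Finset.sum_insert (by simp only [Finset.mem_Icc]; omega)]
  push_cast
  rw [neg_mul]; ring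

lemma dirich_eq (k : ℕ) (s : ℝ) : dirich k s
    = 1 + ∑ a ∈ Finset.range k, (cis (((a : ℝ) + 1) * s) + cis (-(((a : ℝ) + 1) * s))) := by
  induction k with
  | zero => simp [dirich, cis_zero]
  | succ k ih => rw [dirich_succ, ih, Finset.sum_range_succ]; ring

lemma fejer_eq (n : ℕ) (s : ℝ) :
    (fejer n s : ℂ) = ∑ k ∈ Finset.range n, dirich k s := by
  induction n with
  | zero => simp [fejer]
  | succ n ih =>
    rw [Finset.sum_range_succ, ← ih, dirich_eq]
    have hc : ∀ m, (fejer m s : ℂ) = (∑ a ∈ Finset.range m, cis ((a : ℝ) * s))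
        * (starRingEnd ℂ) (∑ a ∈ Finset.range m, cis ((a : ℝ) * s)) := fun m => by
      rw [Complex.mul_conj, fejer, Complex.sq_norm]
    rw [hc (n + 1), hc n, Finset.sum_range_succ, map_add, conj_cis]
    have h1 : cis (-((n : ℝ) * s)) * (∑ a ∈ Finset.range n, cis ((a : ℝ) * s))
        = ∑ a ∈ Finset.range n, cis (-(((a : ℝ) + 1) * s)) := by
      rw [Finset.mul_sum, ← Finset.sum_range_reflect]
      refine Finset.sum_congr rfl fun a ha => ?_
      rw [Finset.mem_range] at ha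
      rw [← cis_add, show n - 1 - a = n - (a + 1) by omega, Nat.cast_sub (by omega)]
      congr 1; push_cast; ring
    have h2 : cis ((n : ℝ) * s) * (starRingEnd ℂ) (∑ a ∈ Finset.range n, cis ((a : ℝ) * s))
        = ∑ a ∈ Finset.range n, cis (((a : ℝ) + 1) * s) := by
      rw [map_sum, Finset.mul_sum, ← Finset.sum_range_reflect]
      refine Finset.sum_congr rfl fun a ha => ?_
      rw [Finset.mem_range] at ha
      rw [conj_cis, ← cis_add, show n - 1 - a = n - (a + 1) by omega, Nat.cast_sub (by omega)]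
      congr 1; push_cast; ring
    have h3 : cis ((n : ℝ) * s) * cis (-((n : ℝ) * s)) = 1 := by
      rw [← cis_add, add_neg_cancel, cis_zero]
    rw [Finset.sum_add_distrib, ← h1, ← h2]
    linear_combination h3

lemma periodic_cis_mul (j : ℤ) : Function.Periodic (fun s : ℝ => cis ((j : ℝ) * s)) 1 := fun s => by
  simp only
  rw [mul_add, mul_one, cis_add_int]

lemma integral_centred_cis (j : ℤ) :
    ∫ s in (-(1 / 2) : ℝ)..(1 / 2), cis ((j : ℝ) * s) = if j = 0 then 1 else 0 := by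
  have h := (periodic_cis_mul j).intervalIntegral_add_eq (-(1 / 2)) 0
  rw [zero_add, show (-(1 / 2) : ℝ) + 1 = 1 / 2 by norm_num] at h
  rw [h, integral_cis_int]

lemma fejer_nonneg (n : ℕ) (s : ℝ) : 0 ≤ fejer n s := sq_nonneg _

@[fun_prop] lemma continuous_fejer (n : ℕ) : Continuous (fejer n) := by
  unfold fejer; fun_prop

@[fun_prop] lemma continuous_dirich (n : ℕ) : Continuous (dirich n) := by
  unfold dirich; fun_prop

lemma integral_fejer (n : ℕ) : ∫ s in (-(1 / 2) : ℝ)..(1 / 2), fejer n s = n := by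
  have h : (((∫ s in (-(1 / 2) : ℝ)..(1 / 2), fejer n s) : ℝ) : ℂ) = n := by
    rw [← intervalIntegral.integral_ofReal]
    simp only [fejer_eq]
    rw [intervalIntegral.integral_finsetSum
      fun k _ => (continuous_dirich k).intervalIntegrable _ _]
    have : ∀ k : ℕ, ∫ s in (-(1 / 2) : ℝ)..(1 / 2), dirich k s = 1 := by
      intro k
      unfold dirich
      rw [intervalIntegral.integral_finsetSum
        fun j _ => (Continuous.intervalIntegrable (by fun_prop) _ _)]
      simp only [integral_centred_cis]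
      rw [Finset.sum_ite_eq' (Finset.Icc (-(k : ℤ)) k) 0 (fun _ => (1 : ℂ))]
      simp
    rw [Finset.sum_congr rfl fun k _ => this k]
    simp
  exact_mod_cast h

lemma fejer_le (n : ℕ) {s : ℝ} (h0 : s ≠ 0) (h1 : |s| ≤ 1 / 2) :
    fejer n s ≤ 1 / (4 * s ^ 2) := by
  have hpow : ∀ a : ℕ, cis ((a : ℝ) * s) = cis s ^ a := fun a => by
    unfold cis; rw [← Complex.exp_nat_mul]; congr 1; push_cast; ring
  have hgeo : (∑ a ∈ Finset.range n, cis ((a : ℝ) * s)) * (cis s - 1) = cis s ^ n - 1 := by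
    simp only [hpow]; exact geom_sum_mul _ _
  have hlow : 4 * |s| ≤ ‖cis s - 1‖ := by
    have e : ‖cis s - 1‖ = 2 * |Real.sin (π * s)| := by
      unfold cis
      rw [mul_comm, Complex.norm_exp_I_mul_ofReal_sub_one, Real.norm_eq_abs, abs_mul,
        abs_two, show 2 * π * s / 2 = π * s by ring]
    have hsin := Real.mul_abs_le_abs_sin (x := π * s) (by
      rw [abs_mul, abs_of_pos Real.pi_pos]; nlinarith [Real.pi_pos])
    rw [abs_mul, abs_of_pos Real.pi_pos, ← mul_assoc, div_mul_cancel₀ _ Real.pi_ne_zero] at hsin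
    rw [e]; linarith
  have hup : ‖∑ a ∈ Finset.range n, cis ((a : ℝ) * s)‖ * ‖cis s - 1‖ ≤ 2 := by
    rw [← norm_mul, hgeo]
    refine (norm_sub_le _ _).trans ?_
    rw [norm_pow, norm_cis, one_pow, norm_one]; norm_num
  have hs : 0 < |s| := abs_pos.2 h0
  have hS : ‖∑ a ∈ Finset.range n, cis ((a : ℝ) * s)‖ * |s| ≤ 1 / 2 := by
    nlinarith [norm_nonneg (∑ a ∈ Finset.range n, cis ((a : ℝ) * s))]
  rw [fejer, le_div_iff₀ (by positivity), ← sq_abs s]
  nlinarith [mul_le_mul hS hS (by positivity) (by norm_num)]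

lemma integral_fejer_mul_le (n : ℕ) (h : ℝ → ℂ) (hc : Continuous h) (hb : ∀ s, ‖h s‖ ≤ 2)
    {δ β : ℝ} (hδ : 0 < δ) (hδ' : δ ≤ 1 / 2) (hβ : ∀ s, |s| ≤ δ → ‖h s‖ ≤ β) :
    ∫ s in (-(1 / 2) : ℝ)..(1 / 2), fejer n s * ‖h s‖ ≤ n * β + 1 / δ := by
  have hf : Continuous fun s => fejer n s * ‖h s‖ := by fun_prop
  have ii := fun a b => hf.intervalIntegrable (μ := volume) a b
  rw [← integral_add_adjacent_intervals (ii (-(1 / 2)) (-δ)) (ii (-δ) (1 / 2)),
    ← integral_add_adjacent_intervals (ii (-δ) δ) (ii δ (1 / 2))]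
  have tail : ∀ σ : ℝ, σ ^ 2 = 1 →
      ∫ s in δ..(1 / 2 : ℝ), fejer n (σ * s) * ‖h (σ * s)‖ ≤ 1 / (2 * δ) := by
    intro σ hσ
    have hne : ∀ s ∈ Set.uIcc δ (1 / 2), s ≠ 0 := fun s hs => by
      rw [Set.uIcc_of_le hδ'] at hs
      exact (lt_of_lt_of_le hδ hs.1).ne'
    have hint : ∫ s in δ..(1 / 2 : ℝ), 2 * (1 / (4 * s ^ 2)) = (1 / 2) * (1 / δ - 2) := by
      rw [integral_eq_sub_of_hasDerivAt (f := fun s => -(1 / 2) * s⁻¹)]
      · field_simp; ring
      · intro s hs
        exact ((hasDerivAt_inv (hne s hs)).const_mul _).congr_deriv (by field_simp; ring)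
      · exact (ContinuousOn.intervalIntegrable (by
          intro s hs
          have := hne s hs
          exact ContinuousAt.continuousWithinAt (by fun_prop (disch := positivity))))
    refine le_trans (integral_mono_on hδ' (Continuous.intervalIntegrable (by fun_prop) _ _)
      (ContinuousOn.intervalIntegrable (u := fun s : ℝ => 2 * (1 / (4 * s ^ 2))) (by
          intro s hs
          have := hne s hs
          exact ContinuousAt.continuousWithinAt (by fun_prop (disch := positivity))))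
      fun s hs => ?_) (hint.trans_le ?_)
    · have hs0 : 0 < s := lt_of_lt_of_le hδ hs.1
      have hσ1 : |σ| = 1 := by nlinarith [abs_nonneg σ, sq_abs σ]
      have := fejer_le n (s := σ * s)
        (mul_ne_zero (by rintro rfl; norm_num at hσ) hs0.ne')
        (by rw [abs_mul, hσ1, one_mul, abs_of_pos hs0]; exact hs.2)
      rw [mul_pow, hσ, one_mul] at this
      calc _ ≤ (1 / (4 * s ^ 2)) * 2 := mul_le_mul this (hb _) (norm_nonneg _) (by positivity)
        _ = _ := mul_comm _ _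
    · rw [one_div (2 * δ), mul_inv]; simp only [one_div]; linarith
  have t1 : ∫ s in (-(1 / 2) : ℝ)..(-δ), fejer n s * ‖h s‖ ≤ 1 / (2 * δ) := by
    have := tail (-1) (by norm_num)
    simp only [neg_one_mul] at this
    rwa [intervalIntegral.integral_comp_neg (fun s => fejer n s * ‖h s‖)] at this
  have t2 : ∫ s in δ..(1 / 2 : ℝ), fejer n s * ‖h s‖ ≤ 1 / (2 * δ) := by
    simpa using tail 1 (by norm_num)
  have tm : ∫ s in (-δ)..δ, fejer n s * ‖h s‖ ≤ n * β := by
    calc _ ≤ ∫ s in (-δ)..δ, fejer n s * β := integral_mono_on (by linarith) (ii _ _)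
          ((by fun_prop : Continuous fun s => fejer n s * β).intervalIntegrable _ _)
          (fun s hs => mul_le_mul_of_nonneg_left (hβ s (abs_le.2 hs)) (fejer_nonneg n s))
      _ = (∫ s in (-δ)..δ, fejer n s) * β := integral_mul_const _ _
      _ ≤ n * β := by
        refine mul_le_mul_of_nonneg_right ?_ ((norm_nonneg _).trans (hβ 0 (by simpa using hδ.le)))
        rw [← integral_fejer n]
        exact integral_mono_interval (by linarith) (by linarith) hδ'
          (Filter.Eventually.of_forall fun s => fejer_nonneg n s)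
          ((continuous_fejer n).intervalIntegrable _ _)
  have : 1 / δ = 1 / (2 * δ) + 1 / (2 * δ) := by field_simp; ring
  linarith

/-- Fourier coefficient on `[0,1]`. -/
noncomputable def coef (u : ℝ → ℂ) (j : ℤ) : ℂ := ∫ t in (0 : ℝ)..1, u t * cis (-((j : ℝ) * t))

/-- The smoothed polynomial, before normalisation by `n₂ - n₁`. -/
noncomputable def smoothPoly (u : ℝ → ℂ) (m₀ : ℤ) (n₁ n₂ : ℕ) (x : ℝ) : ℂ :=
  ∑ k ∈ Finset.Ico n₁ n₂, ∑ j ∈ Finset.Icc (-(k : ℤ)) k,
    coef u (m₀ + j) * cis (((m₀ + j : ℤ) : ℝ) * x)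

lemma conv_cis {u : ℝ → ℂ} (hp : Function.Periodic u 1) (j : ℤ) (x : ℝ) :
    ∫ s in (-(1 / 2) : ℝ)..(1 / 2), cis ((j : ℝ) * s) * u (x - s)
      = coef u j * cis ((j : ℝ) * x) := by
  have e : ∀ s : ℝ, cis ((j : ℝ) * s) * u (x - s)
      = cis ((j : ℝ) * x) * (fun t => u t * cis (-((j : ℝ) * t))) (x - s) := by
    intro s
    simp only
    rw [mul_left_comm, ← cis_add, mul_comm]
    congr 2
    ring
  have hper : Function.Periodic (fun t => u t * cis (-((j : ℝ) * t))) 1 := by
    intro t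
    simp only [hp t]
    rw [show -((j : ℝ) * (t + 1)) = -((j : ℝ) * t) - (j : ℝ) by ring, cis_sub_int]
  simp only [e]
  rw [intervalIntegral.integral_const_mul,
    intervalIntegral.integral_comp_sub_left (fun t => u t * cis (-((j : ℝ) * t))) x]
  have := hper.intervalIntegral_add_eq (x - 1 / 2) 0
  rw [zero_add, show x - 1 / 2 + 1 = x - -(1 / 2) by ring] at this
  rw [this, coef, mul_comm]

/-- The smoothing lemma at one point. -/
lemma smoothPoly_near {u : ℝ → ℂ} (hc : Continuous u) (hp : Function.Periodic u 1)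
    (hu : ∀ t, ‖u t‖ = 1) {m₀ m : ℤ} {n₁ n₂ : ℕ} (hn : n₁ < n₂) (hm : |m - m₀| ≤ (n₁ : ℤ))
    (x : ℝ) {δ β : ℝ} (hδ : 0 < δ) (hδ' : δ ≤ 1 / 2)
    (hloc : ∀ s, |s| ≤ δ → ‖u (x - s) - u x * cis (-((m : ℝ) * s))‖ ≤ β) :
    ‖smoothPoly u m₀ n₁ n₂ x / (((n₂ : ℝ) - n₁ : ℝ) : ℂ) - u x‖
      ≤ (((n₁ : ℝ) + n₂) * β + 2 / δ) / ((n₂ : ℝ) - n₁) := by
  set h : ℝ → ℂ := fun s => u (x - s) - u x * cis (-((m : ℝ) * s)) with hh
  have hhc : Continuous h := by rw [hh]; fun_prop
  have hb : ∀ s, ‖h s‖ ≤ 2 := fun s => (norm_sub_le _ _).trans (by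
    rw [norm_mul, hu, hu, norm_cis]; norm_num)
  have key : smoothPoly u m₀ n₁ n₂ x - (((n₂ : ℝ) - n₁ : ℝ) : ℂ) * u x
      = ∫ s in (-(1 / 2) : ℝ)..(1 / 2),
          cis ((m₀ : ℝ) * s) * ((fejer n₂ s : ℂ) - fejer n₁ s) * h s := by
    have e : ∀ s : ℝ, cis ((m₀ : ℝ) * s) * ((fejer n₂ s : ℂ) - fejer n₁ s) * h s
        = ∑ k ∈ Finset.Ico n₁ n₂, ∑ j ∈ Finset.Icc (-(k : ℤ)) k,
          (cis (((m₀ + j : ℤ) : ℝ) * s) * u (x - s)
            - u x * cis (((m₀ + j - m : ℤ) : ℝ) * s)) := by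
      intro s
      rw [fejer_eq, fejer_eq, ← Finset.sum_Ico_eq_sub _ hn.le, Finset.mul_sum, Finset.sum_mul]
      refine Finset.sum_congr rfl fun k _ => ?_
      rw [dirich, Finset.mul_sum, Finset.sum_mul]
      refine Finset.sum_congr rfl fun j _ => ?_
      simp only [hh]
      push_cast
      rw [show ((m₀ : ℝ) + j - m) * s = ((m₀ : ℝ) * s + (j : ℝ) * s) + -((m : ℝ) * s) by ring,
        cis_add, cis_add, show ((m₀ : ℝ) + j) * s = (m₀ : ℝ) * s + (j : ℝ) * s by ring, cis_add]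
      ring
    simp only [e]
    rw [intervalIntegral.integral_finsetSum
      fun k _ => Continuous.intervalIntegrable (by fun_prop) _ _]
    have e2 : ∀ k ∈ Finset.Ico n₁ n₂,
        ∫ s in (-(1 / 2) : ℝ)..(1 / 2), ∑ j ∈ Finset.Icc (-(k : ℤ)) k,
          (cis (((m₀ + j : ℤ) : ℝ) * s) * u (x - s)
            - u x * cis (((m₀ + j - m : ℤ) : ℝ) * s))
        = (∑ j ∈ Finset.Icc (-(k : ℤ)) k, coef u (m₀ + j) * cis (((m₀ + j : ℤ) : ℝ) * x))
          - u x := by
      intro k hk
      rw [intervalIntegral.integral_finsetSum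
        fun j _ => Continuous.intervalIntegrable (by fun_prop) _ _]
      have e3 : ∀ j : ℤ, ∫ s in (-(1 / 2) : ℝ)..(1 / 2),
          (cis (((m₀ + j : ℤ) : ℝ) * s) * u (x - s)
            - u x * cis (((m₀ + j - m : ℤ) : ℝ) * s))
          = coef u (m₀ + j) * cis (((m₀ + j : ℤ) : ℝ) * x)
            - (if j = m - m₀ then u x else 0) := by
        intro j
        rw [intervalIntegral.integral_sub (Continuous.intervalIntegrable (by fun_prop) _ _)
          (Continuous.intervalIntegrable (by fun_prop) _ _), conv_cis hp,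
          intervalIntegral.integral_const_mul, integral_centred_cis]
        congr 1
        by_cases hj : j = m - m₀
        · simp [hj]
        · rw [if_neg hj, if_neg (by omega), mul_zero]
      simp only [e3, Finset.sum_sub_distrib]
      rw [Finset.sum_ite_eq', if_pos]
      simp only [Finset.mem_Ico] at hk
      rw [abs_le] at hm
      simp only [Finset.mem_Icc]
      omega
    rw [Finset.sum_congr rfl e2, Finset.sum_sub_distrib]
    simp only [smoothPoly, Finset.sum_const, Nat.card_Ico, nsmul_eq_mul, Nat.cast_sub hn.le]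
    push_cast; ring
  have hpos : (0 : ℝ) < (n₂ : ℝ) - n₁ := sub_pos.2 (by exact_mod_cast hn)
  have hne : (((n₂ : ℝ) - n₁ : ℝ) : ℂ) ≠ 0 := by exact_mod_cast hpos.ne'
  rw [div_sub' hne, norm_div, Complex.norm_real, Real.norm_eq_abs, abs_of_pos hpos, key]
  refine div_le_div_of_nonneg_right ?_ hpos.le
  refine (intervalIntegral.norm_integral_le_integral_norm (by norm_num)).trans ?_
  calc _ ≤ ∫ s in (-(1 / 2) : ℝ)..(1 / 2), (fejer n₂ s * ‖h s‖ + fejer n₁ s * ‖h s‖) := by
        refine integral_mono_on (by norm_num) (Continuous.intervalIntegrable (by fun_prop) _ _)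
          (Continuous.intervalIntegrable (by fun_prop) _ _) fun s _ => ?_
        rw [norm_mul, norm_mul, norm_cis, one_mul, ← add_mul]
        refine mul_le_mul_of_nonneg_right ?_ (norm_nonneg _)
        refine (norm_sub_le _ _).trans (le_of_eq ?_)
        rw [Complex.norm_real, Complex.norm_real, Real.norm_eq_abs, Real.norm_eq_abs,
          abs_of_nonneg (fejer_nonneg _ _), abs_of_nonneg (fejer_nonneg _ _)]
    _ = (∫ s in (-(1 / 2) : ℝ)..(1 / 2), fejer n₂ s * ‖h s‖)
        + ∫ s in (-(1 / 2) : ℝ)..(1 / 2), fejer n₁ s * ‖h s‖ :=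
      intervalIntegral.integral_add (Continuous.intervalIntegrable (by fun_prop) _ _)
        (Continuous.intervalIntegrable (by fun_prop) _ _)
    _ ≤ (n₂ * β + 1 / δ) + (n₁ * β + 1 / δ) :=
      add_le_add (integral_fejer_mul_le n₂ h hhc hb hδ hδ' hloc)
        (integral_fejer_mul_le n₁ h hhc hb hδ hδ' hloc)
    _ = _ := by ring

/-- The smoothed polynomial as a polynomial with `2 P + 1` coefficients. -/
lemma smoothPoly_eq_sum (u : ℝ → ℂ) (m₀ : ℤ) {n₁ P : ℕ} (x : ℝ) :
    smoothPoly u m₀ n₁ (P + 1) x = ∑ i : Fin (2 * P + 1),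
      ((((Finset.Ico n₁ (P + 1)).filter (fun k : ℕ => |((i : ℕ) : ℤ) - P| ≤ (k : ℤ))).card : ℕ) : ℂ)
        * coef u (((i : ℕ) : ℤ) + (m₀ - P))
        * cis ((((i : ℕ) : ℤ) + (m₀ - P) : ℤ) * x) := by
  set f : ℤ → ℂ := fun j => coef u (m₀ + j) * cis (((m₀ + j : ℤ) : ℝ) * x)
  have e1 : ∀ k ∈ Finset.Ico n₁ (P + 1), ∑ j ∈ Finset.Icc (-(k : ℤ)) k, f j
      = ∑ i : Fin (2 * P + 1), if |((i : ℕ) : ℤ) - P| ≤ (k : ℤ) then f (((i : ℕ) : ℤ) - P) else 0 := by
    intro k hk
    rw [Finset.mem_Ico] at hk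
    rw [← Finset.sum_filter]
    refine Finset.sum_bij'
      (fun j _ => (⟨(j + P).toNat % (2 * P + 1), Nat.mod_lt _ (by omega)⟩ : Fin (2 * P + 1)))
      (fun i _ => ((i : ℕ) : ℤ) - P) ?_ ?_ ?_ ?_ ?_
    · intro j hj
      rw [Finset.mem_Icc] at hj
      simp only [Finset.mem_filter, Finset.mem_univ, true_and]
      rw [Nat.mod_eq_of_lt (by omega), abs_le]
      constructor <;> omega
    · intro i hi
      simp only [Finset.mem_filter, Finset.mem_univ, true_and, abs_le] at hi
      rw [Finset.mem_Icc]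
      omega
    · intro j hj
      rw [Finset.mem_Icc] at hj
      simp only
      rw [Nat.mod_eq_of_lt (by omega)]
      omega
    · intro i _
      ext
      simp only [sub_add_cancel, Int.toNat_natCast]
      exact Nat.mod_eq_of_lt i.2
    · intro j hj
      rw [Finset.mem_Icc] at hj
      simp only
      rw [Nat.mod_eq_of_lt (by omega)]
      congr 1
      omega
  rw [smoothPoly, Finset.sum_congr rfl e1, Finset.sum_comm]
  refine Finset.sum_congr rfl fun i _ => ?_
  rw [← Finset.sum_filter, Finset.sum_const, nsmul_eq_mul]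
  simp only [f]
  rw [show m₀ + (((i : ℕ) : ℤ) - P) = ((i : ℕ) : ℤ) + (m₀ - P) by ring, mul_assoc]

end Vale.Agent.P110.Smoothing
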