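import Vale.Agent.P110.SmoothingCell
import Vale.Agent.P110.SmoothingKernel

/-!
# P110, module E: gluing the cells into a periodic, conjugate-symmetric phase
-/

namespace Vale.Agent.P110.Smoothing

open scoped BigOperators Real
open Complex MeasureTheory intervalIntegral

/-- A family of `H` cells filling `[0,1/2]`, with common bounds. -/
structure Phase where
  H : ℕ
  hH : 0 < H
  m₀ : ℤ
  cell : Fin H → Cell
  w : ℝ
  B : ℝ
  L : ℝ
  ha : ∀ n, (cell n).a = ((n : ℕ) : ℝ) / (2 * (H : ℝ))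
  hb : ∀ n, (cell n).b = (((n : ℕ) : ℝ) + 1) / (2 * (H : ℝ))
  hw : ∀ n, (cell n).w = w
  hB : ∀ n, (cell n).B = B
  hL : ∀ n, (cell n).L = L

namespace Phase

variable (p : Phase)

/-- The odd phase on one period. -/
noncomputable def T (x : ℝ) : ℝ := ∑ n, ((p.cell n).G x - (p.cell n).G (1 - x))

/-- Its derivative. -/
noncomputable def T1 (x : ℝ) : ℝ := ∑ n, ((p.cell n).G1 x + (p.cell n).G1 (1 - x))

lemma hasDerivAt_T (x : ℝ) : HasDerivAt p.T (p.T1 x) x := by
  refine HasDerivAt.fun_sum fun n _ => ?_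
  have := ((p.cell n).hasDerivAt_G (1 - x)).comp x ((hasDerivAt_id x).const_sub 1)
  exact (((p.cell n).hasDerivAt_G x).sub this).congr_deriv (by simp only [mul_neg, mul_one]; ring)

lemma T_symm (x : ℝ) : p.T (1 - x) = -p.T x := by
  simp only [T, sub_sub_cancel, ← Finset.sum_neg_distrib, neg_sub]

lemma H_pos : (0 : ℝ) < p.H := Nat.cast_pos.2 p.hH

lemma a_nonneg (n : Fin p.H) : 0 ≤ (p.cell n).a := by
  rw [p.ha]; positivity

lemma b_le_half (n : Fin p.H) : (p.cell n).b ≤ 1 / 2 := by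
  rw [p.hb, div_le_iff₀ (mul_pos two_pos p.H_pos)]
  have : ((n : ℕ) : ℝ) + 1 ≤ p.H := by exact_mod_cast n.2
  linarith

lemma b_le_a {n n' : Fin p.H} (h : n < n') : (p.cell n).b ≤ (p.cell n').a := by
  rw [p.hb, p.ha]
  refine div_le_div_of_nonneg_right ?_ (mul_pos two_pos p.H_pos).le
  exact_mod_cast h

/-- The value to the left of everything. -/
noncomputable def leftVal : ℤ := ∑ n, ((p.cell n).el - (p.cell n).er)

lemma T_left {x : ℝ} (hx : x ≤ 0) : p.T x = p.leftVal ∧ p.T1 x = 0 := by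
  have h : ∀ n, ((p.cell n).G x = (p.cell n).el ∧ (p.cell n).G1 x = 0) ∧
      ((p.cell n).G (1 - x) = (p.cell n).er ∧ (p.cell n).G1 (1 - x) = 0) := fun n =>
    ⟨(p.cell n).G_left (hx.trans (p.a_nonneg n)),
      (p.cell n).G_right ((p.b_le_half n).trans (by linarith))⟩
  constructor
  · simp [T, leftVal, (h _).1.1, (h _).2.1]
  · simp [T1, (h _).1.2, (h _).2.2]

lemma T_right {x : ℝ} (hx : 1 ≤ x) : p.T x = -p.leftVal ∧ p.T1 x = 0 := by
  have hl := p.T_left (x := 1 - x) (by linarith)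
  constructor
  · rw [← hl.1, T_symm, neg_neg]
  · have : p.T1 (1 - x) = p.T1 x := by
      simp only [T1, sub_sub_cancel]; exact Finset.sum_congr rfl fun n _ => add_comm _ _
    rw [← this, hl.2]

/-- The periodised phase, up to integers. -/
noncomputable def F (x : ℝ) : ℝ := p.T (Int.fract x) + (⌊x⌋ : ℝ) * (-2 * p.leftVal)

/-- Its derivative. -/
noncomputable def F1 (x : ℝ) : ℝ := p.T1 (Int.fract x)

lemma F_local {k : ℤ} {x : ℝ} (h1 : (k : ℝ) - 1 ≤ x) (h2 : x < k + 1) :
    p.F x = ((k : ℝ) - 1) * (-2 * p.leftVal) - p.leftVal + (p.T (x - k + 1) + p.T (x - k)) ∧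
      p.F1 x = p.T1 (x - k + 1) + p.T1 (x - k) := by
  rcases lt_or_ge x (k : ℝ) with h | h
  · have hf : ⌊x⌋ = k - 1 := Int.floor_eq_iff.2 ⟨by push_cast; linarith, by push_cast; linarith⟩
    have hl := p.T_left (x := x - k) (by linarith)
    have hfr : Int.fract x = x - k + 1 := by rw [Int.fract, hf]; push_cast; ring
    simp only [F, F1, hf, hfr, hl.1, hl.2]
    push_cast
    constructor <;> ring
  · have hf : ⌊x⌋ = k := Int.floor_eq_iff.2 ⟨h, h2⟩
    have hr := p.T_right (x := x - k + 1) (by linarith)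
    have hfr : Int.fract x = x - k := by rw [Int.fract, hf]
    simp only [F, F1, hf, hfr, hr.1, hr.2]
    constructor <;> ring

lemma hasDerivAt_F (x : ℝ) : HasDerivAt p.F (p.F1 x) x := by
  set k : ℤ := round x
  have hk := abs_le.1 (abs_sub_round x)
  have hl := p.F_local (k := k) (x := x) (by linarith) (by linarith)
  rw [hl.2]
  have h1 := (p.hasDerivAt_T (x - k + 1)).comp x (((hasDerivAt_id x).sub_const (k : ℝ)).add_const 1)
  have h2 := (p.hasDerivAt_T (x - k)).comp x ((hasDerivAt_id x).sub_const (k : ℝ))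
  refine (((h1.add h2).const_add (((k : ℝ) - 1) * (-2 * (p.leftVal : ℝ)) - p.leftVal)).congr_deriv
    (by simp)).congr_of_eventuallyEq ?_
  filter_upwards [Ioo_mem_nhds (show (k : ℝ) - 1 < x by linarith)
    (show x < k + 1 by linarith)] with y hy
  exact (p.F_local hy.1.le hy.2).1

lemma T1_lip (x y : ℝ) : |p.T1 x - p.T1 y|
    ≤ 2 * p.H * (p.L + p.B * (6 / p.w) + 2 * (6 / p.w ^ 2 * (1 + p.B * p.w) + 2 / p.w * p.B))
      * |x - y| := by
  rw [T1, T1, ← Finset.sum_sub_distrib]
  refine (Finset.abs_sum_le_sum_abs _ _).trans ?_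
  refine (Finset.sum_le_card_nsmul _ _ (2 * (p.L + p.B * (6 / p.w)
    + 2 * (6 / p.w ^ 2 * (1 + p.B * p.w) + 2 / p.w * p.B)) * |x - y|) fun n _ => ?_).trans ?_
  · have e : (p.cell n).lip = p.L + p.B * (6 / p.w)
        + 2 * (6 / p.w ^ 2 * (1 + p.B * p.w) + 2 / p.w * p.B) := by
      rw [Cell.lip, p.hw, p.hB, p.hL]
    have h1 := (p.cell n).G1_lip x y
    have h2 := (p.cell n).G1_lip (1 - x) (1 - y)
    rw [show 1 - x - (1 - y) = y - x by ring, abs_sub_comm y x, e] at h2
    rw [e] at h1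
    calc _ = |((p.cell n).G1 x - (p.cell n).G1 y)
          + ((p.cell n).G1 (1 - x) - (p.cell n).G1 (1 - y))| := by congr 1; ring
      _ ≤ _ := (abs_add_le _ _).trans ((add_le_add h1 h2).trans (le_of_eq (by ring)))
  · simp only [Finset.card_univ, Fintype.card_fin, nsmul_eq_mul]
    exact le_of_eq (by ring)

lemma w_pos : 0 < p.w := p.hw ⟨0, p.hH⟩ ▸ (p.cell ⟨0, p.hH⟩).hw

lemma B_nonneg : 0 ≤ p.B := p.hB ⟨0, p.hH⟩ ▸ (p.cell ⟨0, p.hH⟩).B_nonneg

lemma L_nonneg : 0 ≤ p.L := p.hL ⟨0, p.hH⟩ ▸ (p.cell ⟨0, p.hH⟩).L_nonneg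

lemma T1_abs_le (x : ℝ) : |p.T1 x| ≤ p.B + 2 / p.w * (1 + p.L * p.w ^ 2) := by
  have := p.w_pos
  have := p.B_nonneg
  have := p.L_nonneg
  have key : ∀ y, |∑ n, (p.cell n).G1 y| ≤ p.B + 2 / p.w * (1 + p.L * p.w ^ 2) := by
    intro y
    by_cases hz : ∀ n, (p.cell n).G1 y = 0
    · rw [Finset.sum_eq_zero fun n _ => hz n, abs_zero]; positivity
    · push Not at hz
      obtain ⟨n, hn⟩ := hz
      have hin : (p.cell n).a < y ∧ y < (p.cell n).b := by
        constructor <;> by_contra! h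
        · exact hn ((p.cell n).G_left h).2
        · exact hn ((p.cell n).G_right h).2
      rw [Finset.sum_eq_single n]
      · have := (p.cell n).G1_abs_le y
        rwa [p.hw, p.hB, p.hL] at this
      · intro n' _ hne
        rcases lt_or_gt_of_ne hne with h | h
        · exact ((p.cell n').G_right (le_trans (p.b_le_a h) hin.1.le)).2
        · exact ((p.cell n').G_left (le_trans hin.2.le (p.b_le_a h))).2
      · simp
  rw [T1, Finset.sum_add_distrib]
  rcases le_total x (1 / 2) with h | h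
  · rw [Finset.sum_eq_zero (fun n _ =>
      ((p.cell n).G_right (x := 1 - x) (by linarith [p.b_le_half n])).2), add_zero]
    exact key x
  · rw [Finset.sum_eq_zero (fun n _ =>
      ((p.cell n).G_right (x := x) (by linarith [p.b_le_half n])).2), zero_add]
    exact key (1 - x)

/-- The full phase. -/
noncomputable def phi (x : ℝ) : ℝ := (p.m₀ : ℝ) * x + p.F x

/-- The derivative of the full phase. -/
noncomputable def phi1 (x : ℝ) : ℝ := (p.m₀ : ℝ) + p.F1 x

lemma hasDerivAt_phi (x : ℝ) : HasDerivAt p.phi (p.phi1 x) x :=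
  (((hasDerivAt_id x).const_mul (p.m₀ : ℝ)).add (p.hasDerivAt_F x)).congr_deriv (by simp [phi1])

lemma phi_taylor (x s : ℝ) (hs : |s| ≤ 1 / 4) : |p.phi (x - s) - p.phi x + p.phi1 x * s|
    ≤ 4 * p.H * (p.L + p.B * (6 / p.w) + 2 * (6 / p.w ^ 2 * (1 + p.B * p.w) + 2 / p.w * p.B))
      * s ^ 2 := by
  set Lp := 2 * p.H * (p.L + p.B * (6 / p.w) + 2 * (6 / p.w ^ 2 * (1 + p.B * p.w) + 2 / p.w * p.B))
  have hLp : 0 ≤ Lp := by
    have := p.w_pos
    have := p.B_nonneg
    have := p.L_nonneg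
    positivity
  set k : ℤ := round x
  have hk := abs_le.1 (abs_sub_round x)
  have hs' := abs_le.1 hs
  have h := (convex_uIcc x (x - s)).norm_image_sub_le_of_norm_hasDerivWithin_le
    (f := fun z => p.phi z - p.phi1 x * z) (C := 2 * Lp * |s|)
    (fun z _ => ((p.hasDerivAt_phi z).sub
      ((hasDerivAt_id z).const_mul (p.phi1 x))).hasDerivWithinAt)
    (fun z hz => by
      have hzs : |z - x| ≤ |s| := (Set.abs_sub_left_of_mem_uIcc hz).trans (by simp)
      have hzs' := abs_le.1 (hzs.trans hs)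
      have hz1 := (p.F_local (k := k) (x := z) (by linarith) (by linarith)).2
      have hx1 := (p.F_local (k := k) (x := x) (by linarith) (by linarith)).2
      rw [mul_one, Real.norm_eq_abs, phi1, phi1, hz1, hx1]
      have a1 := p.T1_lip (z - k + 1) (x - k + 1)
      have a2 := p.T1_lip (z - k) (x - k)
      rw [show z - k + 1 - (x - k + 1) = z - x by ring] at a1
      rw [show z - k - (x - k) = z - x by ring] at a2
      calc _ = |(p.T1 (z - k + 1) - p.T1 (x - k + 1)) + (p.T1 (z - k) - p.T1 (x - k))| := by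
            congr 1; ring
        _ ≤ Lp * |z - x| + Lp * |z - x| := (abs_add_le _ _).trans (add_le_add a1 a2)
        _ ≤ _ := by nlinarith)
    Set.left_mem_uIcc Set.right_mem_uIcc
  simp only [Real.norm_eq_abs] at h
  rw [show x - s - x = -s by ring, abs_neg] at h
  calc _ = |p.phi (x - s) - p.phi1 x * (x - s) - (p.phi x - p.phi1 x * x)| := by congr 1; ring
    _ ≤ 2 * Lp * |s| * |s| := h
    _ = _ := by simp only [Lp]; rw [mul_assoc, abs_mul_abs_self]; ring

lemma phi1_sub_le (x : ℝ) :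
    |p.phi1 x - p.m₀| ≤ p.B + 2 / p.w * (1 + p.L * p.w ^ 2) := by
  rw [phi1, add_sub_cancel_left]
  exact p.T1_abs_le _

/-- The unimodular function. -/
noncomputable def u (x : ℝ) : ℂ := cis (p.phi x)

lemma continuous_u : Continuous p.u :=
  continuous_cis.comp (continuous_iff_continuousAt.2 fun x => (p.hasDerivAt_phi x).continuousAt)

lemma periodic_u : Function.Periodic p.u 1 := fun x => by
  have : p.phi (x + 1) = p.phi x + ((p.m₀ - 2 * p.leftVal : ℤ) : ℝ) := by
    simp only [phi, F, Int.fract_add_one, Int.floor_add_one]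
    push_cast; ring
  rw [u, this, cis_add_int]; rfl

lemma u_eq {x : ℝ} (h0 : 0 ≤ x) (h1 : x ≤ 1) : p.u x = cis ((p.m₀ : ℝ) * x + p.T x) := by
  have hl := (p.F_local (k := 0) (x := x))
  rcases lt_or_eq_of_le h1 with h | rfl
  · have hf : ⌊x⌋ = 0 := Int.floor_eq_iff.2 ⟨by simpa using h0, by simpa using h⟩
    simp [u, phi, F, hf, Int.fract]
  · have : p.F 1 = p.T 1 := by
      rw [F, (p.T_right le_rfl).1, Int.fract_one, (p.T_left le_rfl).1, Int.floor_one]
      push_cast; ring
    rw [u, phi, this]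

lemma exists_int_of_mid (n : Fin p.H) {x : ℝ} (h : (p.cell n).a + p.w ≤ x)
    (h' : x ≤ (p.cell n).b - p.w) : ∃ z : ℤ, p.T x = (p.cell n).q x + z := by
  have hw := p.w_pos
  have key : ∀ n' : Fin p.H, ∃ z : ℤ, (p.cell n').G x - (p.cell n').G (1 - x)
      = (if n' = n then (p.cell n).q x else 0) + z := by
    intro n'
    rw [((p.cell n').G_right (x := 1 - x) (by linarith [p.b_le_half n', p.b_le_half n])).1]
    rcases lt_trichotomy n' n with hlt | rfl | hlt
    · refine ⟨(p.cell n').er - (p.cell n').er, ?_⟩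
      rw [((p.cell n').G_right (x := x) (by linarith [p.b_le_a hlt])).1, if_neg hlt.ne]
      push_cast; ring
    · refine ⟨-(p.cell n').er, ?_⟩
      rw [((p.cell n').G_mid (x := x) (by rw [p.hw]; exact h) (by rw [p.hw]; exact h')).1,
        if_pos rfl]
      push_cast; ring
    · refine ⟨(p.cell n').el - (p.cell n').er, ?_⟩
      rw [((p.cell n').G_left (x := x) (by linarith [p.b_le_a hlt])).1, if_neg hlt.ne']
      push_cast; ring
  choose z hz using key
  refine ⟨∑ n', z n', ?_⟩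
  simp only [T, hz, Finset.sum_add_distrib, Finset.sum_ite_eq', Finset.mem_univ, if_true]
  push_cast; ring

/-- The coefficient is real, and given by the half period. -/
lemma coef_u (k : ℤ) : coef p.u k
    = ((2 * (∫ t in (0 : ℝ)..(1 / 2), p.u t * cis (-((k : ℝ) * t))).re : ℝ) : ℂ) := by
  set f : ℝ → ℂ := fun t => p.u t * cis (-((k : ℝ) * t))
  have hf : Continuous f := by
    have := p.continuous_u
    fun_prop
  have e : ∀ t ∈ Set.uIcc (0 : ℝ) (1 / 2), f (1 - t) = (starRingEnd ℂ) (f t) := by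
    intro t ht
    rw [Set.uIcc_of_le (by norm_num)] at ht
    simp only [f]
    rw [p.u_eq ht.1 (by linarith [ht.2]), p.u_eq (by linarith [ht.2]) (by linarith [ht.1]),
      p.T_symm, map_mul, conj_cis, conj_cis, ← cis_add, ← cis_add,
      show (p.m₀ : ℝ) * (1 - t) + -p.T t + -((k : ℝ) * (1 - t))
        = (-((p.m₀ : ℝ) * t + p.T t) + - -((k : ℝ) * t)) + ((p.m₀ - k : ℤ) : ℝ) by
          push_cast; ring, cis_add_int]
  have h2 : ∫ t in (1 / 2 : ℝ)..1, f t = (starRingEnd ℂ) (∫ t in (0 : ℝ)..(1 / 2), f t) := by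
    have := intervalIntegral.integral_comp_sub_left (a := (0 : ℝ)) (b := 1 / 2) f 1
    rw [sub_zero, show (1 : ℝ) - 1 / 2 = 1 / 2 by norm_num] at this
    rw [← this, intervalIntegral.integral_congr e]
    exact intervalIntegral_conj
  rw [coef, ← integral_add_adjacent_intervals (hf.intervalIntegrable 0 (1 / 2))
    (hf.intervalIntegrable (1 / 2) 1), h2, Complex.add_conj]

/-- On one cell the coefficient integrand differs only in the two strips. -/
lemma cell_diff (n : Fin p.H) (k : ℤ) (ψ : ℝ → ℝ) (hψc : Continuous ψ)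
    (hψ : ∀ x, (p.cell n).q x = ψ x - (p.m₀ : ℝ) * x) :
    ‖(∫ t in (p.cell n).a..(p.cell n).b, p.u t * cis (-((k : ℝ) * t)))
      - ∫ t in (p.cell n).a..(p.cell n).b, cis (ψ t - (k : ℝ) * t)‖ ≤ 4 * p.w := by
  have hw := p.w_pos
  have hab := (p.cell n).hab
  rw [p.hw n] at hab
  have := p.continuous_u
  set g : ℝ → ℂ := fun t => p.u t * cis (-((k : ℝ) * t)) - cis (ψ t - (k : ℝ) * t)
  have hg : Continuous g := by fun_prop
  have hmid : ∫ t in ((p.cell n).a + p.w)..((p.cell n).b - p.w), g t = 0 := by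
    refine (intervalIntegral.integral_congr fun t ht => ?_).trans intervalIntegral.integral_zero
    rw [Set.uIcc_of_le (by linarith)] at ht
    obtain ⟨z, hz⟩ := p.exists_int_of_mid n ht.1 ht.2
    simp only [g]
    rw [p.u_eq (by linarith [p.a_nonneg n, ht.1]) (by linarith [p.b_le_half n, ht.2]), hz, hψ,
      ← cis_add,
      show (p.m₀ : ℝ) * t + (ψ t - (p.m₀ : ℝ) * t + z) + -((k : ℝ) * t)
        = (ψ t - (k : ℝ) * t) + z by ring, cis_add_int, sub_self]
  have hb : ∀ t, ‖g t‖ ≤ 2 := fun t => (norm_sub_le _ _).trans (by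
    rw [norm_mul, u, norm_cis, norm_cis, norm_cis]; norm_num)
  have strip : ∀ a b : ℝ, a ≤ b → b - a ≤ p.w → ‖∫ t in a..b, g t‖ ≤ 2 * p.w := fun a b h h' =>
    (intervalIntegral.norm_integral_le_of_norm_le_const fun t _ => hb t).trans (by
      rw [abs_of_nonneg (by linarith)]; linarith)
  rw [← intervalIntegral.integral_sub (Continuous.intervalIntegrable (by fun_prop) _ _)
    (Continuous.intervalIntegrable (by fun_prop) _ _)]
  change ‖∫ t in (p.cell n).a..(p.cell n).b, g t‖ ≤ _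
  rw [← integral_add_adjacent_intervals
      (hg.intervalIntegrable (p.cell n).a ((p.cell n).b - p.w))
      (hg.intervalIntegrable ((p.cell n).b - p.w) (p.cell n).b),
    ← integral_add_adjacent_intervals
      (hg.intervalIntegrable (p.cell n).a ((p.cell n).a + p.w))
      (hg.intervalIntegrable ((p.cell n).a + p.w) ((p.cell n).b - p.w)), hmid, add_zero]
  refine (norm_add_le _ _).trans ?_
  have s1 := strip (p.cell n).a ((p.cell n).a + p.w) (by linarith) (by linarith)
  have s2 := strip ((p.cell n).b - p.w) (p.cell n).b (by linarith) (by linarith)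
  linarith

end Phase

end Vale.Agent.P110.Smoothing
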