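import Mathlib
import Vale.Agent.P110.PhasePoly

/-!
# P110 module A: an almost binary trigonometric polynomial on a torus with pairwise independent
spectrum, obtained from a one-variable phase polynomial `φ` as (a truncation of)
`φ (y + a ∑ cos (2 π x_l))`.
-/

namespace Vale.Agent.P110

open scoped BigOperators Real ComplexConjugate
open Complex

/-- Coefficients of the second order Taylor polynomial of `exp (i b cos θ)`. -/
noncomputable def qc (b : ℝ) : Fin 5 → ℂ :=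
  ![((-(b ^ 2 / 8) : ℝ) : ℂ), ((b / 2 : ℝ) : ℂ) * I, ((1 - b ^ 2 / 4 : ℝ) : ℂ),
    ((b / 2 : ℝ) : ℂ) * I, ((-(b ^ 2 / 8) : ℝ) : ℂ)]

/-- The harmonic attached to an index in `Fin 5`. -/
def qe (j : Fin 5) : ℤ := ((j : ℕ) : ℤ) - 2

lemma qe_injective : Function.Injective qe := by
  intro i j hij
  exact Fin.ext (by simp only [qe] at hij; omega)

lemma norm_exp_sub_qc (b x : ℝ) (hb : |b| ≤ 1) :
    ‖Complex.exp (((b * Real.cos (2 * Real.pi * x) : ℝ) : ℂ) * I)
      - ∑ j, qc b j * cis ((qe j : ℝ) * x)‖ ≤ |b| ^ 3 := by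
  have hq : ∑ j, qc b j * cis ((qe j : ℝ) * x) = ∑ m ∈ Finset.range 3,
      (((b * Real.cos (2 * Real.pi * x) : ℝ) : ℂ) * I) ^ m / m.factorial := by
    have hcos : Complex.cos (2 * (Real.pi : ℂ) * (x : ℂ)) = (cis x + cis (-x)) / 2 := by
      rw [Complex.cos]
      unfold cis
      push_cast
      ring_nf
    have hprod : cis x * cis (-x) = 1 := by rw [← cis_add, add_neg_cancel, cis_zero]
    have h2 : cis (2 * x) = cis x * cis x := by rw [two_mul, cis_add]
    have h2' : cis (-2 * x) = cis (-x) * cis (-x) := by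
      rw [neg_mul, two_mul, neg_add, cis_add]
    simp only [Fin.sum_univ_five, qc, qe, Finset.sum_range_succ, Finset.sum_range_zero]
    push_cast
    simp [Nat.factorial, cis_zero]
    norm_num
    rw [hcos, h2]
    rw [show (-(2 * x)) = -2 * x by ring, h2']
    linear_combination (-(b : ℂ) ^ 2 / 4 * I ^ 2 * hprod) - (b : ℂ) ^ 2 / 8 *
      (cis x * cis x + cis (-x) * cis (-x) + 2) * Complex.I_sq
  rw [hq]
  have hn : ‖((b * Real.cos (2 * Real.pi * x) : ℝ) : ℂ) * I‖ ≤ |b| := by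
    rw [norm_mul, Complex.norm_I, mul_one, Complex.norm_real, Real.norm_eq_abs, abs_mul]
    exact mul_le_of_le_one_right (abs_nonneg b) (Real.abs_cos_le_one _)
  refine (Complex.exp_bound (hn.trans hb) (n := 3) (by norm_num)).trans ?_
  have h3 : ‖((b * Real.cos (2 * Real.pi * x) : ℝ) : ℂ) * I‖ ^ 3 ≤ |b| ^ 3 :=
    pow_le_pow_left₀ (norm_nonneg _) hn 3
  refine le_trans (mul_le_of_le_one_right (by positivity) ?_) h3
  norm_num [Nat.factorial]

lemma one_le_sum_norm_qc_sq (b : ℝ) : 1 ≤ ∑ j, ‖qc b j‖ ^ 2 := by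
  simp [Fin.sum_univ_five, qc]
  rw [show (1 : ℂ) - (b : ℂ) ^ 2 / 4 = ((1 - b ^ 2 / 4 : ℝ) : ℂ) by push_cast; ring,
    Complex.norm_real, Real.norm_eq_abs, sq_abs, div_pow, div_pow, sq_abs]
  nlinarith [sq_nonneg (b ^ 2), sq_nonneg b]

lemma norm_prod_sub_prod_le {ι : Type*} (s : Finset ι) (e q : ι → ℂ) {η : ℝ} (hη : 0 ≤ η)
    (he : ∀ l ∈ s, ‖e l‖ ≤ 1) (hq : ∀ l ∈ s, ‖e l - q l‖ ≤ η) :
    ‖∏ l ∈ s, e l - ∏ l ∈ s, q l‖ ≤ Real.exp (η * s.card) - 1 := by
  classical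
  induction s using Finset.induction with
  | empty => simp
  | insert a s ha ih =>
    rw [Finset.prod_insert ha, Finset.prod_insert ha, Finset.card_insert_of_notMem ha]
    have h1 := ih (fun l hl => he l (Finset.mem_insert_of_mem hl))
      (fun l hl => hq l (Finset.mem_insert_of_mem hl))
    have he1 : ‖∏ l ∈ s, e l‖ ≤ 1 := by
      rw [norm_prod]
      exact Finset.prod_le_one (fun l _ => norm_nonneg _)
        (fun l hl => he l (Finset.mem_insert_of_mem hl))
    have hqa : ‖q a‖ ≤ 1 + η := by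
      have := norm_sub_norm_le (q a) (e a)
      rw [norm_sub_rev] at this
      linarith [he a (Finset.mem_insert_self _ _), hq a (Finset.mem_insert_self _ _)]
    have heq : e a * ∏ l ∈ s, e l - q a * ∏ l ∈ s, q l
        = (e a - q a) * ∏ l ∈ s, e l + q a * (∏ l ∈ s, e l - ∏ l ∈ s, q l) := by ring
    rw [heq]
    refine (norm_add_le _ _).trans ?_
    rw [norm_mul, norm_mul]
    have h2 : (0 : ℝ) ≤ Real.exp (η * s.card) - 1 := le_trans (norm_nonneg _) h1
    calc ‖e a - q a‖ * ‖∏ l ∈ s, e l‖ + ‖q a‖ * ‖∏ l ∈ s, e l - ∏ l ∈ s, q l‖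
        ≤ η * 1 + (1 + η) * (Real.exp (η * s.card) - 1) :=
          add_le_add
            (mul_le_mul (hq a (Finset.mem_insert_self _ _)) he1 (norm_nonneg _) hη)
            (mul_le_mul hqa h1 (norm_nonneg _) (by linarith))
      _ = (η + 1) * Real.exp (η * s.card) - 1 := by ring
      _ ≤ Real.exp η * Real.exp (η * s.card) - 1 := by
          have := Real.add_one_le_exp η
          gcongr
      _ = Real.exp (η * ((s.card + 1 : ℕ) : ℝ)) - 1 := by
          rw [← Real.exp_add]; push_cast; ring_nf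

lemma pairIndep_key {k k' : ℕ} (hk : Odd k) (hk' : Odd k') {m m' : ℤ}
    (hm : m = -2 ∨ m = -1 ∨ m = 0 ∨ m = 1 ∨ m = 2)
    (hm' : m' = -2 ∨ m' = -1 ∨ m' = 0 ∨ m' = 1 ∨ m' = 2)
    (h : (k : ℤ) * m' = (k' : ℤ) * m) (hm0 : m ≠ 0) : k = k' := by
  obtain ⟨u, rfl⟩ := hk
  obtain ⟨v, rfl⟩ := hk'
  push_cast at h
  rcases hm with rfl | rfl | rfl | rfl | rfl <;>
    rcases hm' with rfl | rfl | rfl | rfl | rfl <;> omega

/-- Module A. -/
theorem torusPoly : TorusPolyStatement := by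
  classical
  intro δ hδ
  obtain ⟨u, hu0, hu1, huδ⟩ : ∃ u : ℝ, 0 < u ∧ u ≤ 1 / 20 ∧ 20 * u ≤ δ :=
    ⟨min (1 / 20) (δ / 20), lt_min (by norm_num) (by positivity), min_le_left _ _,
      by have := min_le_right (1 / 20 : ℝ) (δ / 20); linarith⟩
  obtain ⟨K, z, hKodd, hφb, hφL⟩ := exists_phase_poly hu0
  set S := ∑ k ∈ K, ‖z k‖ with hSdef
  have hS0 : 0 ≤ S := Finset.sum_nonneg fun k _ => norm_nonneg _
  -- the width `lam`
  obtain ⟨lam, hlam1, hlam⟩ : ∃ lam : ℕ, 1 ≤ lam ∧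
      Real.exp (-((lam : ℝ) ^ 2)) * (2 * S ^ 2 + 2 * S + 1) ≤ u := by
    refine ⟨⌈(2 * S ^ 2 + 2 * S + 1) / u⌉₊ + 1, Nat.le_add_left 1 _, ?_⟩
    set L : ℝ := ((⌈(2 * S ^ 2 + 2 * S + 1) / u⌉₊ + 1 : ℕ) : ℝ)
    have hL : (2 * S ^ 2 + 2 * S + 1) / u ≤ L := by
      have := Nat.le_ceil ((2 * S ^ 2 + 2 * S + 1) / u)
      simp only [L]
      push_cast
      linarith
    have hL1 : (1 : ℝ) ≤ L := by simp [L]
    have h1 : L ≤ Real.exp (L ^ 2) := by
      have := Real.add_one_le_exp (L ^ 2)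
      nlinarith
    rw [Real.exp_neg, inv_mul_eq_div, div_le_iff₀ (Real.exp_pos _)]
    rw [div_le_iff₀ hu0] at hL
    nlinarith
  set Kmax : ℕ := K.sup id + 1 with hKmax
  set B : ℝ := 2 * Real.pi * lam * Kmax with hBdef
  have hB0 : 0 ≤ B := by positivity
  -- the dimension `D²`
  obtain ⟨D, hD2, hDB, hDexp⟩ : ∃ D : ℕ, 2 ≤ D ∧ B ≤ D ∧
      2 * S * (Real.exp (B ^ 3 / D) - 1) ≤ u := by
    have hη : 0 < u / (4 * S + 1) := by positivity
    refine ⟨⌈B⌉₊ + ⌈B ^ 3 / (u / (4 * S + 1))⌉₊ + 2, by omega, ?_, ?_⟩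
    · push_cast
      have := Nat.le_ceil B
      linarith [Nat.cast_nonneg (α := ℝ) ⌈B ^ 3 / (u / (4 * S + 1))⌉₊]
    · set D : ℝ := ((⌈B⌉₊ + ⌈B ^ 3 / (u / (4 * S + 1))⌉₊ + 2 : ℕ) : ℝ)
      have hDpos : 0 < D := by positivity
      have hD : B ^ 3 / (u / (4 * S + 1)) ≤ D := by
        have := Nat.le_ceil (B ^ 3 / (u / (4 * S + 1)))
        simp only [D]
        push_cast
        linarith [Nat.cast_nonneg (α := ℝ) ⌈B⌉₊]
      have hx : B ^ 3 / D ≤ u / (4 * S + 1) := by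
        rw [div_le_iff₀ hη] at hD
        rw [div_le_iff₀ hDpos]
        linarith
      have hx0 : 0 ≤ B ^ 3 / D := by positivity
      have hu' : u / (4 * S + 1) ≤ 1 :=
        (div_le_one (by positivity)).mpr (by linarith)
      have h1 := Real.abs_exp_sub_one_le (x := B ^ 3 / D)
        (by rw [abs_of_nonneg hx0]; linarith)
      rw [abs_of_nonneg hx0] at h1
      have h2 : Real.exp (B ^ 3 / D) - 1 ≤ 2 * (u / (4 * S + 1)) :=
        le_trans (le_abs_self _) (h1.trans (by linarith))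
      refine (mul_le_mul_of_nonneg_left h2 (by positivity)).trans ?_
      rw [← mul_assoc, mul_div_assoc', div_le_iff₀ (by positivity)]
      nlinarith
  have hDpos : (0 : ℝ) < D := by positivity
  set d : ℕ := D ^ 2 with hd
  let b : ℕ → ℝ := fun k => 2 * Real.pi * k * ((lam : ℝ) / D)
  have hb0 : ∀ k, 0 ≤ b k := fun k => by simp only [b]; positivity
  have hbB : ∀ k ∈ K, b k ≤ B / D := by
    intro k hk
    have hk' : (k : ℝ) ≤ (Kmax : ℝ) := by
      have : k ≤ K.sup id := Finset.le_sup (f := id) hk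
      exact_mod_cast (by omega : k ≤ Kmax)
    have h1 : b k = 2 * Real.pi * lam * k / D := by simp only [b]; ring
    rw [h1, hBdef]
    exact div_le_div_of_nonneg_right (mul_le_mul_of_nonneg_left hk' (by positivity)) hDpos.le
  have hb1 : ∀ k ∈ K, |b k| ≤ 1 := fun k hk => by
    rw [abs_of_nonneg (hb0 k)]
    exact (hbB k hk).trans ((div_le_one hDpos).mpr hDB)
  have hbd : ∀ k ∈ K, (lam : ℝ) ^ 2 ≤ b k ^ 2 / 4 * d := by
    intro k hk
    have hk1 : (1 : ℝ) ≤ k := by exact_mod_cast (hKodd k hk).pos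
    have h1 : b k ^ 2 / 4 * d = (Real.pi * k) ^ 2 * (lam : ℝ) ^ 2 := by
      simp only [b, hd]
      push_cast
      field_simp
      ring
    rw [h1]
    refine le_mul_of_one_le_left (by positivity) (one_le_pow₀ ?_)
    nlinarith [Real.pi_gt_three]
  let m₀ : Fin d → Fin 5 := fun _ => 2
  let cf : ℕ × (Fin d → Fin 5) → ℂ := fun p => z p.1 * ∏ l, qc (b p.1) (p.2 l)
  let hf : ℕ × (Fin d → Fin 5) → Fin (d + 1) → ℤ :=
    fun p => Fin.cons (p.1 : ℤ) (fun l => qe (p.2 l))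
  have hdot : ∀ p (x : Fin (d + 1) → ℝ),
      dotR (hf p) x = (p.1 : ℝ) * x 0 + ∑ l, (qe (p.2 l) : ℝ) * x l.succ := by
    intro p x
    simp [dotR, hf, Fin.sum_univ_succ]
  have hm0norm : ∀ k ∈ K, ‖∏ l, qc (b k) (m₀ l)‖ ≤ Real.exp (-((lam : ℝ) ^ 2)) := by
    intro k hk
    have hb := hb1 k hk
    rw [abs_of_nonneg (hb0 k)] at hb
    have h0 : 0 ≤ 1 - b k ^ 2 / 4 := by nlinarith [hb0 k]
    have hq : qc (b k) 2 = ((1 - b k ^ 2 / 4 : ℝ) : ℂ) := rfl
    simp only [m₀, Finset.prod_const, Finset.card_univ, Fintype.card_fin, hq, norm_pow,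
      Complex.norm_real, Real.norm_eq_abs, abs_of_nonneg h0]
    refine (pow_le_pow_left₀ h0 (Real.one_sub_le_exp_neg _) d).trans ?_
    rw [← Real.exp_nat_mul]
    exact Real.exp_le_exp.mpr (by linarith [hbd k hk])
  -- full expansion over all of `Fin 5` tuples
  have hexpand : ∀ (k : ℕ) (x : Fin (d + 1) → ℝ),
      ∑ m : Fin d → Fin 5, cf (k, m) * cis (dotR (hf (k, m)) x)
        = z k * cis ((k : ℝ) * x 0) * ∏ l : Fin d, ∑ j, qc (b k) j * cis ((qe j : ℝ) * x l.succ) := by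
    intro k x
    rw [Fintype.prod_sum, Finset.mul_sum]
    refine Finset.sum_congr rfl fun m _ => ?_
    have hprodcis : ∀ (s : Finset (Fin d)) (f : Fin d → ℝ),
        cis (∑ l ∈ s, f l) = ∏ l ∈ s, cis (f l) := by
      intro s f
      induction s using Finset.induction with
      | empty => simp [cis_zero]
      | insert a s ha ih => rw [Finset.sum_insert ha, Finset.prod_insert ha, cis_add, ih]
    rw [hdot, cis_add, hprodcis, Finset.prod_mul_distrib]
    simp only [cf]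
    ring
  have hphase : ∀ (k : ℕ) (x : Fin (d + 1) → ℝ),
      ∏ l : Fin d, Complex.exp (((b k * Real.cos (2 * Real.pi * x l.succ) : ℝ) : ℂ) * I)
        = cis ((k : ℝ) * ((lam : ℝ) / D * ∑ l : Fin d, Real.cos (2 * Real.pi * x l.succ))) := by
    intro k x
    rw [← Complex.exp_sum, ← Finset.sum_mul, ← Complex.ofReal_sum, ← Finset.mul_sum]
    unfold cis
    congr 2
    simp only [b]
    push_cast
    ring
  let U : Finset (ℕ × (Fin d → Fin 5)) :=
    (K ×ˢ (Finset.univ.erase m₀)).filter (fun p => cf p ≠ 0)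
  let e : Fin U.card ≃ U := U.equivFin.symm
  have hsum : ∀ {β : Type} [AddCommMonoid β] (F : ℕ × (Fin d → Fin 5) → β),
      (∀ p, cf p = 0 → F p = 0) →
        ∑ i, F (e i) = ∑ k ∈ K, ∑ m ∈ Finset.univ.erase m₀, F (k, m) := by
    intro β _ F hF
    rw [e.sum_comp (fun p : U => F p), Finset.sum_coe_sort U F]
    simp only [U]
    rw [Finset.sum_filter_of_ne (p := fun q => cf q ≠ 0) (f := F)
      (fun p _ hp hc => hp (hF p hc)), Finset.sum_product]
  set W : ℝ := 2 * ∑ i, ‖cf (e i)‖ ^ 2 with hW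
  -- L² lower bound
  have hWlb : 1 - 2 * u ≤ W := by
    have h1 : ∀ k ∈ K, ‖z k‖ ^ 2 * (1 - Real.exp (-((lam : ℝ) ^ 2)))
        ≤ ∑ m ∈ Finset.univ.erase m₀, ‖cf (k, m)‖ ^ 2 := by
      intro k hk
      have htot : ∑ m : Fin d → Fin 5, ‖cf (k, m)‖ ^ 2
          = ‖z k‖ ^ 2 * (∑ j, ‖qc (b k) j‖ ^ 2) ^ d := by
        rw [Fintype.sum_pow, Finset.mul_sum]
        simp [cf, mul_pow, Finset.prod_pow]
      have hge : ‖z k‖ ^ 2 ≤ ∑ m : Fin d → Fin 5, ‖cf (k, m)‖ ^ 2 := by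
        rw [htot]
        exact le_mul_of_one_le_right (by positivity) (one_le_pow₀ (one_le_sum_norm_qc_sq _))
      have hm : ‖cf (k, m₀)‖ ^ 2 ≤ ‖z k‖ ^ 2 * Real.exp (-((lam : ℝ) ^ 2)) := by
        simp only [cf, norm_mul, mul_pow]
        refine mul_le_mul_of_nonneg_left ?_ (by positivity)
        have h := hm0norm k hk
        have hle : Real.exp (-((lam : ℝ) ^ 2)) ≤ 1 := by
          rw [Real.exp_le_one_iff]
          have := sq_nonneg (lam : ℝ)
          linarith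
        refine (pow_le_pow_left₀ (norm_nonneg _) h 2).trans ?_
        rw [sq]
        exact mul_le_of_le_one_right (Real.exp_pos _).le hle
      rw [Finset.sum_erase_eq_sub (Finset.mem_univ m₀)]
      linarith
    rw [hW, hsum (fun p => ‖cf p‖ ^ 2) (fun p hp => by simp [hp])]
    have h2 := Finset.sum_le_sum h1
    rw [← Finset.sum_mul] at h2
    have h3 : ∑ k ∈ K, ‖z k‖ ^ 2 ≤ S ^ 2 :=
      Finset.sum_sq_le_sq_sum_of_nonneg (fun k _ => norm_nonneg _)
    have h4 : Real.exp (-((lam : ℝ) ^ 2)) * (∑ k ∈ K, ‖z k‖ ^ 2)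
        ≤ Real.exp (-((lam : ℝ) ^ 2)) * S ^ 2 :=
      mul_le_mul_of_nonneg_left h3 (Real.exp_pos _).le
    have h5 : 0 ≤ Real.exp (-((lam : ℝ) ^ 2)) * (2 * S + 1) := by positivity
    linarith
  have hWpos : 0 < W := by linarith
  -- sup bound
  have hsup : ∀ x : Fin (d + 1) → ℝ,
      |2 * (∑ i, cf (e i) * cis (dotR (hf (e i)) x)).re| ≤ 1 + 3 * u := by
    intro x
    rw [hsum (fun p => cf p * cis (dotR (hf p) x)) (fun p hp => by simp [hp])]
    set ph : ℝ := x 0 + (lam : ℝ) / D * ∑ l : Fin d, Real.cos (2 * Real.pi * x l.succ)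
    have hterm : ∀ k ∈ K,
        ‖∑ m ∈ Finset.univ.erase m₀, cf (k, m) * cis (dotR (hf (k, m)) x)
            - z k * cis ((k : ℝ) * ph)‖
          ≤ ‖z k‖ * (Real.exp (B ^ 3 / D) - 1) + ‖z k‖ * Real.exp (-((lam : ℝ) ^ 2)) := by
      intro k hk
      have hphk : cis ((k : ℝ) * ph) = cis ((k : ℝ) * x 0) *
          ∏ l : Fin d, Complex.exp (((b k * Real.cos (2 * Real.pi * x l.succ) : ℝ) : ℂ) * I) := by
        rw [hphase, ← cis_add, mul_add]
      rw [Finset.sum_erase_eq_sub (Finset.mem_univ m₀), hexpand, hphk]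
      have hnorm0 : ‖cf (k, m₀) * cis (dotR (hf (k, m₀)) x)‖
          ≤ ‖z k‖ * Real.exp (-((lam : ℝ) ^ 2)) := by
        rw [norm_mul, norm_cis, mul_one]
        simp only [cf, norm_mul]
        exact mul_le_mul_of_nonneg_left (hm0norm k hk) (norm_nonneg _)
      have hpr := norm_prod_sub_prod_le (Finset.univ : Finset (Fin d))
        (fun l => Complex.exp (((b k * Real.cos (2 * Real.pi * x l.succ) : ℝ) : ℂ) * I))
        (fun l => ∑ j, qc (b k) j * cis ((qe j : ℝ) * x l.succ))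
        (η := |b k| ^ 3) (by positivity)
        (fun l _ => le_of_eq (Complex.norm_exp_ofReal_mul_I _))
        (fun l _ => norm_exp_sub_qc _ _ (hb1 k hk))
      have hexp : Real.exp (|b k| ^ 3 * (Finset.univ : Finset (Fin d)).card) ≤
          Real.exp (B ^ 3 / D) := by
        refine Real.exp_le_exp.mpr ?_
        rw [Finset.card_univ, Fintype.card_fin, abs_of_nonneg (hb0 k)]
        refine (mul_le_mul_of_nonneg_right (pow_le_pow_left₀ (hb0 k) (hbB k hk) 3)
          (by positivity)).trans (le_of_eq ?_)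
        rw [hd]
        push_cast
        field_simp
      generalize ∏ l : Fin d, ∑ j, qc (b k) j * cis ((qe j : ℝ) * x l.succ) = Q at hpr ⊢
      generalize ∏ l : Fin d, Complex.exp (((b k * Real.cos (2 * Real.pi * x l.succ) : ℝ) : ℂ) * I)
        = E at hpr ⊢
      generalize cf (k, m₀) * cis (dotR (hf (k, m₀)) x) = T at hnorm0 ⊢
      have hrw : z k * cis ((k : ℝ) * x 0) * Q - T - z k * (cis ((k : ℝ) * x 0) * E)
          = -(z k * cis ((k : ℝ) * x 0) * (E - Q)) - T := by ring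
      rw [hrw]
      refine (norm_sub_le _ _).trans (add_le_add ?_ hnorm0)
      rw [norm_neg, norm_mul, norm_mul, norm_cis, mul_one]
      exact mul_le_mul_of_nonneg_left (by linarith) (norm_nonneg _)
    have hdiff : ‖∑ k ∈ K, ∑ m ∈ Finset.univ.erase m₀, cf (k, m) * cis (dotR (hf (k, m)) x)
        - ∑ k ∈ K, z k * cis ((k : ℝ) * ph)‖
        ≤ S * (Real.exp (B ^ 3 / D) - 1) + S * Real.exp (-((lam : ℝ) ^ 2)) := by
      rw [← Finset.sum_sub_distrib, hSdef, Finset.sum_mul, Finset.sum_mul,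
        ← Finset.sum_add_distrib]
      exact (norm_sum_le _ _).trans (Finset.sum_le_sum hterm)
    have hre := (Complex.abs_re_le_norm _).trans hdiff
    rw [Complex.sub_re] at hre
    have hf0 := hφb ph
    have h5 : 0 ≤ Real.exp (-((lam : ℝ) ^ 2)) * (2 * S ^ 2 + 1) := by positivity
    rw [abs_le] at hre hf0 ⊢
    constructor <;> linarith
  refine ⟨d + 1, U.card, fun i => hf (e i),
    fun i => (((Real.sqrt W)⁻¹ : ℝ) : ℂ) * cf (e i), ?_, ?_, ?_, ?_, ?_, ?_, ?_⟩
  · have : 1 ≤ d := Nat.one_le_pow _ _ (by omega)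
    omega
  · by_contra h
    have : IsEmpty (Fin U.card) := by
      rw [Nat.not_lt, Nat.le_zero] at h
      rw [h]; infer_instance
    rw [hW] at hWpos
    simp at hWpos
  · intro i j hij a c hrel
    have hU : ∀ i, (e i : ℕ × (Fin d → Fin 5)).1 ∈ K ∧ (e i : ℕ × (Fin d → Fin 5)).2 ≠ m₀ := by
      intro i
      have := (Finset.mem_filter.mp (e i).2).1
      rw [Finset.mem_product, Finset.mem_erase] at this
      exact ⟨this.1, this.2.1⟩
    obtain ⟨hk, hm⟩ := hU i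
    obtain ⟨hk', hm'⟩ := hU j
    set p : ℕ × (Fin d → Fin 5) := (e i : ℕ × (Fin d → Fin 5)) with hp
    set p' : ℕ × (Fin d → Fin 5) := (e j : ℕ × (Fin d → Fin 5)) with hp'
    have h0 : a * (p.1 : ℤ) + c * (p'.1 : ℤ) = 0 := by simpa [hf, ← hp, ← hp'] using hrel 0
    have hl : ∀ l, a * qe (p.2 l) + c * qe (p'.2 l) = 0 := fun l => by
      simpa [hf, ← hp, ← hp'] using hrel l.succ
    have hkpos : (0 : ℤ) < (p.1 : ℤ) := by exact_mod_cast (hKodd _ hk).pos
    have hkpos' : (0 : ℤ) < (p'.1 : ℤ) := by exact_mod_cast (hKodd _ hk').pos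
    by_cases hc : c = 0
    · subst hc
      refine ⟨?_, rfl⟩
      rw [zero_mul, add_zero] at h0
      exact (mul_eq_zero.mp h0).resolve_right hkpos.ne'
    exfalso
    have hrat : ∀ l, (p.1 : ℤ) * qe (p'.2 l) = (p'.1 : ℤ) * qe (p.2 l) := fun l => by
      refine mul_left_cancel₀ hc ?_
      linear_combination (p.1 : ℤ) * hl l - qe (p.2 l) * h0
    have hrange : ∀ t : Fin 5, qe t = -2 ∨ qe t = -1 ∨ qe t = 0 ∨ qe t = 1 ∨ qe t = 2 := by
      decide
    obtain ⟨l₀, hl₀⟩ : ∃ l, qe (p.2 l) ≠ 0 := by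
      by_contra hall
      push Not at hall
      exact hm (funext fun l => qe_injective (by rw [hall l]; rfl))
    have hkk : p.1 = p'.1 :=
      pairIndep_key (hKodd _ hk) (hKodd _ hk') (hrange _) (hrange _) (hrat l₀) hl₀
    have hmm : p.2 = p'.2 := funext fun l => qe_injective (by
      have := hrat l
      rw [hkk] at this
      exact (mul_left_cancel₀ hkpos'.ne' this).symm)
    exact hij (e.injective (Subtype.ext (Prod.ext hkk hmm)))
  · intro i h
    have h0 := congrFun h 0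
    have hk : (e i : ℕ × (Fin d → Fin 5)).1 ∈ K :=
      (Finset.mem_product.mp (Finset.mem_filter.mp (e i).2).1).1
    simp [hf] at h0
    exact absurd h0 (hKodd _ hk).pos.ne'
  · intro i
    refine mul_ne_zero ?_ (Finset.mem_filter.mp (e i).2).2
    exact Complex.ofReal_ne_zero.mpr (inv_ne_zero (Real.sqrt_ne_zero'.mpr hWpos))
  · simp only [norm_mul, Complex.norm_real, Real.norm_eq_abs, mul_pow, sq_abs, inv_pow,
      Real.sq_sqrt hWpos.le]
    rw [← Finset.mul_sum]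
    calc 2 * (W⁻¹ * ∑ i, ‖cf (e i)‖ ^ 2) = W⁻¹ * W := by rw [hW]; ring
      _ = 1 := inv_mul_cancel₀ hWpos.ne'
  · intro x
    have h1 : ∑ i, (((Real.sqrt W)⁻¹ : ℝ) : ℂ) * cf (e i) * cis (dotR (hf (e i)) x)
        = (((Real.sqrt W)⁻¹ : ℝ) : ℂ) * ∑ i, cf (e i) * cis (dotR (hf (e i)) x) := by
      rw [Finset.mul_sum]
      simp only [mul_assoc]
    rw [h1, Complex.re_ofReal_mul, mul_left_comm, abs_mul,
      abs_of_nonneg (by positivity : (0 : ℝ) ≤ (Real.sqrt W)⁻¹), inv_mul_eq_div,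
      div_le_iff₀ (Real.sqrt_pos.mpr hWpos)]
    refine (hsup x).trans ?_
    have h2 : 1 - 2 * u ≤ Real.sqrt W := by
      rw [Real.le_sqrt (by linarith) hWpos.le]
      nlinarith
    refine le_trans ?_ (mul_le_mul_of_nonneg_left h2 (by linarith))
    nlinarith

end Vale.Agent.P110
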